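import Mathlib

/-!
P132: Cayley unitaries of bounded self-adjoint operators, and how far a commuting pair of them
moves a vector compared with the difference of the generators.
-/

open scoped InnerProductSpace

namespace VP132.Walk

variable {E : Type*} [NormedAddCommGroup E] [InnerProductSpace ℂ E] [CompleteSpace E]

/-- The operator `1 - i θ a`. -/
noncomputable def den (a : E →L[ℂ] E) (θ : ℝ) : E →L[ℂ] E :=
  1 - (Complex.I * θ) • a

/-- The Cayley transform `(1 + i θ a) (1 - i θ a)⁻¹`. -/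
noncomputable def cay (a : E →L[ℂ] E) (θ : ℝ) : E →L[ℂ] E :=
  den a (-θ) * Ring.inverse (den a θ)

theorem norm_sq_den {a : E →L[ℂ] E} (ha : IsSelfAdjoint a) (θ : ℝ) (x : E) :
    ‖den a θ x‖ ^ 2 = ‖x‖ ^ 2 + θ ^ 2 * ‖a x‖ ^ 2 := by
  have him : (⟪x, a x⟫_ℂ).im = 0 := by
    have h := congrArg Complex.im (ha.isSymmetric x x)
    rw [ContinuousLinearMap.coe_coe, ← inner_conj_symm (a x) x, Complex.conj_im] at h
    linarith
  simp only [den, sub_apply, one_apply_eq_self, smul_apply]
  rw [norm_sub_sq (𝕜 := ℂ), inner_smul_right, norm_smul]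
  simp only [RCLike.re_to_complex, Complex.mul_re, Complex.I_re, Complex.I_im, Complex.mul_im,
    Complex.ofReal_re, Complex.ofReal_im, Complex.norm_mul, Complex.norm_I, Complex.norm_real,
    Real.norm_eq_abs, him]
  rw [mul_pow, mul_pow, sq_abs]
  ring

theorem le_norm_den {a : E →L[ℂ] E} (ha : IsSelfAdjoint a) (θ : ℝ) (x : E) :
    ‖x‖ ≤ ‖den a θ x‖ := by
  have h := norm_sq_den ha θ x
  nlinarith [sq_nonneg (θ * ‖a x‖), norm_nonneg (den a θ x), norm_nonneg x]

omit [CompleteSpace E] in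
theorem norm_den_le (a : E →L[ℂ] E) (θ : ℝ) (x : E) :
    ‖den a θ x‖ ≤ (1 + |θ| * ‖a‖) * ‖x‖ := by
  simp only [den, sub_apply, one_apply_eq_self, smul_apply]
  refine (norm_sub_le _ _).trans ?_
  rw [norm_smul, Complex.norm_mul, Complex.norm_I, Complex.norm_real, Real.norm_eq_abs, one_mul]
  have := a.le_opNorm x
  nlinarith [abs_nonneg θ]

theorem isUnit_den {a : E →L[ℂ] E} (ha : IsSelfAdjoint a) (θ : ℝ) : IsUnit (den a θ) := by
  rcases eq_or_ne θ 0 with rfl | hθ
  · simp [den]
  · have hs : IsUnit (algebraMap ℂ (E →L[ℂ] E) (-(Complex.I / θ)) - a) := by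
      by_contra h
      have := ha.im_eq_zero_of_mem_spectrum (spectrum.mem_iff.2 h)
      simp [hθ] at this
    have hθ' : (θ : ℂ) ≠ 0 := by exact_mod_cast hθ
    have e : den a θ = algebraMap ℂ (E →L[ℂ] E) (Complex.I * θ)
        * (algebraMap ℂ (E →L[ℂ] E) (-(Complex.I / θ)) - a) := by
      rw [mul_sub, ← map_mul, ← Algebra.smul_def, den]
      rw [show (Complex.I * θ * -(Complex.I / θ) : ℂ) = 1 by field_simp; simp]
      rw [map_one]
    rw [e]
    exact ((Ne.isUnit (mul_ne_zero Complex.I_ne_zero hθ')).map _).mul hs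

omit [CompleteSpace E] in
theorem commute_den {a b : E →L[ℂ] E} (h : Commute a b) (θ t : ℝ) :
    Commute (den a θ) (den b t) :=
  ((Commute.one_left _).sub_left
    (((Commute.one_right _).sub_right (h.smul_right _)).smul_left _))

theorem den_mul_cay {a : E →L[ℂ] E} (ha : IsSelfAdjoint a) (θ : ℝ) :
    den a θ * cay a θ = den a (-θ) := by
  rw [cay, ← mul_assoc, (commute_den (Commute.refl a) θ (-θ)).eq, mul_assoc,
    Ring.mul_inverse_cancel _ (isUnit_den ha θ), mul_one]

omit [CompleteSpace E] in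
theorem commute_ringInverse {p q : E →L[ℂ] E} (h : Commute p q) (hp : IsUnit p) :
    Commute (Ring.inverse p) q := by
  obtain ⟨u, rfl⟩ := hp
  rw [Ring.inverse_unit]
  exact h.units_inv_left

theorem norm_cay {a : E →L[ℂ] E} (ha : IsSelfAdjoint a) (θ : ℝ) (x : E) :
    ‖cay a θ x‖ = ‖x‖ := by
  set y := Ring.inverse (den a θ) x with hy
  have hx : den a θ y = x := by
    rw [hy, ← mul_apply_eq_comp,
      Ring.mul_inverse_cancel _ (isUnit_den ha θ), one_apply_eq_self]
  have e : cay a θ x = den a (-θ) y := rfl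
  have h : ‖cay a θ x‖ ^ 2 = ‖x‖ ^ 2 := by
    rw [e, ← hx, norm_sq_den ha, norm_sq_den ha]; ring
  exact (pow_left_inj₀ (norm_nonneg _) (norm_nonneg _) two_ne_zero).1 h

theorem star_den {a : E →L[ℂ] E} (ha : IsSelfAdjoint a) (θ : ℝ) :
    star (den a θ) = den a (-θ) := by
  simp [den, ha.star_eq]

theorem star_cay {a : E →L[ℂ] E} (ha : IsSelfAdjoint a) (θ : ℝ) :
    star (cay a θ) = cay a (-θ) := by
  rw [cay, star_mul, ← Ring.inverse_star, star_den ha, star_den ha, cay, neg_neg]
  exact (commute_ringInverse (commute_den (Commute.refl a) (-θ) θ) (isUnit_den ha (-θ))).eq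

theorem cay_neg_mul {a : E →L[ℂ] E} (ha : IsSelfAdjoint a) (θ : ℝ) :
    cay a (-θ) * cay a θ = 1 := by
  have h : Commute (Ring.inverse (den a (-θ))) (den a θ) :=
    commute_ringInverse (commute_den (Commute.refl a) (-θ) θ) (isUnit_den ha (-θ))
  rw [cay, cay, neg_neg, ← h.eq, mul_assoc, ← mul_assoc (den a θ),
    (commute_den (Commute.refl a) θ (-θ)).eq, mul_assoc, ← mul_assoc (Ring.inverse _),
    Ring.inverse_mul_cancel _ (isUnit_den ha _), one_mul,
    Ring.mul_inverse_cancel _ (isUnit_den ha _)]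

/-- The displacement of `x` by the pair, against the difference of the generators. -/
theorem pair_bounds {a b : E →L[ℂ] E} (ha : IsSelfAdjoint a) (hb : IsSelfAdjoint b)
    (hab : Commute a b) (θ : ℝ) (x : E) :
    ‖(cay a θ * cay b (-θ)) x - x‖ ≤ 2 * |θ| * ‖(a - b) x‖ ∧
      2 * |θ| * ‖(a - b) x‖ ≤
        (1 + |θ| * ‖a‖) * (1 + |θ| * ‖b‖) * ‖(cay a θ * cay b (-θ)) x - x‖ := by
  set G := cay a θ * cay b (-θ) with hG
  have h1 : den a θ * den b (-θ) * G = den a (-θ) * den b θ := by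
    have c1 : Commute (den b (-θ)) (cay a θ) :=
      (commute_den hab.symm _ _).mul_right (commute_ringInverse (commute_den hab.symm (-θ) θ).symm (isUnit_den ha θ)).symm
    rw [hG, mul_assoc, ← mul_assoc (den b (-θ)), c1.eq, mul_assoc, ← mul_assoc,
      den_mul_cay ha, den_mul_cay hb, neg_neg]
  have h2 : den a θ * den b (-θ) * (G - 1) = (2 * Complex.I * θ) • (a - b) := by
    rw [mul_sub, mul_one, h1]
    simp only [den, Complex.ofReal_neg, mul_neg, neg_smul, sub_neg_eq_add, mul_sub, sub_mul,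
      mul_add, add_mul, one_mul, mul_one, smul_mul_assoc, mul_smul_comm, smul_sub,
      mul_assoc (2 : ℂ), mul_smul (2 : ℂ), two_smul, smul_add]
    abel
  have h3 : den a θ (den b (-θ) (G x - x)) = (2 * Complex.I * θ) • (a - b) x := by
    have := congrArg (fun T : E →L[ℂ] E => T x) h2
    simpa using this
  have h4 : ‖den a θ (den b (-θ) (G x - x))‖ = 2 * |θ| * ‖(a - b) x‖ := by
    rw [h3, norm_smul]; simp
  rw [← h4]
  refine ⟨(le_norm_den hb _ _).trans (le_norm_den ha _ _), ?_⟩
  refine (norm_den_le a θ _).trans ?_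
  rw [mul_assoc]
  refine mul_le_mul_of_nonneg_left ?_ (by positivity)
  simpa using norm_den_le b (-θ) (G x - x)

end VP132.Walk
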