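import Vale.Agent.P132.Walk
import Vale.Agent.P132.Cayley

/-!
P132, step 4: if `η` is almost fixed by every element of a monoid of isometries almost fixing `ξ`,
then for every finite family of commuting self-adjoint pairs of small total defect at `ξ` there is
`η'` near `η` with small total defect.
-/

open scoped InnerProductSpace

namespace VP132.Walk

variable {E : Type*} [NormedAddCommGroup E] [InnerProductSpace ℂ E] [CompleteSpace E]

theorem commute_cay {a b : E →L[ℂ] E} (ha : IsSelfAdjoint a) (hb : IsSelfAdjoint b)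
    (h : Commute a b) (θ t : ℝ) : Commute (cay a θ) (cay b t) := by
  have h1 : Commute (cay a θ) (den b t) :=
    (commute_den h _ _).mul_left (commute_ringInverse (commute_den h _ _) (isUnit_den ha θ))
  have h2 : Commute (cay a θ) (den b (-t)) :=
    (commute_den h _ _).mul_left (commute_ringInverse (commute_den h _ _) (isUnit_den ha θ))
  exact h2.mul_right (commute_ringInverse h1.symm (isUnit_den hb t)).symm

/-- The walk lemma, from the modulus at one pair `d`, `e / 2`. -/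
theorem walk_lemma_at (S : Submonoid (E →L[ℂ] E)) (hS : ∀ g ∈ S, ∀ x, ‖g x‖ = ‖x‖) (ξ η : E)
    {e d B : ℝ} (he : 0 < e) (hd : 0 < d) (hB : ‖η‖ ≤ B)
    (hd' : ∀ g ∈ S, ‖g ξ - ξ‖ ≤ d → ‖g η - η‖ ≤ e / 2)
    (ι : Type) [Fintype ι] (L R : ι → E →L[ℂ] E) (hL : ∀ i, IsSelfAdjoint (L i))
    (hR : ∀ i, IsSelfAdjoint (R i)) (hLR : ∀ i, Commute (L i) (R i))
    (hmem : ∀ i (θ : ℝ), cay (L i) θ * cay (R i) (-θ) ∈ S) (s : ℝ) (hs : 0 < s)
    (hsum0 : s * ∑ i, ‖(L i - R i) ξ‖ ^ 2 ≤ e * d ^ 2 / (32 * (B + 1))) :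
    ∃ η' : E, ‖η' - η‖ ≤ e ∧ s * ∑ i, ‖(L i - R i) η'‖ ^ 2 ≤ 64 * ‖η‖ ^ 2 := by
  have hsum : s * ∑ i, ‖(L i - R i) ξ‖ ^ 2 ≤ e * d ^ 2 / (32 * (‖η‖ + 1)) :=
    hsum0.trans (by gcongr)
  rcases isEmpty_or_nonempty ι with hι | hι
  · refine ⟨η, by simpa using he.le, ?_⟩
    simp
  set N : ℝ := (Fintype.card ι : ℝ) with hN
  have hN0 : 0 < N := by rw [hN]; exact_mod_cast Fintype.card_pos
  set M : ℝ := 1 + ∑ i, (‖L i‖ + ‖R i‖) with hM
  have hM1 : 1 ≤ M := le_add_of_nonneg_right (by positivity)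
  set θ : ℝ := min (1 / M) (Real.sqrt (s * N)) with hθdef
  have hθ : 0 < θ := lt_min (by positivity) (Real.sqrt_pos.2 (by positivity))
  have hθ2 : θ ^ 2 ≤ s * N := by
    calc θ ^ 2 ≤ Real.sqrt (s * N) ^ 2 := pow_le_pow_left₀ hθ.le (min_le_right _ _) 2
      _ = s * N := Real.sq_sqrt (by positivity)
  have hfac : ∀ i, (1 + |θ| * ‖L i‖) * (1 + |θ| * ‖R i‖) ≤ 4 := by
    intro i
    have h1 : ‖L i‖ + ‖R i‖ ≤ M := by
      rw [hM]
      have := Finset.single_le_sum (f := fun i => ‖L i‖ + ‖R i‖)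
        (fun j _ => by positivity) (Finset.mem_univ i)
      linarith
    have h2 : θ * M ≤ 1 := by
      rw [← le_div_iff₀ (by positivity)]; exact min_le_left _ _
    rw [abs_of_pos hθ]
    have hl : θ * ‖L i‖ ≤ 1 :=
      le_trans (mul_le_mul_of_nonneg_left (by linarith [norm_nonneg (R i)]) hθ.le) h2
    have hr : θ * ‖R i‖ ≤ 1 :=
      le_trans (mul_le_mul_of_nonneg_left (by linarith [norm_nonneg (L i)]) hθ.le) h2
    calc _ ≤ (2 : ℝ) * 2 := mul_le_mul (by linarith) (by linarith) (by positivity) (by norm_num)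
      _ = 4 := by norm_num
  let G : ι → ℝ → E →L[ℂ] E := fun i t => cay (L i) t * cay (R i) (-t)
  let U : ι × Bool → E →L[ℂ] E := fun p => G p.1 (if p.2 then θ else -θ)
  have hstar : ∀ i t, star (G i t) = G i (-t) := by
    intro i t
    simp only [G, star_mul, star_cay (hL i), star_cay (hR i)]
    exact (commute_cay (hR i) (hL i) (hLR i).symm _ _).eq
  have hsa : IsSelfAdjoint (avg U) := by
    have hswap : ∑ p, star (U p) = ∑ p, U p := by
      simp only [U, Fintype.sum_prod_type, Fintype.sum_bool, hstar, if_true, Bool.false_eq_true,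
        if_false, neg_neg]
      exact Finset.sum_congr rfl fun i _ => add_comm _ _
    simp [IsSelfAdjoint, avg, star_sum, hswap]
  obtain ⟨k, hk, hk1, hk2⟩ : ∃ k : ℕ, 0 < k ∧ s * N / θ ^ 2 ≤ k ∧ (k : ℝ) ≤ 2 * (s * N / θ ^ 2) := by
    have h1 : 1 ≤ s * N / θ ^ 2 := (one_le_div (by positivity)).2 hθ2
    refine ⟨⌈s * N / θ ^ 2⌉₊, Nat.ceil_pos.2 (by positivity), Nat.le_ceil _, ?_⟩
    have := Nat.ceil_lt_add_one (show 0 ≤ s * N / θ ^ 2 by positivity)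
    linarith
  obtain ⟨η', h1, h2⟩ := exists_near_almost_fixed S hS U (fun p => hmem _ _) hsa ξ η
    (show 0 ≤ e / 2 by linarith) hd hd' k hk
  have hcard : (Fintype.card (ι × Bool) : ℝ) = 2 * N := by
    simp [hN, mul_comm]
  rw [hcard] at h1 h2
  set Sξ := ∑ i, ‖(L i - R i) ξ‖ ^ 2 with hSξ
  refine ⟨η', h1.trans ?_, ?_⟩
  · have hD : (2 * N)⁻¹ * ∑ p, ‖U p ξ - ξ‖ ^ 2 ≤ 4 * θ ^ 2 / N * Sξ := by
      have hp : ∀ p : ι × Bool, ‖U p ξ - ξ‖ ^ 2 ≤ 4 * θ ^ 2 * ‖(L p.1 - R p.1) ξ‖ ^ 2 := by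
        intro p
        have hb := (pair_bounds (hL p.1) (hR p.1) (hLR p.1) (if p.2 then θ else -θ) ξ).1
        have habs : |if p.2 then θ else -θ| = θ := by
          split <;> simp [abs_of_pos hθ]
        rw [habs] at hb
        calc ‖U p ξ - ξ‖ ^ 2 ≤ (2 * θ * ‖(L p.1 - R p.1) ξ‖) ^ 2 :=
              pow_le_pow_left₀ (norm_nonneg _) hb 2
          _ = _ := by ring
      calc _ ≤ (2 * N)⁻¹ * ∑ p : ι × Bool, 4 * θ ^ 2 * ‖(L p.1 - R p.1) ξ‖ ^ 2 := by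
            gcongr with p; exact hp p
        _ = _ := by
            rw [Fintype.sum_prod_type]
            simp only [Fintype.sum_bool, hSξ, ← two_mul, ← Finset.mul_sum]
            field_simp
    have hS0 : 0 ≤ Sξ := by positivity
    have hkD : (k : ℝ) * ((2 * N)⁻¹ * ∑ p, ‖U p ξ - ξ‖ ^ 2) ≤ 8 * (s * Sξ) := by
      calc _ ≤ 2 * (s * N / θ ^ 2) * (4 * θ ^ 2 / N * Sξ) := by gcongr
        _ = _ := by field_simp; ring
    calc _ ≤ e / 2 + 2 * ‖η‖ / d ^ 2 * (8 * (e * d ^ 2 / (32 * (‖η‖ + 1)))) := by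
          gcongr e / 2 + 2 * ‖η‖ / d ^ 2 * ?_
          exact hkD.trans (mul_le_mul_of_nonneg_left hsum (by norm_num))
      _ = e / 2 + e / 2 * (‖η‖ / (‖η‖ + 1)) := by field_simp; ring
      _ ≤ e / 2 + e / 2 * 1 := by
          gcongr; exact (div_le_one (by positivity)).2 (by linarith)
      _ = e := by ring
  · have hp : ∀ i, ‖(L i - R i) η'‖ ^ 2 ≤ 4 / θ ^ 2 * ‖U (i, true) η' - η'‖ ^ 2 := by
      intro i
      have hb := (pair_bounds (hL i) (hR i) (hLR i) θ η').2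
      rw [abs_of_pos hθ] at hb
      have hb' : θ * ‖(L i - R i) η'‖ ≤ 2 * ‖U (i, true) η' - η'‖ := by
        have : (1 + θ * ‖L i‖) * (1 + θ * ‖R i‖) * ‖U (i, true) η' - η'‖
            ≤ 4 * ‖U (i, true) η' - η'‖ := by
          gcongr
          simpa [abs_of_pos hθ] using hfac i
        simp only [U, G, if_true] at this ⊢
        linarith
      have := pow_le_pow_left₀ (by positivity) hb' 2
      rw [div_mul_eq_mul_div, le_div_iff₀ (by positivity)]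
      linarith [this, mul_pow θ ‖(L i - R i) η'‖ 2, mul_pow (2 : ℝ) ‖U (i, true) η' - η'‖ 2]
    have hsum2 : ∑ i, ‖U (i, true) η' - η'‖ ^ 2 ≤ 2 * N * (8 * ‖η‖ ^ 2 / k) := by
      rw [inv_mul_le_iff₀ (by positivity)] at h2
      refine le_trans ?_ h2
      rw [Fintype.sum_prod_type]
      refine Finset.sum_le_sum fun i _ => ?_
      rw [Fintype.sum_bool]
      exact le_add_of_nonneg_right (by positivity)
    have hk0 : (0 : ℝ) < k := by exact_mod_cast hk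
    have hsk : s * N / θ ^ 2 / k ≤ 1 := (div_le_one hk0).2 hk1
    calc s * ∑ i, ‖(L i - R i) η'‖ ^ 2
        ≤ s * (4 / θ ^ 2 * (2 * N * (8 * ‖η‖ ^ 2 / k))) := by
          gcongr
          calc _ ≤ ∑ i, 4 / θ ^ 2 * ‖U (i, true) η' - η'‖ ^ 2 := Finset.sum_le_sum fun i _ => hp i
            _ ≤ _ := by rw [← Finset.mul_sum]; gcongr
      _ = 64 * ‖η‖ ^ 2 * (s * N / θ ^ 2 / k) := by field_simp; ring
      _ ≤ 64 * ‖η‖ ^ 2 * 1 := by gcongr
      _ = _ := mul_one _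

/-- The walk lemma. -/
theorem walk_lemma (S : Submonoid (E →L[ℂ] E)) (hS : ∀ g ∈ S, ∀ x, ‖g x‖ = ‖x‖) (ξ η : E)
    (hmod : ∀ e : ℝ, 0 < e → ∃ d : ℝ, 0 < d ∧ ∀ g ∈ S, ‖g ξ - ξ‖ ≤ d → ‖g η - η‖ ≤ e)
    {e : ℝ} (he : 0 < e) :
    ∃ c : ℝ, 0 < c ∧ ∀ (ι : Type) [Fintype ι] (L R : ι → E →L[ℂ] E),
      (∀ i, IsSelfAdjoint (L i)) → (∀ i, IsSelfAdjoint (R i)) → (∀ i, Commute (L i) (R i)) →
      (∀ i (θ : ℝ), cay (L i) θ * cay (R i) (-θ) ∈ S) →
      ∀ s : ℝ, 0 < s → s * ∑ i, ‖(L i - R i) ξ‖ ^ 2 ≤ c →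
        ∃ η' : E, ‖η' - η‖ ≤ e ∧ s * ∑ i, ‖(L i - R i) η'‖ ^ 2 ≤ 64 * ‖η‖ ^ 2 := by
  obtain ⟨d, hd, hd'⟩ := hmod (e / 2) (by linarith)
  exact ⟨e * d ^ 2 / (32 * (‖η‖ + 1)), by positivity,
    fun ι _ L R hL hR hLR hmem s hs hsum =>
      walk_lemma_at S hS ξ η he hd le_rfl hd' ι L R hL hR hLR hmem s hs hsum⟩

end VP132.Walk
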