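import Vale.Agent.P132.Interface
import Vale.Agent.P132.WalkLemma

/-!
P132, the walk in `M`: a modulus on unitaries gives one on square summable families.
-/

open scoped InnerProductSpace
open Vale.Agent.P132.Tomita (conjBy Modular)

namespace VP132

variable {H : Type} [NormedAddCommGroup H] [InnerProductSpace ℂ H] [CompleteSpace H]

namespace Row

omit [CompleteSpace H] in
theorem conjBy_apply (J : H ≃ₗᵢ⋆[ℂ] H) (x : H →L[ℂ] H) (v : H) : conjBy J x v = J (x (J v)) := rfl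

omit [CompleteSpace H] in
theorem inner_J (J : H ≃ₗᵢ⋆[ℂ] H) (u v : H) : ⟪J u, J v⟫_ℂ = ⟪v, u⟫_ℂ := by
  have h1 := @inner_eq_sum_norm_sq_div_four ℂ H _ _ _ (J u) (J v)
  have h2 := @inner_eq_sum_norm_sq_div_four ℂ H _ _ _ v u
  have hI : J u - (Complex.I : ℂ) • J v = J (u + (Complex.I : ℂ) • v) := by
    rw [map_add, LinearIsometryEquiv.map_smulₛₗ]; simp [sub_eq_add_neg]
  have hI' : J u + (Complex.I : ℂ) • J v = J (u - (Complex.I : ℂ) • v) := by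
    rw [map_sub, LinearIsometryEquiv.map_smulₛₗ]; simp
  have n1 : ∀ a b : H, ‖a + (Complex.I : ℂ) • b‖ = ‖b - (Complex.I : ℂ) • a‖ := by
    intro a b
    rw [← one_mul ‖b - (Complex.I : ℂ) • a‖, ← Complex.norm_I, ← norm_smul, smul_sub, smul_smul,
      Complex.I_mul_I]
    simp [add_comm]
  have n2 : ‖u + (Complex.I : ℂ) • v‖ = ‖v - (Complex.I : ℂ) • u‖ := n1 u v
  have n3 : ‖u - (Complex.I : ℂ) • v‖ = ‖v + (Complex.I : ℂ) • u‖ := by
    rw [n1 v u]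
  rw [h1, h2, ← map_add, ← map_sub]
  simp only [RCLike.I_to_complex, hI, hI', LinearIsometryEquiv.norm_map]
  rw [n2, n3, add_comm u v, norm_sub_rev u v]

omit [CompleteSpace H] in
theorem conjBy_mul (J : H ≃ₗᵢ⋆[ℂ] H) (hJ : ∀ v, J (J v) = v) (x y : H →L[ℂ] H) :
    conjBy J (x * y) = conjBy J x * conjBy J y := by
  ext v; simp [conjBy_apply, hJ]

omit [CompleteSpace H] in
theorem conjBy_one (J : H ≃ₗᵢ⋆[ℂ] H) (hJ : ∀ v, J (J v) = v) : conjBy J 1 = 1 := by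
  ext v; simp [conjBy_apply, hJ]

theorem star_conjBy (J : H ≃ₗᵢ⋆[ℂ] H) (hJ : ∀ v, J (J v) = v) (x : H →L[ℂ] H) :
    star (conjBy J x) = conjBy J (star x) := by
  symm
  rw [ContinuousLinearMap.star_eq_adjoint (conjBy J x), ContinuousLinearMap.eq_adjoint_iff]
  intro u v
  calc ⟪conjBy J (star x) u, v⟫_ℂ = ⟪J (star x (J u)), J (J v)⟫_ℂ := by rw [hJ, conjBy_apply]
    _ = ⟪J v, star x (J u)⟫_ℂ := inner_J _ _ _
    _ = ⟪x (J v), J u⟫_ℂ := by
      rw [ContinuousLinearMap.star_eq_adjoint, ContinuousLinearMap.adjoint_inner_right]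
    _ = ⟪J (J u), J (x (J v))⟫_ℂ := (inner_J _ _ _).symm
    _ = _ := by rw [hJ, conjBy_apply]

omit [CompleteSpace H] in
theorem conjBy_ringInverse (J : H ≃ₗᵢ⋆[ℂ] H) (hJ : ∀ v, J (J v) = v) {x : H →L[ℂ] H}
    (hx : IsUnit x) : Ring.inverse (conjBy J x) = conjBy J (Ring.inverse x) := by
  let U : (H →L[ℂ] H)ˣ :=
    { val := conjBy J x
      inv := conjBy J (Ring.inverse x)
      val_inv := by rw [← conjBy_mul J hJ, Ring.mul_inverse_cancel _ hx, conjBy_one J hJ]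
      inv_val := by rw [← conjBy_mul J hJ, Ring.inverse_mul_cancel _ hx, conjBy_one J hJ] }
  exact Ring.inverse_unit U

omit [CompleteSpace H] in
theorem conjBy_den (J : H ≃ₗᵢ⋆[ℂ] H) (hJ : ∀ v, J (J v) = v) (x : H →L[ℂ] H) (t : ℝ) :
    conjBy J (Walk.den x t) = Walk.den (conjBy J x) (-t) := by
  ext v
  simp [conjBy_apply, Walk.den, hJ, LinearIsometryEquiv.map_smulₛₗ]

theorem conjBy_cay (J : H ≃ₗᵢ⋆[ℂ] H) (hJ : ∀ v, J (J v) = v) {x : H →L[ℂ] H}
    (hx : IsSelfAdjoint x) (t : ℝ) : conjBy J (Walk.cay x t) = Walk.cay (conjBy J x) (-t) := by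
  rw [Walk.cay, Walk.cay, conjBy_mul J hJ, conjBy_den J hJ, ← conjBy_den J hJ x t,
    conjBy_ringInverse J hJ (Walk.isUnit_den hx t)]

theorem cay_mem (M : VonNeumannAlgebra H) {x : H →L[ℂ] H} (hx : IsSelfAdjoint x) (hxM : x ∈ M)
    (t : ℝ) : Walk.cay x t ∈ M := by
  rw [← VonNeumannAlgebra.commutant_commutant M, VonNeumannAlgebra.mem_commutant_iff]
  intro g hg
  have hgx : Commute g x := (VonNeumannAlgebra.mem_commutant_iff.1 hg x hxM).symm
  have hd : ∀ s, Commute g (Walk.den x s) := fun s =>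
    (Commute.one_right _).sub_right (hgx.smul_right _)
  exact ((hd (-t)).mul_right
    (Walk.commute_ringInverse (hd t).symm (Walk.isUnit_den hx t)).symm).eq

variable {M : VonNeumannAlgebra H} {ξ : H} {R : H →L[ℂ] H} {J : H ≃ₗᵢ⋆[ℂ] H}
  {U : ℝ → H →L[ℂ] H}

theorem commute_conjBy (hm : Modular M ξ R J U) {x y : H →L[ℂ] H} (hx : x ∈ M) (hy : y ∈ M) :
    Commute x (conjBy J y) :=
  VonNeumannAlgebra.mem_commutant_iff.1 (hm.conj_mem y hy) x hx

/-- The monoid of the maps `W * conjBy J W`, `W` a unitary of `M`. -/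
def adGroup (hm : Modular M ξ R J U) : Submonoid (H →L[ℂ] H) where
  carrier := {g | ∃ W ∈ M, star W * W = 1 ∧ W * star W = 1 ∧ g = W * conjBy J W}
  one_mem' := ⟨1, one_mem M, by simp, by simp, by simp [conjBy_one J hm.J_J]⟩
  mul_mem' := by
    rintro _ _ ⟨W, hW, h1, h2, rfl⟩ ⟨V, hV, h3, h4, rfl⟩
    refine ⟨W * V, mul_mem hW hV, ?_, ?_, ?_⟩
    · rw [star_mul, mul_assoc, ← mul_assoc (star W), h1, one_mul, h3]
    · rw [star_mul, mul_assoc, ← mul_assoc V, h4, one_mul, h2]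
    · rw [conjBy_mul J hm.J_J]
      simp only [mul_assoc]
      rw [← mul_assoc (conjBy J W) V, ← (commute_conjBy hm hV hW).eq, mul_assoc]

theorem norm_apply_eq {W : H →L[ℂ] H} (h : star W * W = 1) (v : H) : ‖W v‖ = ‖v‖ := by
  have e : ⟪W v, W v⟫_ℂ = ⟪v, v⟫_ℂ := by
    rw [← ContinuousLinearMap.adjoint_inner_left, ← ContinuousLinearMap.star_eq_adjoint,
      ← mul_apply_eq_comp, h, one_apply_eq_self]
  rw [inner_self_eq_norm_sq_to_K, inner_self_eq_norm_sq_to_K] at e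
  exact (pow_left_inj₀ (norm_nonneg _) (norm_nonneg _) two_ne_zero).1 (by exact_mod_cast e)

theorem adGroup_isometry (hm : Modular M ξ R J U) :
    ∀ g ∈ adGroup hm, ∀ v, ‖g v‖ = ‖v‖ := by
  rintro _ ⟨W, -, h1, -, rfl⟩ v
  simp [conjBy_apply, norm_apply_eq h1]

theorem norm_star_defect (hm : Modular M ξ R J U) (y : H →L[ℂ] H) :
    ‖star y ξ - rho J (star y) ξ‖ = ‖y ξ - rho J y ξ‖ := by
  simp only [rho, star_star, conjBy_apply, hm.J_xi]
  rw [← LinearIsometryEquiv.norm_map J, map_sub, hm.J_J, norm_sub_rev]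

/-- `W * conjBy J W` moves `ξ` by the defect of `W`, and `a ξ` by at most the commutator. -/
theorem adGroup_mod (hm : Modular M ξ R J U) {a : H →L[ℂ] H} (ha : a ∈ M) {W : H →L[ℂ] H}
    (hW : W ∈ M) (h1 : star W * W = 1) (h2 : W * star W = 1) :
    ‖(W * conjBy J W) ξ - ξ‖ = ‖W ξ - rho J W ξ‖ ∧
    ‖(W * conjBy J W) (a ξ) - a ξ‖
      ≤ ‖(W * a - a * W) ξ‖ + 3 * ‖a‖ * ‖W ξ - rho J W ξ‖ := by
  have hd : ‖conjBy J W ξ - star W ξ‖ = ‖W ξ - rho J W ξ‖ := by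
    simp only [rho, conjBy_apply, hm.J_xi]
    rw [← LinearIsometryEquiv.norm_map J, map_sub, hm.J_J]
  have hWn := norm_apply_eq h1
  have hW' : ∀ v, W (star W v) = v := fun v => by
    rw [← mul_apply_eq_comp, h2, one_apply_eq_self]
  refine ⟨?_, ?_⟩
  · rw [mul_apply_eq_comp, ← hd, ← hWn (conjBy J W ξ - star W ξ), map_sub, hW']
  · have hc : conjBy J W (a ξ) = a (conjBy J W ξ) := by
      rw [← mul_apply_eq_comp, ← (commute_conjBy hm ha hW).eq, mul_apply_eq_comp]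
    set r := conjBy J W ξ - star W ξ with hr
    set c := W * a - a * W with hcdef
    have hcc : Commute c (conjBy J W) :=
      commute_conjBy hm (sub_mem (mul_mem hW ha) (mul_mem ha hW)) hW
    have hdec : (W * conjBy J W) (a ξ) - a ξ = W (a r) + c (star W ξ) := by
      rw [mul_apply_eq_comp, hc, hr, hcdef]
      simp [hW']
    have hc1 : ‖c (conjBy J W ξ)‖ = ‖c ξ‖ := by
      rw [← mul_apply_eq_comp, hcc.eq, mul_apply_eq_comp, conjBy_apply,
        LinearIsometryEquiv.norm_map, hWn, LinearIsometryEquiv.norm_map]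
    have hc2 : c (star W ξ) = c (conjBy J W ξ) - c r := by rw [hr, map_sub]; abel
    have hcn : ‖c r‖ ≤ 2 * ‖a‖ * ‖r‖ := by
      rw [hcdef, sub_apply, mul_apply_eq_comp, mul_apply_eq_comp]
      refine (norm_sub_le _ _).trans ?_
      rw [hWn]
      have h3 := a.le_opNorm r
      have h4 := a.le_opNorm (W r)
      rw [hWn] at h4
      linarith
    rw [hdec, hc2]
    have h5 := a.le_opNorm r
    calc ‖W (a r) + (c (conjBy J W ξ) - c r)‖ ≤ ‖W (a r)‖ + (‖c (conjBy J W ξ)‖ + ‖c r‖) :=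
          (norm_add_le _ _).trans (add_le_add le_rfl (norm_sub_le _ _))
      _ ≤ ‖a‖ * ‖r‖ + (‖c ξ‖ + 2 * ‖a‖ * ‖r‖) := by rw [hWn, hc1]; gcongr
      _ = _ := by rw [← hd]; ring

end Row

open Row in
/-- A modulus on unitaries gives one on square summable families. -/
theorem rowSpec {M : VonNeumannAlgebra H} {ξ : H} {R : H →L[ℂ] H} {J : H ≃ₗᵢ⋆[ℂ] H}
    {U : ℝ → H →L[ℂ] H} (hm : Modular M ξ R J U) : RowSpec M ξ J := by
  rintro a ⟨haM, hmod⟩
  refine ⟨haM, fun ε hε => ?_⟩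
  have hmod' : ∀ e : ℝ, 0 < e → ∃ d : ℝ, 0 < d ∧ ∀ g ∈ adGroup hm,
      ‖g ξ - ξ‖ ≤ d → ‖g (a ξ) - a ξ‖ ≤ e := by
    intro e he
    obtain ⟨δ, hδ, hδ'⟩ := hmod (e / 2) (by linarith)
    refine ⟨min δ (e / (6 * ‖a‖ + 1)), lt_min hδ (by positivity), ?_⟩
    rintro _ ⟨W, hW, h1, h2, rfl⟩ hg
    obtain ⟨e1, e2⟩ := adGroup_mod hm haM hW h1 h2
    rw [e1, le_min_iff, le_div_iff₀ (by positivity)] at hg
    have := hδ' W hW h1 h2 hg.1
    nlinarith [norm_nonneg (W ξ - rho J W ξ), norm_nonneg a]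
  obtain ⟨c, hc, hwalk⟩ := Walk.walk_lemma (adGroup hm) (adGroup_isometry hm) ξ (a ξ) hmod'
    (e := ε / 8) (by linarith)
  set B := 256 * ‖a ξ‖ ^ 2 + 4 * ‖a‖ ^ 2 + 1 with hB
  obtain ⟨δ, hδ, hδ1, hδc, hδB⟩ : ∃ δ : ℝ, 0 < δ ∧ δ ≤ 1 ∧ 2 * δ ≤ c ∧ δ * B ≤ ε ^ 2 / 2 := by
    refine ⟨min 1 (min (c / 2) (ε ^ 2 / 2 / B)), by positivity, min_le_left _ _, ?_, ?_⟩
    · linarith [min_le_right (1 : ℝ) (min (c / 2) (ε ^ 2 / 2 / B)),
        min_le_left (c / 2) (ε ^ 2 / 2 / B)]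
    · rw [← le_div_iff₀ (by positivity)]
      exact (min_le_right _ _).trans (min_le_right _ _)
  refine ⟨δ, hδ, fun ι _ y hy hrow hcol hdef => ?_⟩
  let b : ι → H →L[ℂ] H := fun i => (2 : ℂ)⁻¹ • (y i + star (y i))
  let b' : ι → H →L[ℂ] H := fun i => ((2 : ℂ)⁻¹ * -Complex.I) • (y i - star (y i))
  let x : ι ⊕ ι → H →L[ℂ] H := Sum.elim b b'
  have hyb : ∀ i, y i = b i + Complex.I • b' i := by
    intro i
    simp only [b, b', smul_smul]
    rw [show Complex.I * ((2 : ℂ)⁻¹ * -Complex.I) = (2 : ℂ)⁻¹ by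
      rw [mul_left_comm, mul_neg, Complex.I_mul_I, neg_neg, mul_one]]
    module
  have hxM : ∀ k, x k ∈ M := by
    rintro (i | i)
    · exact M.toStarSubalgebra.smul_mem (add_mem (hy i) (star_mem (hy i))) _
    · exact M.toStarSubalgebra.smul_mem (sub_mem (hy i) (star_mem (hy i))) _
  have hxs : ∀ k, IsSelfAdjoint (x k) := by
    rintro (i | i)
    · simp [x, b, IsSelfAdjoint, add_comm]
    · simp only [x, Sum.elim_inr, b', IsSelfAdjoint, star_smul, star_sub, star_star]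
      simp
      module
  set Lf : ι ⊕ ι → H →L[ℂ] H := x with hLf
  set Rf : ι ⊕ ι → H →L[ℂ] H := fun k => conjBy J (x k) with hRf
  have hRs : ∀ k, IsSelfAdjoint (Rf k) := fun k => by
    rw [IsSelfAdjoint, hRf, star_conjBy J hm.J_J, (hxs k).star_eq]
  have hrho : ∀ (z : H) i, (y i - rho J (y i)) z
      = (Lf (.inl i) - Rf (.inl i)) z + Complex.I • (Lf (.inr i) - Rf (.inr i)) z := by
    intro z i
    have hs : star (y i) = b i - Complex.I • b' i := by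
      conv_lhs => rw [hyb i]
      rw [star_add, show star (b i) = b i from (hxs (.inl i)).star_eq, star_smul,
        show star (b' i) = b' i from (hxs (.inr i)).star_eq]
      simp [sub_eq_add_neg]
    rw [rho, hs]
    conv_lhs => rw [hyb i]
    simp [hLf, hRf, x, conjBy_apply, smul_sub, LinearIsometryEquiv.map_smulₛₗ]
    abel
  have hdefL : ∀ i, ‖(Lf (.inl i) - Rf (.inl i)) ξ‖ ≤ ‖y i ξ - rho J (y i) ξ‖ ∧
      ‖(Lf (.inr i) - Rf (.inr i)) ξ‖ ≤ ‖y i ξ - rho J (y i) ξ‖ := by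
    intro i
    have hs := norm_star_defect hm (y i)
    have e1 : (Lf (.inl i) - Rf (.inl i)) ξ
        = (2 : ℂ)⁻¹ • ((y i ξ - rho J (y i) ξ) + (star (y i) ξ - rho J (star (y i)) ξ)) := by
      simp [hLf, hRf, x, b, rho, conjBy_apply, hm.J_xi, LinearIsometryEquiv.map_smulₛₗ, Complex.conj_ofNat]
      module
    have e2 : (Lf (.inr i) - Rf (.inr i)) ξ = ((2 : ℂ)⁻¹ * -Complex.I)
        • ((y i ξ - rho J (y i) ξ) - (star (y i) ξ - rho J (star (y i)) ξ)) := by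
      simp [hLf, hRf, x, b', rho, conjBy_apply, hm.J_xi, LinearIsometryEquiv.map_smulₛₗ, Complex.conj_ofNat]
      module
    constructor
    · rw [e1, norm_smul]
      have := norm_add_le (y i ξ - rho J (y i) ξ) (star (y i) ξ - rho J (star (y i)) ξ)
      norm_num
      linarith
    · rw [e2, norm_smul]
      have := norm_sub_le (y i ξ - rho J (y i) ξ) (star (y i) ξ - rho J (star (y i)) ξ)
      norm_num
      linarith
  have hΔ : δ⁻¹ * ∑ k, ‖(Lf k - Rf k) ξ‖ ^ 2 ≤ c := by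
    rw [Fintype.sum_sum_type]
    have h1 : ∑ i, ‖(Lf (.inl i) - Rf (.inl i)) ξ‖ ^ 2 ≤ δ ^ 2 :=
      le_trans (Finset.sum_le_sum fun i _ => pow_le_pow_left₀ (norm_nonneg _) (hdefL i).1 2) hdef
    have h2 : ∑ i, ‖(Lf (.inr i) - Rf (.inr i)) ξ‖ ^ 2 ≤ δ ^ 2 :=
      le_trans (Finset.sum_le_sum fun i _ => pow_le_pow_left₀ (norm_nonneg _) (hdefL i).2 2) hdef
    calc _ ≤ δ⁻¹ * (δ ^ 2 + δ ^ 2) := by gcongr
      _ = 2 * δ := by field_simp; ring
      _ ≤ c := hδc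
  obtain ⟨η', hη', hE⟩ := hwalk (ι ⊕ ι) Lf Rf hxs hRs
    (fun k => commute_conjBy hm (hxM k) (hxM k))
    (fun k t => by
      refine ⟨Walk.cay (x k) t, cay_mem M (hxs k) (hxM k) t, ?_, ?_, ?_⟩
      · rw [Walk.star_cay (hxs k), Walk.cay_neg_mul (hxs k)]
      · rw [Walk.star_cay (hxs k)]
        simpa using Walk.cay_neg_mul (hxs k) (-t)
      · rw [hLf, hRf, conjBy_cay J hm.J_J (hxs k)])
    δ⁻¹ (inv_pos.2 hδ) hΔ
  rw [inv_mul_le_iff₀ hδ, Fintype.sum_sum_type] at hE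
  set z := a ξ - η' with hz
  have hyz : ∑ i, ‖(y i - rho J (y i)) z‖ ^ 2 ≤ 4 * ‖z‖ ^ 2 := by
    calc _ ≤ ∑ i, (2 * ‖y i z‖ ^ 2 + 2 * ‖star (y i) (J z)‖ ^ 2) := by
          refine Finset.sum_le_sum fun i _ => ?_
          rw [sub_apply, rho, conjBy_apply]
          have h := norm_sub_le (y i z) (J (star (y i) (J z)))
          rw [LinearIsometryEquiv.norm_map] at h
          nlinarith [norm_nonneg (y i z - J (star (y i) (J z))),
            sq_nonneg (‖y i z‖ - ‖star (y i) (J z)‖)]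
      _ ≤ _ := by
          rw [Finset.sum_add_distrib, ← Finset.mul_sum, ← Finset.mul_sum]
          have h1 := hrow z
          have h2 := hcol (J z)
          rw [LinearIsometryEquiv.norm_map] at h2
          linarith
  have hkey : ∀ i, ‖(y i * a - a * y i) ξ‖ ^ 2 ≤ 4 * (‖(Lf (.inl i) - Rf (.inl i)) η'‖ ^ 2
      + ‖(Lf (.inr i) - Rf (.inr i)) η'‖ ^ 2 + ‖(y i - rho J (y i)) z‖ ^ 2
      + ‖a‖ ^ 2 * ‖y i ξ - rho J (y i) ξ‖ ^ 2) := by
    intro i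
    have hc : rho J (y i) (a ξ) = a (rho J (y i) ξ) := by
      rw [rho, ← mul_apply_eq_comp, ← (commute_conjBy hm haM (star_mem (hy i))).eq,
        mul_apply_eq_comp]
    have e : (y i * a - a * y i) ξ = (Lf (.inl i) - Rf (.inl i)) η'
        + Complex.I • (Lf (.inr i) - Rf (.inr i)) η' + (y i - rho J (y i)) z
        - a (y i ξ - rho J (y i) ξ) := by
      rw [← hrho, ← map_add, hz, add_sub_cancel]
      simp only [sub_apply, mul_apply_eq_comp, hc, map_sub]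
      abel
    rw [e]
    set p := (Lf (.inl i) - Rf (.inl i)) η'
    set q := (Lf (.inr i) - Rf (.inr i)) η'
    set r := (y i - rho J (y i)) z
    set w := a (y i ξ - rho J (y i) ξ) with hw
    have h1 : ‖p + Complex.I • q + r - w‖ ≤ ‖p‖ + ‖q‖ + ‖r‖ + ‖w‖ := by
      have hI : ‖Complex.I • q‖ = ‖q‖ := by rw [norm_smul, Complex.norm_I, one_mul]
      linarith [norm_sub_le (p + Complex.I • q + r) w, norm_add_le (p + Complex.I • q) r,
        norm_add_le p (Complex.I • q)]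
    have h2 : ‖w‖ ^ 2 ≤ ‖a‖ ^ 2 * ‖y i ξ - rho J (y i) ξ‖ ^ 2 := by
      rw [← mul_pow]; exact pow_le_pow_left₀ (norm_nonneg _) (a.le_opNorm _) 2
    have h3 := pow_le_pow_left₀ (norm_nonneg _) h1 2
    nlinarith [sq_nonneg (‖p‖ - ‖q‖), sq_nonneg (‖r‖ - ‖w‖), sq_nonneg (‖p‖ + ‖q‖ - ‖r‖ - ‖w‖)]
  have hzε : ‖z‖ ≤ ε / 8 := by rwa [hz, norm_sub_rev]
  have hz2 : ‖z‖ ^ 2 ≤ (ε / 8) ^ 2 := pow_le_pow_left₀ (norm_nonneg _) hzε 2
  calc _ ≤ ∑ i, 4 * (‖(Lf (.inl i) - Rf (.inl i)) η'‖ ^ 2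
      + ‖(Lf (.inr i) - Rf (.inr i)) η'‖ ^ 2 + ‖(y i - rho J (y i)) z‖ ^ 2
      + ‖a‖ ^ 2 * ‖y i ξ - rho J (y i) ξ‖ ^ 2) := Finset.sum_le_sum fun i _ => hkey i
    _ ≤ 4 * (δ * (64 * ‖a ξ‖ ^ 2) + 4 * (ε / 8) ^ 2 + ‖a‖ ^ 2 * δ ^ 2) := by
        simp only [← Finset.mul_sum, Finset.sum_add_distrib]
        gcongr
        linarith
    _ ≤ _ := by
        have hd2 : δ ^ 2 ≤ δ := by nlinarith
        have hB' : δ * (256 * ‖a ξ‖ ^ 2) + 4 * ‖a‖ ^ 2 * δ ≤ ε ^ 2 / 2 := by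
          rw [hB] at hδB; linarith
        nlinarith [mul_le_mul_of_nonneg_left hd2 (sq_nonneg ‖a‖)]

end VP132
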