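import Vale.Agent.P132.Interface

/-!
P132: elements with moduli which are fixed by the modular group are scalars.

The elements with moduli and fixed by the modular group form a norm closed star algebra, which
contains spectral projections. For such a projection `p` other than `0` and `1`, the corner
unitaries and an approximate eigen isometry give a contraction of `M` which nearly centralizes `ξ`
and maps `p` to `1 - p`, so it does not nearly commute with `p`.
-/

open scoped InnerProductSpace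
open Filter Topology
open Vale.Agent.P132.Tomita (conjBy Modular opT fT)

namespace VP132

namespace Fixed

variable {H : Type} [NormedAddCommGroup H] [InnerProductSpace ℂ H] [CompleteSpace H]
variable {M : VonNeumannAlgebra H} {ξ : H} {R : H →L[ℂ] H} {J : H ≃ₗᵢ⋆[ℂ] H}
variable {U : ℝ → H →L[ℂ] H}

/-! ### Operators -/

lemma mem_iff_comm {a : H →L[ℂ] H} : a ∈ M ↔ ∀ b ∈ M.commutant, b * a = a * b := by
  conv_lhs => rw [← M.commutant_commutant]
  exact VonNeumannAlgebra.mem_commutant_iff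

lemma smul_mem_vn (c : ℂ) {a : H →L[ℂ] H} (ha : a ∈ M) : c • a ∈ M :=
  mem_iff_comm.2 fun b hb => by rw [mul_smul_comm, smul_mul_assoc, mem_iff_comm.1 ha b hb]

lemma cfc_mem_vn {a : H →L[ℂ] H} (ha : a ∈ M) (f : ℝ → ℝ) : cfc f a ∈ M :=
  mem_iff_comm.2 fun b hb =>
    ((show Commute a b from (mem_iff_comm.1 ha b hb).symm).cfc_real f).eq.symm

omit [CompleteSpace H] in
lemma apply_le {x : H →L[ℂ] H} (hx : ‖x‖ ≤ 1) (w : H) : ‖x w‖ ≤ ‖w‖ := by
  simpa using x.le_of_opNorm_le hx w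

lemma le_one_of_star_mul_self {u : H →L[ℂ] H} (h : star u * u = 1) : ‖u‖ ≤ 1 := by
  have h1 : ‖u‖ * ‖u‖ ≤ 1 := by
    rw [← CStarRing.norm_star_mul_self, h]; exact ContinuousLinearMap.norm_id_le
  nlinarith [norm_nonneg u]

lemma le_one_of_proj {p : H →L[ℂ] H} (hps : star p = p) (hpp : p * p = p) : ‖p‖ ≤ 1 := by
  have h1 : ‖p‖ * ‖p‖ = ‖p‖ := by rw [← CStarRing.norm_star_mul_self, hps, hpp]
  nlinarith [norm_nonneg p]

lemma le_one_mul {x y : H →L[ℂ] H} (hx : ‖x‖ ≤ 1) (hy : ‖y‖ ≤ 1) : ‖x * y‖ ≤ 1 :=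
  (norm_mul_le x y).trans (mul_le_one₀ hx (norm_nonneg _) hy)

lemma norm_of_star_mul_self {u : H →L[ℂ] H} (h : star u * u = 1) (w : H) : ‖u w‖ = ‖w‖ :=
  (ContinuousLinearMap.norm_map_iff_adjoint_comp_self u).2
    (by rw [← ContinuousLinearMap.star_eq_adjoint]; exact h) w

/-! ### The right action -/

lemma rho_apply (x : H →L[ℂ] H) (w : H) : rho J x w = J (star x (J w)) := rfl

lemma rho_xi (hm : Modular M ξ R J U) (x : H →L[ℂ] H) : rho J x ξ = J (star x ξ) := by
  rw [rho_apply, hm.J_xi]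

lemma rho_mul (hm : Modular M ξ R J U) (x y : H →L[ℂ] H) :
    rho J (x * y) = rho J y * rho J x := by
  ext w
  simp [rho_apply, hm.J_J, star_mul]

lemma rho_comm (hm : Modular M ξ R J U) {x y : H →L[ℂ] H} (hx : x ∈ M) (hy : y ∈ M) (w : H) :
    rho J x (y w) = y (rho J x w) := by
  have h := VonNeumannAlgebra.mem_commutant_iff.1 (hm.conj_mem _ (star_mem hx)) y hy
  exact (congrArg (fun T : H →L[ℂ] H => T w) h).symm

lemma rho_apply_le {x : H →L[ℂ] H} (hx : ‖x‖ ≤ 1) (w : H) : ‖rho J x w‖ ≤ ‖w‖ := by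
  rw [rho_apply, J.norm_map]
  exact (apply_le (by rwa [norm_star]) _).trans_eq (J.norm_map w)

lemma norm_rho_star {u : H →L[ℂ] H} (h : star u * u = 1) (w : H) :
    ‖rho J (star u) w‖ = ‖w‖ := by
  rw [rho_apply, J.norm_map, star_star, norm_of_star_mul_self h, J.norm_map]

/-! ### Fixed vectors -/

lemma opT_fixed (hm : Modular M ξ R J U) {w : H} (hw : R w = w) : opT R w = w := by
  have hc : ContinuousOn fT (spectrum ℝ R) := by unfold fT; fun_prop
  have hR := hm.R_sa
  have hsq : opT R * opT R = (2 : ℝ) • R - R * R := by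
    have e1 : opT R * opT R = cfc (fun r : ℝ => (2 : ℝ) • r - r * r) R := by
      rw [opT, ← cfc_mul fT fT R hc hc]
      refine cfc_congr fun r hr => ?_
      obtain ⟨h0, h2⟩ := hm.R_spec hr
      simp only [fT, smul_eq_mul]
      rw [Real.mul_self_sqrt (mul_nonneg h0 (by linarith))]
      ring
    rw [e1, cfc_sub (fun r : ℝ => (2 : ℝ) • r) (fun r => r * r) R, cfc_smul (2 : ℝ) (fun r => r) R,
      cfc_mul (fun r : ℝ => r) (fun r => r) R, cfc_id' ℝ R]
  have hpos : 0 ≤ opT R := cfc_nonneg fun r _ => Real.sqrt_nonneg _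
  have hTT : opT R (opT R w) = w := by
    have h1 : opT R (opT R w) = (2 : ℝ) • R w - R (R w) := by
      simpa using congrArg (fun T : H →L[ℂ] H => T w) hsq
    rw [h1, hw, hw, two_smul, add_sub_cancel_right]
  set z := opT R w - w with hz
  have hTz : opT R z = -z := by rw [hz, map_sub, hTT]; abel
  have h0 : 0 ≤ RCLike.re ⟪opT R z, z⟫_ℂ :=
    ((ContinuousLinearMap.nonneg_iff_isPositive _).1 hpos).re_inner_nonneg_left z
  rw [hTz, inner_neg_left, map_neg, inner_self_eq_norm_sq] at h0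
  have : ‖z‖ = 0 := by nlinarith [norm_nonneg z]
  rwa [norm_eq_zero, hz, sub_eq_zero] at this

lemma fix_of_R (hm : Modular M ξ R J U) {b : H →L[ℂ] H} (hb : b ∈ M) (h : R (b ξ) = b ξ)
    (h' : R (star b ξ) = star b ξ) : J (b ξ) = star b ξ := by
  have e := hm.S_eq b hb
  rwa [h, two_smul, add_sub_cancel_right, opT_fixed hm h'] at e

/-! ### The algebra of fixed elements with moduli -/

/-- Contractions of `M` nearly centralizing `ξ` nearly commute with `b` at `ξ`. -/
def Comm (M : VonNeumannAlgebra H) (ξ : H) (J : H ≃ₗᵢ⋆[ℂ] H) (b : H →L[ℂ] H) : Prop :=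
  ∀ ε : ℝ, 0 < ε → ∃ δ : ℝ, 0 < δ ∧ ∀ v ∈ M, ‖v‖ ≤ 1 → ‖v ξ - rho J v ξ‖ ≤ δ →
    ‖(v * b - b * v) ξ‖ ≤ ε

lemma comm_of_hasRowMod {b : H →L[ℂ] H} (h : HasRowMod M ξ J b) : Comm M ξ J b := by
  intro ε hε
  obtain ⟨δ, hδ, hh⟩ := h.2 ε hε
  refine ⟨δ, hδ, fun v hv hv1 hvδ => ?_⟩
  have h2 := hh Unit (fun _ => v) (fun _ => hv)
    (fun w => by simpa using pow_le_pow_left₀ (norm_nonneg _) (apply_le hv1 w) 2)
    (fun w => by
      simpa using pow_le_pow_left₀ (norm_nonneg _) (apply_le ((norm_star v).trans_le hv1) w) 2)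
    (by simpa using pow_le_pow_left₀ (norm_nonneg _) hvδ 2)
  simp only [Finset.univ_unique, Finset.sum_singleton] at h2
  exact (pow_le_pow_iff_left₀ (norm_nonneg _) hε.le two_ne_zero).1 h2

lemma Comm.add {b c : H →L[ℂ] H} (hb : Comm M ξ J b) (hc : Comm M ξ J c) :
    Comm M ξ J (b + c) := by
  intro ε hε
  obtain ⟨δ₁, h₁, hb'⟩ := hb (ε / 2) (half_pos hε)
  obtain ⟨δ₂, h₂, hc'⟩ := hc (ε / 2) (half_pos hε)
  refine ⟨min δ₁ δ₂, lt_min h₁ h₂, fun v hv hv1 hvδ => ?_⟩
  have e : (v * (b + c) - (b + c) * v) ξ = (v * b - b * v) ξ + (v * c - c * v) ξ := by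
    simp only [mul_add, add_mul, sub_apply, add_apply]
    abel
  rw [e]
  have := hb' v hv hv1 (hvδ.trans (min_le_left _ _))
  have := hc' v hv hv1 (hvδ.trans (min_le_right _ _))
  linarith [norm_add_le ((v * b - b * v) ξ) ((v * c - c * v) ξ)]

lemma Comm.smul {b : H →L[ℂ] H} (hb : Comm M ξ J b) (c : ℂ) : Comm M ξ J (c • b) := by
  intro ε hε
  obtain ⟨δ, hδ, hb'⟩ := hb (ε / (‖c‖ + 1)) (by positivity)
  refine ⟨δ, hδ, fun v hv hv1 hvδ => ?_⟩
  rw [mul_smul_comm, smul_mul_assoc, ← smul_sub, smul_apply, norm_smul]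
  calc ‖c‖ * ‖(v * b - b * v) ξ‖ ≤ (‖c‖ + 1) * (ε / (‖c‖ + 1)) :=
        mul_le_mul (by linarith) (hb' v hv hv1 hvδ) (norm_nonneg _) (by positivity)
    _ = ε := by field_simp

lemma Comm.mul (hm : Modular M ξ R J U) {b c : H →L[ℂ] H} (hbM : b ∈ M) (hcM : c ∈ M)
    (hc0 : rho J c ξ = c ξ) (hb : Comm M ξ J b) (hc : Comm M ξ J c) : Comm M ξ J (b * c) := by
  intro ε hε
  obtain ⟨δ₁, h₁, hb'⟩ := hb (ε / 2 / (‖rho J c‖ + 1)) (by positivity)
  obtain ⟨δ₂, h₂, hc'⟩ := hc (ε / 2 / (‖b‖ + 1)) (by positivity)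
  refine ⟨min δ₁ δ₂, lt_min h₁ h₂, fun v hv hv1 hvδ => ?_⟩
  have hM : v * b - b * v ∈ M := sub_mem (mul_mem hv hbM) (mul_mem hbM hv)
  have e : (v * (b * c) - b * c * v) ξ
      = rho J c ((v * b - b * v) ξ) + b ((v * c - c * v) ξ) := by
    rw [rho_comm hm hcM hM, hc0]
    simp only [sub_apply, mul_apply_eq_comp, map_sub]
    abel
  rw [e]
  refine (norm_add_le _ _).trans ?_
  have k : ∀ (T : H →L[ℂ] H) (w : H), ‖w‖ ≤ ε / 2 / (‖T‖ + 1) → ‖T w‖ ≤ ε / 2 := by
    intro T w hw
    refine (T.le_opNorm w).trans ((mul_le_mul (le_add_of_nonneg_right zero_le_one) hw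
      (norm_nonneg _) (by positivity)).trans_eq ?_)
    field_simp
  have := k _ _ (hb' v hv hv1 (hvδ.trans (min_le_left _ _)))
  have := k _ _ (hc' v hv hv1 (hvδ.trans (min_le_right _ _)))
  linarith

lemma comm_of_tendsto (hm : Modular M ξ R J U) {bn : ℕ → H →L[ℂ] H} {b : H →L[ℂ] H}
    (hn : ∀ n, Comm M ξ J (bn n)) (hnM : ∀ n, bn n ∈ M) (hbM : b ∈ M)
    (hlim : Tendsto (fun n => bn n ξ) atTop (𝓝 (b ξ))) : Comm M ξ J b := by
  intro ε hε
  obtain ⟨n, hn'⟩ := ((Metric.tendsto_nhds.1 hlim) (ε / 4) (by positivity)).exists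
  rw [dist_eq_norm] at hn'
  obtain ⟨δ, hδ, hd⟩ := hn n (ε / 4) (by positivity)
  set T := bn n - b with hT
  have hTM : T ∈ M := sub_mem (hnM n) hbM
  refine ⟨min δ (ε / 4 / (‖T‖ + 1)), lt_min hδ (by positivity), fun v hv hv1 hvδ => ?_⟩
  have e : (v * b - b * v) ξ
      = (v * bn n - bn n * v) ξ - v (T ξ) + (T (v ξ - rho J v ξ) + rho J v (T ξ)) := by
    rw [rho_comm hm hv hTM, map_sub, sub_add_cancel, hT]
    simp only [sub_apply, mul_apply_eq_comp, map_sub]
    abel
  have h1 := hd v hv hv1 (hvδ.trans (min_le_left _ _))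
  have hTx : ‖T ξ‖ ≤ ε / 4 := by rw [hT, sub_apply]; exact hn'.le
  have h2 := (apply_le hv1 (T ξ)).trans hTx
  have h3 : ‖T (v ξ - rho J v ξ)‖ ≤ ε / 4 := by
    refine (T.le_opNorm _).trans ((mul_le_mul (le_add_of_nonneg_right zero_le_one)
      (hvδ.trans (min_le_right _ _)) (norm_nonneg _) (by positivity)).trans_eq ?_)
    field_simp
  have h4 := (rho_apply_le (J := J) hv1 (T ξ)).trans hTx
  rw [e]
  linarith [norm_add_le ((v * bn n - bn n * v) ξ - v (T ξ))
      (T (v ξ - rho J v ξ) + rho J v (T ξ)),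
    norm_sub_le ((v * bn n - bn n * v) ξ) (v (T ξ)),
    norm_add_le (T (v ξ - rho J v ξ)) (rho J v (T ξ))]

/-- An element of `M` fixed by the modular group with moduli. -/
structure Good (M : VonNeumannAlgebra H) (ξ : H) (J : H ≃ₗᵢ⋆[ℂ] H) (b : H →L[ℂ] H) : Prop where
  mem : b ∈ M
  fix : J (b ξ) = star b ξ
  comm : Comm M ξ J b
  comm' : Comm M ξ J (star b)

lemma Good.rho_eq (hm : Modular M ξ R J U) {b : H →L[ℂ] H} (hb : Good M ξ J b) :
    rho J b ξ = b ξ := by
  rw [rho_xi hm, ← hb.fix, hm.J_J]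

lemma Good.star_good (hm : Modular M ξ R J U) {b : H →L[ℂ] H} (hb : Good M ξ J b) :
    Good M ξ J (star b) :=
  ⟨star_mem hb.mem, by rw [← hb.fix, hm.J_J, star_star], hb.comm', by
    rw [star_star]; exact hb.comm⟩

lemma Good.add {b c : H →L[ℂ] H} (hb : Good M ξ J b) (hc : Good M ξ J c) :
    Good M ξ J (b + c) :=
  ⟨add_mem hb.mem hc.mem, by
    rw [add_apply, map_add, hb.fix, hc.fix, star_add,
      add_apply], hb.comm.add hc.comm, by
    rw [star_add]; exact hb.comm'.add hc.comm'⟩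

lemma Good.smul {b : H →L[ℂ] H} (hb : Good M ξ J b) (c : ℂ) : Good M ξ J (c • b) :=
  ⟨smul_mem_vn c hb.mem, by
    rw [smul_apply, map_smulₛₗ, hb.fix, star_smul,
      smul_apply]; rfl, hb.comm.smul c, by
    rw [star_smul]; exact hb.comm'.smul _⟩

lemma Good.one (hm : Modular M ξ R J U) : Good M ξ J (1 : H →L[ℂ] H) := by
  have h : Comm M ξ J (1 : H →L[ℂ] H) := fun ε hε =>
    ⟨1, one_pos, fun v _ _ _ => by simp [hε.le]⟩
  exact ⟨one_mem M, by simpa using hm.J_xi, h, by rwa [star_one]⟩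

lemma Good.mul (hm : Modular M ξ R J U) {b c : H →L[ℂ] H} (hb : Good M ξ J b)
    (hc : Good M ξ J c) : Good M ξ J (b * c) := by
  refine ⟨mul_mem hb.mem hc.mem, ?_, hb.comm.mul hm hb.mem hc.mem (hc.rho_eq hm) hc.comm, ?_⟩
  · have e : rho J (b * c) ξ = (b * c) ξ := by
      rw [rho_mul hm, mul_apply_eq_comp, hb.rho_eq hm, rho_comm hm hc.mem hb.mem,
        hc.rho_eq hm]
      rfl
    rw [← e, rho_xi hm, hm.J_J]
  · rw [star_mul]
    exact hc.comm'.mul hm (star_mem hc.mem) (star_mem hb.mem)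
      ((hb.star_good hm).rho_eq hm) hb.comm'

lemma Good.of_tendsto (hm : Modular M ξ R J U) {bn : ℕ → H →L[ℂ] H} {b : H →L[ℂ] H}
    (hn : ∀ n, Good M ξ J (bn n)) (hbM : b ∈ M)
    (hlim : Tendsto (fun n => bn n ξ) atTop (𝓝 (b ξ)))
    (hlim' : Tendsto (fun n => star (bn n) ξ) atTop (𝓝 (star b ξ))) : Good M ξ J b :=
  ⟨hbM, tendsto_nhds_unique
      (((J.continuous.tendsto _).comp hlim).congr fun n => (hn n).fix) hlim',
    comm_of_tendsto hm (fun n => (hn n).comm) (fun n => (hn n).mem) hbM hlim,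
    comm_of_tendsto hm (fun n => (hn n).comm') (fun n => star_mem (hn n).mem) (star_mem hbM)
      hlim'⟩

/-- The good elements as a star algebra. -/
def goodAlg (hm : Modular M ξ R J U) : StarSubalgebra ℂ (H →L[ℂ] H) where
  carrier := {b | Good M ξ J b}
  mul_mem' := fun hb hc => Good.mul hm hb hc
  one_mem' := Good.one hm
  add_mem' := fun hb hc => Good.add hb hc
  zero_mem' := by simpa using (Good.one hm).smul (0 : ℂ)
  algebraMap_mem' := fun c => by
    show Good M ξ J _
    rw [Algebra.algebraMap_eq_smul_one]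
    exact (Good.one hm).smul c
  star_mem' := fun hb => Good.star_good hm hb

lemma isClosed_goodAlg (hm : Modular M ξ R J U) :
    IsClosed (goodAlg hm : Set (H →L[ℂ] H)) := by
  refine IsSeqClosed.isClosed fun bn b hn hlim => ?_
  have hM : IsClosed (M : Set (H →L[ℂ] H)) :=
    M.centralizer_centralizer ▸ Set.isClosed_centralizer _
  have hev : ∀ w : H, Continuous fun T : H →L[ℂ] H => T w := fun w =>
    (ContinuousLinearMap.apply ℂ H w).continuous
  exact Good.of_tendsto hm hn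
    (hM.mem_of_tendsto hlim (Eventually.of_forall fun n => (hn n).mem))
    (((hev ξ).tendsto b).comp hlim) ((((hev ξ).comp continuous_star).tendsto b).comp hlim)

lemma Good.cfc (hm : Modular M ξ R J U) {x : H →L[ℂ] H} (hx : Good M ξ J x) (f : ℝ → ℝ) :
    Good M ξ J (cfc f x) :=
  cfc_mem (𝕜' := ℂ) (s := goodAlg hm) (hs := isClosed_goodAlg hm) f hx

/-! ### Projections -/

/-- A self-adjoint good element with two spectral values gives a nontrivial good projection. -/
lemma exists_good_proj (hm : Modular M ξ R J U) {x : H →L[ℂ] H} (hx : Good M ξ J x)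
    (hxs : IsSelfAdjoint x) {s s' : ℝ} (hsp : s ∈ spectrum ℝ x) (hsp' : s' ∈ spectrum ℝ x)
    (hlt : s < s') :
    ∃ p, Good M ξ J p ∧ star p = p ∧ p * p = p ∧ p ≠ 0 ∧ p ≠ 1 := by
  set t : ℝ := (s + s') / 2 with ht
  set gf : ℝ → ℝ := fun r => max 0 (r - t) with hgf
  set kf : ℝ → ℝ := fun r => max 0 (t - r) with hkf
  have hgc : Continuous gf := by fun_prop
  have hkc : Continuous kf := by fun_prop
  set g := cfc gf x with hg
  set k := cfc kf x with hk
  have hgM : g ∈ M := cfc_mem_vn hx.mem _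
  set K : Submodule ℂ H := (LinearMap.range (g : H →ₗ[ℂ] H)).topologicalClosure with hK
  have : K.HasOrthogonalProjection := by
    have : CompleteSpace K := Submodule.topologicalClosure.completeSpace _
    infer_instance
  have hKcoe : ∀ z, z ∈ K ↔ z ∈ closure (Set.range g) := fun z => Iff.rfl
  set p := K.starProjection with hp
  have hpP : IsStarProjection p := isStarProjection_starProjection
  have hps : star p = p := hpP.isSelfAdjoint.star_eq
  have hpp : p * p = p := hpP.isIdempotentElem.eq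
  have hgK : ∀ w, g w ∈ K := fun w => Submodule.le_topologicalClosure _ ⟨w, rfl⟩
  have hKc : ∀ T : H →L[ℂ] H, (∀ w, T (g w) ∈ K) → ∀ z ∈ K, T z ∈ K := by
    intro T hT z hz
    refine closure_minimal (s := Set.range g) (t := T ⁻¹' (K : Set H)) ?_
      ((Submodule.isClosed_topologicalClosure _).preimage T.continuous) ?_
    · rintro _ ⟨w, rfl⟩
      exact hT w
    · exact (hKcoe z).1 hz
  have hpM : p ∈ M := by
    refine mem_iff_comm.2 fun b hb => ?_
    have inv : ∀ b ∈ M.commutant, p * b * p = b * p := by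
      intro b hb
      ext w
      simp only [mul_apply_eq_comp]
      refine Submodule.starProjection_eq_self_iff.2 (hKc b (fun z => ?_) _
        (Submodule.starProjection_apply_mem _ _))
      rw [← mul_apply_eq_comp, mem_iff_comm.1 hgM b hb]
      exact hgK _
    have h1 := inv b hb
    have h2 := congrArg star (inv (star b) (star_mem hb))
    simp only [star_mul, star_star, hps, ← mul_assoc] at h2
    exact h1.symm.trans h2
  have hgp : ∀ w, g (w - p w) = 0 := by
    intro w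
    refine ext_inner_right ℂ fun z => ?_
    have hgs : star g = g := (cfc_predicate gf x : IsSelfAdjoint g).star_eq
    rw [inner_zero_left, ← ContinuousLinearMap.adjoint_inner_right,
      ← ContinuousLinearMap.star_eq_adjoint, hgs]
    exact Submodule.inner_left_of_mem_orthogonal (hgK z)
      (Submodule.sub_starProjection_mem_orthogonal w)
  have hne : ∀ n : ℕ, ∀ r : ℝ, max (gf r) (1 / (n + 1 : ℝ)) ≠ 0 := fun n r =>
    (lt_max_of_lt_right (by positivity)).ne'
  set hf : ℕ → ℝ → ℝ := fun n r => (max (gf r) (1 / (n + 1 : ℝ)))⁻¹ with hhf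
  have hhc : ∀ n, Continuous (hf n) := fun n =>
    (hgc.max continuous_const).inv₀ (hne n)
  set F : ℕ → H →L[ℂ] H := fun n => cfc (fun r => hf n r * gf r) x with hF
  have hFe : ∀ n, F n = cfc (hf n) x * g := fun n =>
    cfc_mul (hf n) gf x (hhc n).continuousOn hgc.continuousOn
  have hF1 : ∀ n, ‖F n‖ ≤ 1 := by
    refine fun n => norm_cfc_le zero_le_one fun r _ => ?_
    have h0 : 0 ≤ gf r := le_max_left _ _
    rw [Real.norm_eq_abs, abs_of_nonneg (by positivity), hhf]
    rw [inv_mul_le_iff₀ (lt_max_of_lt_right (by positivity)), mul_one]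
    exact le_max_left _ _
  have hFg : ∀ n, ‖F n * g - g‖ ≤ 1 / (n + 1 : ℝ) := by
    intro n
    have e : F n * g - g = cfc (fun r => hf n r * gf r * gf r - gf r) x := by
      rw [cfc_sub (fun r => hf n r * gf r * gf r) gf x
          (((hhc n).mul hgc).mul hgc).continuousOn hgc.continuousOn,
        cfc_mul (fun r => hf n r * gf r) gf x ((hhc n).mul hgc).continuousOn hgc.continuousOn]
    rw [e]
    refine norm_cfc_le (by positivity) fun r _ => ?_
    have h0 : 0 ≤ gf r := le_max_left _ _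
    have hN : (0 : ℝ) < 1 / (n + 1) := by positivity
    rw [Real.norm_eq_abs, hhf]
    rcases le_total (1 / (n + 1 : ℝ)) (gf r) with h | h
    · simp only [max_eq_left h]
      rw [inv_mul_cancel₀ (hN.trans_le h).ne', one_mul, sub_self, abs_zero]
      exact hN.le
    · simp only [max_eq_right h]
      have h1 : (1 / (n + 1 : ℝ))⁻¹ * gf r ≤ 1 := by rwa [inv_mul_le_iff₀ hN, mul_one]
      have h2 : 0 ≤ (1 / (n + 1 : ℝ))⁻¹ * gf r := by positivity
      rw [abs_le]
      constructor <;> nlinarith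
  have hlim : Tendsto (fun n => F n ξ) atTop (𝓝 (p ξ)) := by
    refine Metric.tendsto_nhds.2 fun ε hε => ?_
    have hpK : p ξ ∈ closure (Set.range g) :=
      (hKcoe _).1 (Submodule.starProjection_apply_mem K ξ)
    obtain ⟨_, ⟨w, rfl⟩, hw⟩ := Metric.mem_closure_iff.1 hpK (ε / 3) (by positivity)
    rw [dist_eq_norm] at hw
    have h0 : Tendsto (fun n : ℕ => 1 / (n + 1 : ℝ) * ‖w‖) atTop (𝓝 0) := by
      simpa using tendsto_one_div_add_atTop_nhds_zero_nat.mul_const ‖w‖
    filter_upwards [h0.eventually (gt_mem_nhds (show 0 < ε / 3 by positivity))] with n hn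
    rw [dist_eq_norm]
    have e1 : F n ξ = F n (p ξ) := by
      rw [← sub_eq_zero, ← map_sub, hFe, mul_apply_eq_comp, hgp, map_zero]
    have e2 : F n ξ - p ξ = F n (p ξ - g w) + (F n * g - g) w - (p ξ - g w) := by
      rw [e1, map_sub, sub_apply, mul_apply_eq_comp]
      abel
    have h1 := ((F n * g - g).le_opNorm w).trans
      (mul_le_mul_of_nonneg_right (hFg n) (norm_nonneg _))
    have h2 := apply_le (hF1 n) (p ξ - g w)
    rw [e2]
    linarith [norm_sub_le (F n (p ξ - g w) + (F n * g - g) w) (p ξ - g w),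
      norm_add_le (F n (p ξ - g w)) ((F n * g - g) w)]
  have hG : Good M ξ J p := by
    refine Good.of_tendsto hm (fun n => hx.cfc hm _) hpM hlim ?_
    rw [hps]
    exact hlim.congr fun n => by rw [(cfc_predicate _ x : IsSelfAdjoint (F n)).star_eq]
  refine ⟨p, hG, hps, hpp, fun h => ?_, fun h => ?_⟩
  · have hg0 : g = 0 := by
      ext w
      have := Submodule.starProjection_eq_self_iff.2 (hgK w)
      rw [← hp, h] at this
      simpa using this.symm
    have hn := norm_apply_le_norm_cfc gf x hsp' hgc.continuousOn hxs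
    rw [← hg, hg0, norm_zero, Real.norm_eq_abs, abs_nonpos_iff, hgf] at hn
    have := le_max_right (0 : ℝ) (s' - t)
    simp only at hn
    rw [hn, ht] at this
    linarith
  · have hkg : k * g = 0 := by
      rw [hk, hg, ← cfc_mul kf gf x hkc.continuousOn hgc.continuousOn, ← cfc_const_zero ℝ x]
      refine cfc_congr fun r _ => ?_
      simp only [hkf, hgf]
      rcases le_total r t with h | h
      · rw [max_eq_left (sub_nonpos.2 h), mul_zero]
      · rw [max_eq_left (sub_nonpos.2 h), zero_mul]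
    have hk0 : k = 0 := by
      ext w
      have hw : w ∈ closure (Set.range g) := by
        have h1 := Submodule.starProjection_apply_mem K w
        rw [← hp, h] at h1
        exact (hKcoe w).1 h1
      refine closure_minimal (t := {z | k z = 0}) ?_
        (isClosed_eq k.continuous continuous_const) hw
      rintro _ ⟨z, rfl⟩
      simpa using congrArg (fun T : H →L[ℂ] H => T z) hkg
    have hn := norm_apply_le_norm_cfc kf x hsp hkc.continuousOn hxs
    rw [← hk, hk0, norm_zero, Real.norm_eq_abs, abs_nonpos_iff, hkf] at hn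
    have := le_max_right (0 : ℝ) (t - s)
    simp only at hn
    rw [hn, ht] at this
    linarith

/-- There is no good projection other than `0` and `1`. -/
lemma no_good_proj (hm : Modular M ξ R J U) (hs : IsStandardVector H M ξ)
    (heig : EigenSpec M ξ J) (hcor : CornerSpec M ξ J) {p : H →L[ℂ] H} (hp : Good M ξ J p)
    (hps : star p = p) (hpp : p * p = p) (hp0 : p ≠ 0) (hp1 : p ≠ 1)
    (hle : ‖(1 - p) ξ‖ ≤ ‖p ξ‖) : False := by
  set f : H →L[ℂ] H := 1 - p with hf
  have hfG : Good M ξ J f := by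
    simpa [hf, sub_eq_add_neg] using (Good.one hm).add (hp.smul (-1))
  have hfs : star f = f := by rw [hf, star_sub, star_one, hps]
  have hff : f * f = f := by simp [hf, sub_mul, mul_sub, hpp]
  have hpf : p * f = 0 := by simp [hf, mul_sub, hpp]
  have hpx : p ξ ≠ 0 := fun h => hp0 (hs.2.2 p hp.mem h)
  have hfx : f ξ ≠ 0 := fun h => hp1 (sub_eq_zero.1 (hs.2.2 f hfG.mem h)).symm
  have hpn : ‖p‖ ≤ 1 := le_one_of_proj hps hpp
  have hfn : ‖f‖ ≤ 1 := le_one_of_proj hfs hff
  have hα : 0 < ‖p ξ‖ := norm_pos_iff.2 hpx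
  have hβ : 0 < ‖f ξ‖ := norm_pos_iff.2 hfx
  have hα1 : ‖p ξ‖ ≤ 1 := (apply_le hpn ξ).trans_eq hs.1
  have hβ1 : ‖f ξ‖ ≤ 1 := hle.trans hα1
  set α := ‖p ξ‖ with hαdef
  set β := ‖f ξ‖ with hβdef
  obtain ⟨δ, hδ, hd⟩ := hp.comm (β / 2) (half_pos hβ)
  set e := min (δ / 3) (β / 7) with he_def
  have he : 0 < e := lt_min (by positivity) (by positivity)
  obtain ⟨up, hupM, hup1, hup2, hupe⟩ :=
    hcor p hp.mem hps hpp (hp.rho_eq hm) hpx e he
  obtain ⟨uf, hufM, huf1, -, hufe⟩ :=
    hcor f hfG.mem hfs hff (hfG.rho_eq hm) hfx e he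
  rw [← hαdef] at hupe
  rw [← hβdef] at hufe
  obtain ⟨S, hSM, hS1, hSe⟩ := heig ((β / α) ^ 2) (by positivity)
    (pow_le_one₀ (by positivity) ((div_le_one hα).2 hle)) e he
  rw [Real.sqrt_sq (by positivity)] at hSe
  set phat : H := ((α⁻¹ : ℝ) : ℂ) • p ξ with hphat
  set fhat : H := ((β⁻¹ : ℝ) : ℂ) • f ξ with hfhat
  have hpα : p ξ = (α : ℂ) • phat := by
    rw [hphat, smul_smul, ← Complex.ofReal_mul, mul_inv_cancel₀ hα.ne', Complex.ofReal_one,
      one_smul]
  have hfβ : f ξ = (β : ℂ) • fhat := by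
    rw [hfhat, smul_smul, ← Complex.ofReal_mul, mul_inv_cancel₀ hβ.ne', Complex.ofReal_one,
      one_smul]
  clear_value phat fhat
  set A := rho J (star up) with hA
  set B := rho J (star S) with hB
  have hAiso : ∀ w, ‖A w‖ = ‖w‖ := norm_rho_star hup1
  have hBiso : ∀ w, ‖B w‖ = ‖w‖ := norm_rho_star hS1
  have ha : ‖star up phat - A ξ‖ ≤ e := by
    have e1 : J (up ξ - rho J up phat) = A ξ - star up phat := by
      have hJp : J phat = phat := by
        rw [hphat, map_smulₛₗ, hp.fix, hps, Complex.conj_ofReal]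
      rw [map_sub, rho_apply, hm.J_J, hJp, hA, rho_xi hm, star_star]
    rw [norm_sub_rev, ← e1, J.norm_map]
    exact hupe
  have hb : ‖star S ξ - ((β / α : ℝ) : ℂ) • B ξ‖ ≤ e := by
    have e1 : J (((β / α : ℝ) : ℂ) • S ξ - rho J S ξ)
        = ((β / α : ℝ) : ℂ) • B ξ - star S ξ := by
      rw [map_sub, map_smulₛₗ, Complex.conj_ofReal, rho_xi hm, hm.J_J, hB, rho_xi hm, star_star]
    rw [norm_sub_rev, ← e1, J.norm_map]
    exact hSe
  set v := f * uf * star S * star up * p with hv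
  have hSs : ‖star S‖ ≤ 1 := (norm_star S).trans_le (le_one_of_star_mul_self hS1)
  have hufn : ‖uf‖ ≤ 1 := le_one_of_star_mul_self huf1
  have hvM : v ∈ M :=
    mul_mem (mul_mem (mul_mem (mul_mem hfG.mem hufM) (star_mem hSM)) (star_mem hupM)) hp.mem
  have hvn : ‖v‖ ≤ 1 := le_one_mul (le_one_mul (le_one_mul (le_one_mul hfn hufn) hSs)
    ((norm_star up).trans_le (le_one_of_star_mul_self hup1))) hpn
  have hvp : v * p = v := by rw [hv, mul_assoc, hpp]
  have hpv : p * v = 0 := by simp only [hv, ← mul_assoc, hpf, zero_mul]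
  have hfv : f * v = v := by simp only [hv, ← mul_assoc, hff]
  set Z : H := (β : ℂ) • uf (A (B ξ)) with hZ
  -- the left vector
  have h1 : ‖v ξ - f Z‖ ≤ 2 * e := by
    have e0 : v ξ - f Z
        = f (uf (star S (star up (p ξ)) - (β : ℂ) • A (B ξ))) := by
      simp only [hv, hZ, mul_apply_eq_comp, map_sub, map_smul]
    have e1 : star S (star up (p ξ)) - (β : ℂ) • A (B ξ)
        = (α : ℂ) • star S (star up phat - A ξ)
          + (α : ℂ) • A (star S ξ - ((β / α : ℝ) : ℂ) • B ξ) := by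
      have hAS : A (star S ξ) = star S (A ξ) :=
        rho_comm hm (star_mem hupM) (star_mem hSM) ξ
      rw [hpα, map_sub, map_sub, map_smul, map_smul, map_smul, hAS, smul_sub, smul_sub,
        smul_smul, ← Complex.ofReal_mul, mul_div_cancel₀ _ hα.ne']
      abel
    rw [e0]
    refine ((apply_le hfn _).trans (apply_le hufn _)).trans ?_
    rw [e1]
    refine (norm_add_le _ _).trans ?_
    rw [norm_smul, norm_smul, Complex.norm_real, Real.norm_of_nonneg hα.le, hAiso]
    have := (apply_le hSs (star up phat - A ξ)).trans ha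
    nlinarith [norm_nonneg (star S (star up phat - A ξ)),
      norm_nonneg (star S ξ - ((β / α : ℝ) : ℂ) • B ξ)]
  -- the right vector
  have h2 : ‖rho J v ξ - rho J p Z‖ ≤ e := by
    have e0 : rho J v ξ = rho J p (A (B (rho J uf (f ξ)))) := by
      simp only [hv, rho_mul hm, mul_apply_eq_comp, hA, hB, hfG.rho_eq hm]
    have e1 : Z = A (B ((β : ℂ) • uf ξ)) := by
      rw [hZ, map_smul, map_smul, hA, hB, rho_comm hm (star_mem hSM) hufM,
        rho_comm hm (star_mem hupM) hufM]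
    rw [e0, e1, ← map_sub, ← map_sub, ← map_sub]
    refine (rho_apply_le hpn _).trans ?_
    rw [hAiso, hBiso, hfβ, map_smul, ← smul_sub, norm_smul, Complex.norm_real,
      Real.norm_of_nonneg hβ.le, norm_sub_rev]
    nlinarith [norm_nonneg (uf ξ - rho J uf fhat)]
  have h3 : ‖v ξ - rho J v ξ‖ ≤ 3 * e := by
    have e1 : rho J p (v ξ) = v ξ := by
      rw [rho_comm hm hp.mem hvM, hp.rho_eq hm, ← mul_apply_eq_comp, hvp]
    have e2 : f (rho J v ξ) = rho J v ξ := by
      rw [← rho_comm hm hvM hfG.mem]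
      nth_rw 1 [← hfG.rho_eq hm]
      rw [← mul_apply_eq_comp, ← rho_mul hm, hfv]
    have e3 : v ξ - rho J v ξ = rho J p (v ξ - f Z) + f (rho J p Z - rho J v ξ) := by
      rw [map_sub, map_sub, e1, e2, rho_comm hm hp.mem hfG.mem]
      abel
    rw [e3]
    have := rho_apply_le (J := J) hpn (v ξ - f Z)
    have := apply_le hfn (rho J p Z - rho J v ξ)
    rw [norm_sub_rev] at h2
    linarith [norm_add_le (rho J p (v ξ - f Z)) (f (rho J p Z - rho J v ξ))]
  have h4 : β * (1 - e) ≤ ‖f Z‖ := by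
    have e1 : f Z = (β : ℂ) • A (B (f (uf ξ))) := by
      rw [hZ, map_smul, hA, hB, rho_comm hm (star_mem hSM) hfG.mem,
        rho_comm hm (star_mem hupM) hfG.mem, rho_comm hm (star_mem hSM) hufM,
        rho_comm hm (star_mem hupM) hufM]
    have e2 : uf ξ - f (uf ξ) = p (uf ξ - rho J uf fhat) := by
      have h5 : p (rho J uf fhat) = 0 := by
        have h6 : p fhat = 0 := by
          rw [hfhat, map_smul, ← mul_apply_eq_comp, hpf,
            zero_apply, smul_zero]
        rw [← rho_comm hm hufM hp.mem, h6, map_zero]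
      rw [map_sub, h5, sub_zero, hf]
      simp
    rw [e1, norm_smul, Complex.norm_real, Real.norm_of_nonneg hβ.le, hAiso, hBiso]
    refine mul_le_mul_of_nonneg_left ?_ hβ.le
    have h7 : ‖uf ξ‖ = 1 := (norm_of_star_mul_self huf1 ξ).trans hs.1
    have h8 := (apply_le hpn (uf ξ - rho J uf fhat)).trans hufe
    rw [← e2] at h8
    linarith [norm_sub_norm_le (uf ξ) (f (uf ξ))]
  have h9 : ‖v ξ‖ ≤ β / 2 := by
    have := hd v hvM hvn (h3.trans (by linarith [min_le_left (δ / 3) (β / 7)]))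
    rwa [hvp, hpv, sub_zero] at this
  have he7 : e ≤ β / 7 := min_le_right _ _
  nlinarith [norm_sub_norm_le (f Z) (v ξ), norm_sub_rev (f Z) (v ξ)]

lemma good_selfAdjoint_scalar (hm : Modular M ξ R J U) (hs : IsStandardVector H M ξ)
    (heig : EigenSpec M ξ J) (hcor : CornerSpec M ξ J) {x : H →L[ℂ] H} (hx : Good M ξ J x)
    (hxs : IsSelfAdjoint x) : ∃ c : ℂ, x = c • 1 := by
  by_cases hsub : (spectrum ℝ x).Subsingleton
  · obtain ⟨c, hc⟩ : ∃ c, ∀ r ∈ spectrum ℝ x, r = c := by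
      rcases hsub.eq_empty_or_singleton with h | ⟨c, h⟩
      · exact ⟨0, by simp [h]⟩
      · exact ⟨c, by simp [h]⟩
    refine ⟨(c : ℂ), ?_⟩
    calc x = cfc (fun r : ℝ => r) x := (cfc_id' ℝ x).symm
      _ = cfc (fun _ : ℝ => c) x := cfc_congr hc
      _ = algebraMap ℝ _ c := cfc_const c x
      _ = (c : ℂ) • 1 := by rw [Algebra.algebraMap_eq_smul_one, Complex.coe_smul]
  · obtain ⟨s, hs1, s', hs2, hlt⟩ : ∃ s ∈ spectrum ℝ x, ∃ s' ∈ spectrum ℝ x, s < s' := by
      by_contra hn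
      push Not at hn
      exact hsub fun a ha b hb => le_antisymm (hn b hb a ha) (hn a ha b hb)
    obtain ⟨p, hp, hps, hpp, hp0, hp1⟩ := exists_good_proj hm hx hxs hs1 hs2 hlt
    exfalso
    rcases le_total ‖(1 - p) ξ‖ ‖p ξ‖ with h | h
    · exact no_good_proj hm hs heig hcor hp hps hpp hp0 hp1 h
    · refine no_good_proj hm hs heig hcor (p := 1 - p) ?_ ?_ ?_ ?_ ?_ ?_
      · simpa [sub_eq_add_neg] using (Good.one hm).add (hp.smul (-1))
      · rw [star_sub, star_one, hps]
      · simp [sub_mul, mul_sub, hpp]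
      · exact fun h0 => hp1 (sub_eq_zero.1 h0).symm
      · exact fun h0 => hp0 (by simpa using h0)
      · rwa [sub_sub_cancel]

end Fixed

open Fixed

variable {H : Type} [NormedAddCommGroup H] [InnerProductSpace ℂ H] [CompleteSpace H]

/-- Fixed elements with moduli are scalars. -/
theorem fixedSpec {M : VonNeumannAlgebra H} {ξ : H} {R : H →L[ℂ] H} {J : H ≃ₗᵢ⋆[ℂ] H}
    {U : ℝ → H →L[ℂ] H} (hm : Modular M ξ R J U) (hs : IsStandardVector H M ξ)
    (hrow : RowSpec M ξ J) (heig : EigenSpec M ξ J) (hcor : CornerSpec M ξ J) :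
    FixedSpec M ξ R J := by
  intro a ha ha' hR hR'
  have hG : Good M ξ J a := ⟨ha.1, fix_of_R hm ha.1 hR hR',
    comm_of_hasRowMod (hrow a ha), comm_of_hasRowMod (hrow _ ha')⟩
  set y : H →L[ℂ] H := Complex.I • (a + (-1 : ℂ) • star a) with hy
  have hys : IsSelfAdjoint y := by
    show star y = y
    rw [hy, star_smul, star_add, star_smul, star_star]
    simp only [Complex.star_def, Complex.conj_I, map_neg, map_one]
    module
  obtain ⟨c, hc⟩ := good_selfAdjoint_scalar hm hs heig hcor (hG.add (hG.star_good hm))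
    (IsSelfAdjoint.add_star_self a)
  obtain ⟨d, hd⟩ := good_selfAdjoint_scalar hm hs heig hcor
    ((hG.add ((hG.star_good hm).smul (-1))).smul Complex.I) hys
  refine ⟨(c - Complex.I * d) / 2, ?_⟩
  have e : a = (1 / 2 : ℂ) • ((a + star a) - Complex.I • y) := by
    rw [hy, smul_smul, Complex.I_mul_I]
    module
  rw [e, hc, show y = d • 1 from hd]
  module

end VP132
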