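import Vale.Agent.P132.Interface

/-!
P132: the band operators are averages of the modular group, with elementary facts about bands.
-/

open scoped InnerProductSpace ComplexConjugate
open Filter Topology MeasureTheory
open Vale.Agent.P132.Tomita (conjBy Modular fT fU opT)

namespace VP132

variable {H : Type} [NormedAddCommGroup H] [InnerProductSpace ℂ H] [CompleteSpace H]

theorem lam_two_sub (r : ℝ) : lam (2 - r) = -lam r := by
  rw [lam, lam, sub_sub_cancel]; ring

theorem gp_nonneg (l h r : ℝ) : 0 ≤ gp l h r := by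
  unfold gp; split_ifs
  exacts [(Real.exp_pos _).le, le_rfl]

theorem gp_le_one (l h r : ℝ) : gp l h r ≤ 1 := by
  unfold gp; split_ifs
  · exact Real.exp_le_one_iff.2 (neg_nonpos.2 (sq_nonneg _))
  · exact zero_le_one

theorem gp_two_sub (l h r : ℝ) : gp l h (2 - r) = gp (-l) h r := by
  unfold gp
  by_cases hr : 0 < r ∧ r < 2
  · rw [if_pos hr, if_pos ⟨by linarith [hr.2], by linarith [hr.1]⟩, lam_two_sub]
    congr 2
    ring
  · rw [if_neg hr, if_neg fun h' => hr ⟨by linarith [h'.2], by linarith [h'.1]⟩]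

theorem gp_sq (l h r : ℝ) : gp l h r = gp l (Real.sqrt 2 * h) r * gp l (Real.sqrt 2 * h) r := by
  unfold gp; split_ifs
  · rw [← Real.exp_add]
    congr 1
    rw [div_pow, div_pow, mul_pow, Real.sq_sqrt (by norm_num : (0 : ℝ) ≤ 2)]
    ring
  · simp

theorem fT_nonneg' (r : ℝ) : 0 ≤ fT r := Real.sqrt_nonneg _

theorem fT_le_one (r : ℝ) : fT r ≤ 1 :=
  Real.sqrt_le_one.2 (by nlinarith [sq_nonneg (r - 1)])

theorem continuous_fT' : Continuous fT := by unfold fT; fun_prop

theorem fT_eq_zero {r : ℝ} (hr : ¬(0 < r ∧ r < 2)) : fT r = 0 := by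
  refine Real.sqrt_eq_zero'.2 ?_
  simp only [not_and, not_lt] at hr
  rcases le_or_gt r 0 with h | h
  · exact mul_nonpos_of_nonpos_of_nonneg h (by linarith)
  · exact mul_nonpos_of_nonneg_of_nonpos h.le (by linarith [hr h])

theorem exp_neg_abs_lam_le {r : ℝ} (h0 : 0 < r) (h2 : r < 2) :
    Real.exp (-|lam r| / 2) ≤ fT r := by
  rw [Real.exp_half]
  refine Real.sqrt_le_sqrt ?_
  have h2' : (0 : ℝ) < 2 - r := by linarith
  rcases le_total r 1 with h | h
  · calc Real.exp (-|lam r|) ≤ Real.exp (-lam r) :=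
          Real.exp_le_exp.2 (neg_le_neg (le_abs_self _))
      _ = r / (2 - r) := by
          rw [lam, neg_sub, Real.exp_sub, Real.exp_log h0, Real.exp_log h2']
      _ ≤ r * (2 - r) := by
          rw [div_le_iff₀ h2', mul_assoc]
          exact le_mul_of_one_le_right h0.le (by nlinarith)
  · calc Real.exp (-|lam r|) ≤ Real.exp (lam r) :=
          Real.exp_le_exp.2 (neg_abs_le _)
      _ = (2 - r) / r := by
          rw [lam, Real.exp_sub, Real.exp_log h0, Real.exp_log h2']
      _ ≤ r * (2 - r) := by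
          rw [div_le_iff₀ h0, mul_comm r (2 - r), mul_assoc]
          exact le_mul_of_one_le_right h2'.le (by nlinarith)

theorem gp_le_fT {h : ℝ} (hh : 0 < h) (l r : ℝ) :
    gp l h r ≤ Real.exp (h ^ 2 / 16 + |l| / 2) * fT r := by
  by_cases hr : 0 < r ∧ r < 2
  · rw [gp, if_pos hr]
    refine le_trans ?_ (mul_le_mul_of_nonneg_left (exp_neg_abs_lam_le hr.1 hr.2) (Real.exp_pos _).le)
    rw [← Real.exp_add]
    refine Real.exp_le_exp.2 ?_
    have h1 : |lam r| ≤ |lam r - l| + |l| := by
      simpa using abs_add_le (lam r - l) l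
    have h2 : 0 ≤ (|lam r - l| / h - h / 4) ^ 2 := sq_nonneg _
    have h3 : |lam r - l| / h * (h / 4) = |lam r - l| / 4 := by field_simp
    have h4 : ((lam r - l) / h) ^ 2 = (|lam r - l| / h) ^ 2 := by
      rw [div_pow, div_pow, sq_abs]
    rw [h4]
    nlinarith
  · rw [gp, if_neg hr]
    exact mul_nonneg (Real.exp_pos _).le (fT_nonneg' r)

theorem continuousAt_lam {r : ℝ} (h0 : 0 < r) (h2 : r < 2) : ContinuousAt lam r := by
  have h2' : (2 : ℝ) - r ≠ 0 := by linarith
  exact ((continuousAt_const.sub continuousAt_id).log h2').sub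
    (Real.continuousAt_log h0.ne')

theorem continuous_gp {h : ℝ} (hh : 0 < h) (l : ℝ) : Continuous (gp l h) := by
  refine continuous_iff_continuousAt.2 fun r => ?_
  by_cases hr : 0 < r ∧ r < 2
  · have hl := continuousAt_lam hr.1 hr.2
    have hc : ContinuousAt (fun s => Real.exp (-((lam s - l) / h) ^ 2)) r := by fun_prop
    refine hc.congr ?_
    filter_upwards [isOpen_Ioo.mem_nhds (Set.mem_Ioo.2 hr)] with s hs
    rw [gp, if_pos ⟨hs.1, hs.2⟩]
  · have h0 : gp l h r = 0 := by rw [gp, if_neg hr]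
    rw [ContinuousAt, h0]
    refine squeeze_zero (gp_nonneg l h) (gp_le_fT hh l) ?_
    simpa [fT_eq_zero hr] using
      ((continuous_fT'.tendsto r).const_mul (Real.exp (h ^ 2 / 16 + |l| / 2)))

theorem continuous_fU : Continuous fun p : ℝ × ℝ => fU p.1 p.2 := by
  refine continuous_iff_continuousAt.2 fun ⟨t, r⟩ => ?_
  by_cases hr : 0 < r ∧ r < 2
  · have h2' : (2 : ℝ) - r ≠ 0 := by linarith [hr.2]
    have h0' : r ≠ 0 := hr.1.ne'
    have h3 := continuous_fT'
    unfold fU
    fun_prop (disch := assumption)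
  · have h0 : fU t r = 0 := by simp [fU, fT_eq_zero hr]
    rw [ContinuousAt, h0]
    refine squeeze_zero_norm (fun p => ?_) ?_ (a := fun p : ℝ × ℝ => fT p.2)
    · rw [fU, norm_mul, Complex.norm_exp_ofReal_mul_I, mul_one, Complex.norm_real,
        Real.norm_of_nonneg (fT_nonneg' _)]
    · have := (continuous_fT'.comp continuous_snd).tendsto (t, r)
      simpa [fT_eq_zero hr, Function.comp_def] using this

theorem norm_fU_le (t r : ℝ) : ‖fU t r‖ ≤ 1 := by
  rw [fU, norm_mul, Complex.norm_exp_ofReal_mul_I, mul_one, Complex.norm_real,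
    Real.norm_of_nonneg (fT_nonneg' _)]
  exact fT_le_one r

theorem continuous_bandKernel (l h : ℝ) : Continuous (bandKernel l h) := by
  unfold bandKernel; fun_prop

theorem norm_bandKernel {h : ℝ} (hh : 0 ≤ h) (l t : ℝ) :
    ‖bandKernel l h t‖ = h / (2 * Real.sqrt Real.pi) * Real.exp (-(t * h) ^ 2 / 4) := by
  rw [bandKernel, norm_mul, Complex.norm_exp_ofReal_mul_I, mul_one, Complex.norm_real,
    Real.norm_of_nonneg (by positivity)]

theorem integrable_norm_bandKernel {h : ℝ} (hh : 0 < h) (l : ℝ) :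
    Integrable fun t => ‖bandKernel l h t‖ := by
  have hb : 0 < h ^ 2 / 4 := by positivity
  refine ((integrable_exp_neg_mul_sq hb).const_mul (h / (2 * Real.sqrt Real.pi))).congr
    (Eventually.of_forall fun t => ?_)
  simp only [norm_bandKernel hh.le]
  ring_nf

theorem integrable_bandKernel {h : ℝ} (hh : 0 < h) (l : ℝ) : Integrable (bandKernel l h) :=
  (integrable_norm_iff (continuous_bandKernel l h).aestronglyMeasurable).1
    (integrable_norm_bandKernel hh l)

theorem integral_norm_bandKernel {h : ℝ} (hh : 0 < h) (l : ℝ) :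
    ∫ t, ‖bandKernel l h t‖ = 1 := by
  have e : (fun t => ‖bandKernel l h t‖)
      = fun t => h / (2 * Real.sqrt Real.pi) * Real.exp (-(h ^ 2 / 4) * t ^ 2) := by
    funext t; rw [norm_bandKernel hh.le]; ring_nf
  rw [e, integral_const_mul, integral_gaussian]
  have : Real.sqrt (Real.pi / (h ^ 2 / 4)) = 2 * Real.sqrt Real.pi / h := by
    rw [Real.sqrt_div' _ (by positivity), show h ^ 2 / 4 = (h / 2) ^ 2 by ring,
      Real.sqrt_sq (by positivity)]
    field_simp
  rw [this]
  field_simp

theorem integral_bandKernel_exp {h : ℝ} (hh : 0 < h) (l x : ℝ) :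
    ∫ t, bandKernel l h t * Complex.exp (((t * x : ℝ) : ℂ) * Complex.I)
      = ((Real.exp (-((x - l) / h) ^ 2) : ℝ) : ℂ) := by
  have hb : ((-(h ^ 2 / 4) : ℝ) : ℂ).re < 0 := by
    rw [Complex.ofReal_re, neg_lt_zero]
    positivity
  have key := integral_cexp_quadratic hb (((x - l : ℝ) : ℂ) * Complex.I) 0
  have e : (fun t : ℝ => bandKernel l h t * Complex.exp (((t * x : ℝ) : ℂ) * Complex.I))
      = fun t : ℝ => ((h / (2 * Real.sqrt Real.pi) : ℝ) : ℂ) * Complex.exp
        (((-(h ^ 2 / 4) : ℝ) : ℂ) * (t : ℂ) ^ 2 + (((x - l : ℝ) : ℂ) * Complex.I) * (t : ℂ) + 0) := by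
    funext t
    rw [bandKernel, Complex.ofReal_mul (h / _), Complex.ofReal_exp, mul_assoc, mul_assoc,
      ← Complex.exp_add, ← Complex.exp_add]
    push_cast
    ring_nf
  rw [e, integral_const_mul, key]
  have hs : ((Real.pi : ℂ) / -((-(h ^ 2 / 4) : ℝ) : ℂ)) ^ (1 / 2 : ℂ)
      = ((2 * Real.sqrt Real.pi / h : ℝ) : ℂ) := by
    have h1 : (Real.pi : ℂ) / -((-(h ^ 2 / 4) : ℝ) : ℂ) = ((Real.pi / (h ^ 2 / 4) : ℝ) : ℂ) := by
      push_cast; ring
    rw [h1, show (1 / 2 : ℂ) = ((1 / 2 : ℝ) : ℂ) by norm_num,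
      ← Complex.ofReal_cpow (by positivity), ← Real.sqrt_eq_rpow,
      Real.sqrt_div' _ (by positivity), show h ^ 2 / 4 = (h / 2) ^ 2 by ring,
      Real.sqrt_sq (by positivity)]
    congr 1
    field_simp
  have hh' : (h : ℂ) ≠ 0 := Complex.ofReal_ne_zero.2 hh.ne'
  rw [hs, ← mul_assoc, ← Complex.ofReal_mul,
    show h / (2 * Real.sqrt Real.pi) * (2 * Real.sqrt Real.pi / h) = 1 by field_simp,
    Complex.ofReal_one, one_mul, Complex.ofReal_exp]
  congr 1
  push_cast
  rw [mul_pow, Complex.I_sq]
  field_simp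
  ring

theorem integral_bandKernel_fU {h : ℝ} (hh : 0 < h) (l r : ℝ) :
    ∫ t, bandKernel l h t * fU t r = ((gp l h r * fT r : ℝ) : ℂ) := by
  by_cases hr : 0 < r ∧ r < 2
  · have e : (fun t => bandKernel l h t * fU t r)
        = fun t => (fT r : ℂ) * (bandKernel l h t * Complex.exp (((t * lam r : ℝ) : ℂ) * Complex.I)) := by
      funext t; rw [fU, lam]; ring
    rw [e, integral_const_mul, integral_bandKernel_exp hh, gp, if_pos hr]
    push_cast
    ring
  · simp [fU, fT_eq_zero hr]

section modular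

variable {M : VonNeumannAlgebra H} {ξ : H} {R : H →L[ℂ] H} {J : H ≃ₗᵢ⋆[ℂ] H}
  {U : ℝ → H →L[ℂ] H}

theorem norm_U_apply (hm : Modular M ξ R J U) (t : ℝ) (v : H) : ‖U t v‖ = ‖v‖ := by
  have h1 : star (U t) * U t = 1 := by
    rw [hm.U_star, ← hm.U_add, neg_add_cancel, hm.U_zero]
  exact ContinuousLinearMap.norm_map_iff_adjoint_comp_self (U t) |>.2 h1 v

theorem integrable_kernel_smul (hm : Modular M ξ R J U) {h : ℝ} (hh : 0 < h) (l : ℝ) (v : H) :
    Integrable fun t => bandKernel l h t • U t v := by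
  refine ((integrable_norm_bandKernel hh l).mul_const ‖v‖).mono'
    ((continuous_bandKernel l h).smul (hm.U_cont v)).aestronglyMeasurable
    (Eventually.of_forall fun t => ?_)
  rw [norm_smul, norm_U_apply hm]

theorem band_selfAdjoint (R : H →L[ℂ] H) (l h : ℝ) : IsSelfAdjoint (band R l h) :=
  cfc_predicate _ _

theorem norm_band_le (R : H →L[ℂ] H) (l h : ℝ) : ‖band R l h‖ ≤ 1 := by
  refine norm_cfc_le zero_le_one fun r _ => ?_
  rw [Real.norm_eq_abs, abs_of_nonneg (gp_nonneg l h r)]
  exact gp_le_one l h r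

theorem band_eq_sq {h : ℝ} (hh : 0 < h) (l : ℝ) (R : H →L[ℂ] H) :
    band R l h = band R l (Real.sqrt 2 * h) * band R l (Real.sqrt 2 * h) := by
  have hc := continuous_gp (show 0 < Real.sqrt 2 * h by positivity) l
  rw [band, band, ← cfc_mul _ _ R hc.continuousOn hc.continuousOn]
  exact cfc_congr fun r _ => gp_sq l h r

theorem band_commute_U (hm : Modular M ξ R J U) (l h t : ℝ) :
    Commute (band R l h) (U t) :=
  Commute.cfc_real (show Commute R (U t) from (hm.U_R t).symm) _

theorem J_cfc (hm : Modular M ξ R J U) {g : ℝ → ℝ} (hg : Continuous g) (v : H) :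
    J (cfc g R v) = cfc (fun r => g (2 - r)) R (J v) := by
  have poly : ∀ p : Polynomial ℝ, ∀ v, J (Polynomial.aeval R p v) =
      Polynomial.aeval R (p.comp (Polynomial.C 2 - Polynomial.X)) (J v) := by
    intro p
    induction p using Polynomial.induction_on with
    | C a =>
      intro v
      simp only [Polynomial.aeval_C, Polynomial.C_comp, Algebra.algebraMap_eq_smul_one, smul_apply,
        one_apply_eq_self]
      rw [← Complex.coe_smul, LinearIsometryEquiv.map_smulₛₗ, Complex.conj_ofReal, Complex.coe_smul]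
    | add p q hp hq =>
      intro v; simp only [map_add, add_apply, Polynomial.add_comp, hp, hq]
    | monomial n a ih =>
      intro v
      rw [pow_succ, ← mul_assoc, Polynomial.mul_comp,
        map_mul (Polynomial.aeval R) (Polynomial.C a * Polynomial.X ^ n) Polynomial.X,
        map_mul (Polynomial.aeval R) _ (Polynomial.X.comp _),
        mul_apply_eq_comp, mul_apply_eq_comp, Polynomial.aeval_X, ih,
        hm.J_R, Polynomial.X_comp, map_sub (Polynomial.aeval (R := ℝ) R) (Polynomial.C 2) Polynomial.X,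
        Polynomial.aeval_C, Polynomial.aeval_X,
        Algebra.algebraMap_eq_smul_one, sub_apply, smul_apply, one_apply_eq_self,
        ← Complex.coe_smul (2 : ℝ), Complex.ofReal_ofNat]
  have hsa := hm.R_sa
  refine eq_of_forall_dist_le fun ε hε => ?_
  set δ := ε / (2 * ‖v‖ + 1) with hδ
  have hδ0 : 0 < δ := by positivity
  obtain ⟨p, hp⟩ := exists_polynomial_near_of_continuousOn 0 2 g hg.continuousOn δ hδ0
  have near : ∀ (f k : ℝ → ℝ), Continuous f → Continuous k →
      (∀ r ∈ Set.Icc (0 : ℝ) 2, |f r - k r| ≤ δ) → ∀ w, ‖cfc f R w - cfc k R w‖ ≤ δ * ‖w‖ := by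
    intro f k hf hk hfk w
    rw [← sub_apply, ← cfc_sub f k R hf.continuousOn hk.continuousOn]
    refine ((cfc (fun r => f r - k r) R).le_opNorm w).trans
      (mul_le_mul_of_nonneg_right ?_ (norm_nonneg w))
    exact norm_cfc_le hδ0.le fun r hr => hfk r (hm.R_spec hr)
  have h1 : ‖cfc g R v - Polynomial.aeval R p v‖ ≤ δ * ‖v‖ := by
    rw [← cfc_polynomial p R hsa]
    exact near g _ hg p.continuous (fun r hr => by rw [abs_sub_comm]; exact (hp r hr).le) v
  have h2 : ‖cfc (fun r => g (2 - r)) R (J v) -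
      Polynomial.aeval R (p.comp (Polynomial.C 2 - Polynomial.X)) (J v)‖ ≤ δ * ‖J v‖ := by
    rw [← cfc_polynomial _ R hsa]
    refine near _ _ (hg.comp (continuous_const.sub continuous_id)) (Polynomial.continuous _)
      (fun r hr => ?_) _
    rw [Polynomial.eval_comp, Polynomial.eval_sub, Polynomial.eval_C, Polynomial.eval_X,
      abs_sub_comm]
    exact (hp (2 - r) ⟨by linarith [hr.2], by linarith [hr.1]⟩).le
  rw [dist_eq_norm]
  calc ‖J (cfc g R v) - cfc (fun r => g (2 - r)) R (J v)‖
      = ‖J (cfc g R v - Polynomial.aeval R p v) - (cfc (fun r => g (2 - r)) R (J v) -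
          Polynomial.aeval R (p.comp (Polynomial.C 2 - Polynomial.X)) (J v))‖ := by
        rw [map_sub, poly]; congr 1; abel
    _ ≤ δ * ‖v‖ + δ * ‖J v‖ := by
        refine (norm_sub_le _ _).trans (add_le_add ?_ h2)
        rw [J.norm_map]; exact h1
    _ ≤ ε := by
        rw [J.norm_map, hδ, div_mul_eq_mul_div, ← add_div, div_le_iff₀ (by positivity)]
        nlinarith [norm_nonneg v]

theorem J_band (hm : Modular M ξ R J U) {h : ℝ} (hh : 0 < h) (l : ℝ) (v : H) :
    J (band R l h v) = band R (-l) h (J v) := by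
  rw [band, J_cfc hm (continuous_gp hh l), funext fun r => gp_two_sub l h r]
  rfl

/-- The band operators are averages of the modular group. -/
theorem integralSpec (hm : Modular M ξ R J U) : IntegralSpec R U := by
  intro l h hh
  have hn : IsStarNormal R := hm.R_sa.isStarNormal
  have hfU : Continuous fun p : ℝ × ℂ => fU p.1 p.2.re :=
    continuous_fU.comp (continuous_fst.prodMk (Complex.continuous_re.comp continuous_snd))
  let f : ℝ → ℂ → ℂ := fun t z => bandKernel l h t * fU t z.re
  have hf : Continuous (Function.uncurry f) :=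
    ((continuous_bandKernel l h).comp continuous_fst).mul hfU
  have hb : ∀ t, ∀ z, ‖f t z‖ ≤ ‖bandKernel l h t‖ := fun t z => by
    rw [norm_mul]; exact mul_le_of_le_one_right (norm_nonneg _) (norm_fU_le t _)
  have hk := integrable_norm_bandKernel hh l
  have hop : ∀ t, cfc (f t) R = bandKernel l h t • (U t * opT R) := fun t => by
    rw [hm.U_T, ← cfc_const_mul (bandKernel l h t) (fun z : ℂ => fU t z.re) R
      (hfU.comp (Continuous.prodMk_right t)).continuousOn]
  have hint : cfc (fun z => ∫ t, f t z) R = band R l h * opT R := by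
    have e : (fun z : ℂ => ∫ t, f t z) = fun z => ((gp l h z.re * fT z.re : ℝ) : ℂ) :=
      funext fun z => integral_bandKernel_fU hh l z.re
    rw [e, ← cfc_real_eq_complex (fun r => gp l h r * fT r) hm.R_sa, band, opT,
      cfc_mul _ _ R (continuous_gp hh l).continuousOn continuous_fT'.continuousOn]
  have hop' : ∫ t, bandKernel l h t • (U t * opT R) = band R l h * opT R := by
    rw [← hint, cfc_integral f (fun t => ‖bandKernel l h t‖) R hf.continuousOn
      (Eventually.of_forall fun t z _ => hb t z) hk.hasFiniteIntegral]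
    exact integral_congr_ae (Eventually.of_forall fun t => (hop t).symm)
  have hiop : Integrable fun t => bandKernel l h t • (U t * opT R) := by
    refine (integrable_cfc f (fun t => ‖bandKernel l h t‖) R hf.continuousOn
      (Eventually.of_forall fun t z _ => hb t z) hk.hasFiniteIntegral).congr
      (Eventually.of_forall hop)
  have lhs_cont : Continuous fun v => ∫ t, bandKernel l h t • U t v := by
    refine LipschitzWith.continuous (K := 1) (LipschitzWith.of_dist_le_mul fun v w => ?_)
    rw [dist_eq_norm, dist_eq_norm, NNReal.coe_one, one_mul,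
      ← integral_sub (integrable_kernel_smul hm hh l v) (integrable_kernel_smul hm hh l w)]
    refine (norm_integral_le_of_norm_le (hk.mul_const ‖v - w‖)
      (Eventually.of_forall fun t => ?_)).trans ?_
    · rw [← smul_sub, ← map_sub, norm_smul, norm_U_apply hm]
    · rw [integral_mul_const, integral_norm_bandKernel hh, one_mul]
  refine fun v => congrFun (Continuous.ext_on hm.dense_T lhs_cont (band R l h).continuous ?_) v
  rintro _ ⟨w, rfl⟩
  calc ∫ t, bandKernel l h t • U t (opT R w)
      = ∫ t, (bandKernel l h t • (U t * opT R)) w := rfl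
    _ = (∫ t, bandKernel l h t • (U t * opT R)) w :=
        (ContinuousLinearMap.integral_apply hiop w).symm
    _ = band R l h (opT R w) := by rw [hop']; rfl

end modular

end VP132
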