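import Vale.Agent.P132.Integral

/-!
P132, the end of the main estimate: small band sums on both sides of frequency zero make a vector
fixed by the modular group.
-/

open scoped InnerProductSpace
open Vale.Agent.P132.Tomita (Modular opT fT)

namespace VP132

variable {H : Type} [NormedAddCommGroup H] [InnerProductSpace ℂ H] [CompleteSpace H]

namespace SigmaTail

/-- The cubic vanishing at `0`, `1`, `2`. -/
noncomputable def cubic (r : ℝ) : ℝ := r * (1 - r) * (2 - r)

theorem cubic_two_sub (r : ℝ) : cubic (2 - r) = -cubic r := by unfold cubic; ring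

theorem norm_cfc_sq (R : H →L[ℂ] H) (f : ℝ → ℝ) (hf : Continuous f) (v : H) :
    ‖cfc f R v‖ ^ 2 = RCLike.re ⟪cfc (fun r => f r * f r) R v, v⟫_ℂ := by
  rw [cfc_mul f f R hf.continuousOn hf.continuousOn, mul_apply_eq_comp,
    show ⟪cfc f R (cfc f R v), v⟫_ℂ = ⟪cfc f R v, cfc f R v⟫_ℂ from
      (cfc_predicate f R : IsSelfAdjoint _).isSymmetric _ _,
    inner_self_eq_norm_sq (𝕜 := ℂ)]

theorem re_inner_cfc_mono {R : H →L[ℂ] H} {f g : ℝ → ℝ} (hf : Continuous f) (hg : Continuous g)
    (hfg : ∀ r ∈ spectrum ℝ R, f r ≤ g r) (v : H) :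
    RCLike.re ⟪cfc f R v, v⟫_ℂ ≤ RCLike.re ⟪cfc g R v, v⟫_ℂ := by
  have h := cfc_mono hfg hf.continuousOn hg.continuousOn
  rw [ContinuousLinearMap.le_def] at h
  have := h.re_inner_nonneg_left v
  rwa [sub_apply, inner_sub_left, map_sub, sub_nonneg] at this

theorem lam_bounds {r e : ℝ} (he : 0 < e) (h0 : e ≤ r) (h1 : r ≤ 1 - e) :
    e ≤ lam r ∧ lam r ≤ Real.log 2 - Real.log e := by
  have hr : 0 < r := he.trans_le h0
  have h2 : 0 < 2 - r := by linarith
  have hle : Real.log e ≤ Real.log r := Real.log_le_log he h0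
  have hl2 : Real.log (2 - r) ≤ Real.log 2 := Real.log_le_log h2 (by linarith)
  refine ⟨?_, by unfold lam; linarith⟩
  have a := Real.log_le_sub_one_of_pos hr
  have b : 0 ≤ Real.log (2 - r) := Real.log_nonneg (by linarith)
  unfold lam
  linarith

variable {M : VonNeumannAlgebra H} {ξ : H} {R : H →L[ℂ] H} {J : H ≃ₗᵢ⋆[ℂ] H}
  {U : ℝ → H →L[ℂ] H}

theorem cfc_pos_eq_zero (hm : Modular M ξ R J U) (v : H)
    (h1 : ∀ δ W : ℝ, 0 < δ → δ < W → ∀ ε : ℝ, 0 < ε → ∃ h ∈ Set.Ioo (0 : ℝ) 1, ∃ K : Finset ℤ,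
      (∀ k : ℤ, δ ≤ k * h ∧ k * h ≤ W → k ∈ K) ∧ ∑ k ∈ K, ‖band R (k * h) h v‖ ^ 2 ≤ ε) :
    cfc (fun r => max 0 (cubic r)) R v = 0 := by
  have hsa := hm.R_sa
  have hcub : Continuous cubic := by unfold cubic; fun_prop
  suffices h : ∀ e : ℝ, 0 < e → cfc (fun r => max 0 (cubic r - e)) R v = 0 by
    refine norm_eq_zero.1 (le_antisymm (le_of_forall_pos_le_add fun e he => ?_) (norm_nonneg _))
    set e' := e / (‖v‖ + 1)
    have he' : 0 < e' := by positivity
    have hd : ‖cfc (fun r => max 0 (cubic r)) R v - cfc (fun r => max 0 (cubic r - e')) R v‖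
        ≤ e' * ‖v‖ := by
      rw [← sub_apply, ← cfc_sub (fun r => max 0 (cubic r)) (fun r => max 0 (cubic r - e')) R
        (continuous_const.max hcub).continuousOn
        (continuous_const.max (hcub.sub continuous_const)).continuousOn]
      refine ((cfc _ R).le_opNorm v).trans (mul_le_mul_of_nonneg_right ?_ (norm_nonneg v))
      refine norm_cfc_le he'.le fun r _ => ?_
      rw [Real.norm_eq_abs]
      refine (abs_max_sub_max_le_max _ _ _ _).trans ?_
      simp [abs_of_pos he', he'.le]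
    rw [h e' he', sub_zero] at hd
    refine hd.trans ?_
    rw [zero_add, div_mul_eq_mul_div, div_le_iff₀ (by positivity)]
    nlinarith [norm_nonneg v]
  intro e he
  by_cases he1 : 1 ≤ e
  · have hz : ∀ r ∈ spectrum ℝ R, max 0 (cubic r - e) = (0 : ℝ) := by
      intro r hr
      obtain ⟨h0, h2⟩ := hm.R_spec hr
      refine max_eq_left ?_
      have : cubic r ≤ 1 := by
        unfold cubic
        nlinarith [sq_nonneg (r - 1), mul_nonneg h0 (sub_nonneg.2 h2)]
      linarith
    rw [cfc_congr hz, cfc_const_zero, zero_apply]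
  push Not at he1
  set δ := e / 4 with hδ
  have hδ0 : 0 < δ := by positivity
  set W := Real.log 2 - Real.log δ + 1 with hW
  have hδW : δ < W := by
    have := Real.log_le_sub_one_of_pos hδ0
    have := Real.log_nonneg (show (1 : ℝ) ≤ 2 by norm_num)
    linarith
  refine norm_eq_zero.1 (le_antisymm (le_of_forall_pos_le_add fun t ht => ?_) (norm_nonneg _))
  obtain ⟨h, hh, K, hK, hsum⟩ := h1 δ W hδ0 hδW (t ^ 2 / Real.exp 1 ^ 2) (by positivity)
  have hband : ∀ k : ℤ, Continuous (gp (k * h) h) := fun k => continuous_gp hh.1 _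
  have hpt : ∀ r ∈ spectrum ℝ R, max 0 (cubic r - e) * max 0 (cubic r - e)
      ≤ Real.exp 1 ^ 2 * ∑ k ∈ K, gp (k * h) h r * gp (k * h) h r := by
    intro r hr
    obtain ⟨h0, h2⟩ := hm.R_spec hr
    by_cases hc : cubic r ≤ e
    · rw [max_eq_left (by linarith), mul_zero]
      exact mul_nonneg (sq_nonneg _) (Finset.sum_nonneg fun k _ => mul_self_nonneg _)
    push Not at hc
    have hb : δ ≤ r ∧ r ≤ 1 - δ := by
      unfold cubic at hc
      have h3 : r ≤ 1 := by
        by_contra hr1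
        push Not at hr1
        have := mul_nonpos_of_nonpos_of_nonneg
          (mul_nonpos_of_nonneg_of_nonpos h0 (by linarith : 1 - r ≤ 0)) (sub_nonneg.2 h2)
        linarith
      have hp : r * (1 - r) * (2 - r) ≤ r * (1 - r) * 2 :=
        mul_le_mul_of_nonneg_left (by linarith) (mul_nonneg h0 (sub_nonneg.2 h3))
      constructor <;> nlinarith
    obtain ⟨hl1, hl2⟩ := lam_bounds hδ0 hb.1 hb.2
    set k : ℤ := ⌈lam r / h⌉
    have hk1 : lam r ≤ k * h := (div_le_iff₀ hh.1).1 (Int.le_ceil _)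
    have hk2 : k * h < lam r + h := by
      have := mul_lt_mul_of_pos_right (Int.ceil_lt_add_one (lam r / h)) hh.1
      rwa [add_mul, div_mul_cancel₀ _ hh.1.ne', one_mul] at this
    have hkK : k ∈ K := hK k ⟨hl1.trans hk1, by linarith [hh.2]⟩
    have hgp : Real.exp (-1) ≤ gp (k * h) h r := by
      rw [gp, if_pos ⟨by linarith [hb.1], by linarith [hb.2]⟩]
      refine Real.exp_le_exp.2 (neg_le_neg ?_)
      rw [sq_le_one_iff_abs_le_one, abs_div, abs_of_pos hh.1, div_le_one hh.1, abs_le]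
      constructor <;> linarith
    have hm1 : max 0 (cubic r - e) ≤ 1 := by
      refine max_le zero_le_one ?_
      have : cubic r ≤ 1 := by
        unfold cubic
        nlinarith [sq_nonneg (r - 1), mul_nonneg h0 (sub_nonneg.2 h2)]
      linarith
    calc max 0 (cubic r - e) * max 0 (cubic r - e) ≤ 1 :=
          mul_le_one₀ hm1 (le_max_left _ _) hm1
      _ = Real.exp 1 ^ 2 * (Real.exp (-1) * Real.exp (-1)) := by
          rw [sq, ← Real.exp_add, ← Real.exp_add, ← Real.exp_add]; norm_num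
      _ ≤ Real.exp 1 ^ 2 * (gp (k * h) h r * gp (k * h) h r) := by
          have := Real.exp_pos (-1)
          gcongr
          exact gp_nonneg _ _ _
      _ ≤ _ := by
          gcongr
          exact Finset.single_le_sum (f := fun k : ℤ => gp (k * h) h r * gp (k * h) h r)
            (fun k _ => mul_self_nonneg _) hkK
  have hf : Continuous fun r => max 0 (cubic r - e) :=
    continuous_const.max (hcub.sub continuous_const)
  have hg : Continuous fun r => Real.exp 1 ^ 2 * ∑ k ∈ K, gp (k * h) h r * gp (k * h) h r :=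
    continuous_const.mul (continuous_finsetSum K fun k _ => (hband k).mul (hband k))
  have key := re_inner_cfc_mono (f := fun r => max 0 (cubic r - e) * max 0 (cubic r - e))
    (hf.mul hf) hg hpt v
  rw [← norm_cfc_sq R _ hf] at key
  have hs : RCLike.re ⟪cfc (fun r => Real.exp 1 ^ 2 * ∑ k ∈ K, gp (k * h) h r * gp (k * h) h r) R v,
      v⟫_ℂ = Real.exp 1 ^ 2 * ∑ k ∈ K, ‖band R (k * h) h v‖ ^ 2 := by
    rw [cfc_const_mul (Real.exp 1 ^ 2) (fun r => ∑ k ∈ K, gp (k * h) h r * gp (k * h) h r) R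
      (continuous_finsetSum K fun k _ => (hband k).mul (hband k)).continuousOn,
      show (fun r => ∑ k ∈ K, gp (k * h) h r * gp (k * h) h r)
        = ∑ k ∈ K, (fun r => gp (k * h) h r * gp (k * h) h r) by
        funext r; rw [Finset.sum_apply],
      cfc_sum (fun (k : ℤ) r => gp (k * h) h r * gp (k * h) h r) R K
        (fun k _ => ((hband k).mul (hband k)).continuousOn)]
    simp only [smul_apply, sum_apply, inner_smul_left_eq_smul, sum_inner, RCLike.smul_re,
      map_sum, band]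
    congr 1
    exact Finset.sum_congr rfl fun k _ => (norm_cfc_sq R _ (hband k) v).symm
  rw [hs] at key
  have hle : ‖cfc (fun r => max 0 (cubic r - e)) R v‖ ^ 2 ≤ t ^ 2 := by
    refine key.trans ?_
    rw [le_div_iff₀ (by positivity)] at hsum
    linarith
  rw [zero_add]
  exact (pow_le_pow_iff_left₀ (norm_nonneg _) ht.le two_ne_zero).1 hle

end SigmaTail

open SigmaTail in
/-- A vector with small band sums on both sides is fixed. -/
theorem fixed_of_band_small {M : VonNeumannAlgebra H} {ξ : H} {R : H →L[ℂ] H}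
    {J : H ≃ₗᵢ⋆[ℂ] H} {U : ℝ → H →L[ℂ] H} (hm : Modular M ξ R J U) {a : H →L[ℂ] H} (ha : a ∈ M)
    (h1 : ∀ δ W : ℝ, 0 < δ → δ < W → ∀ ε : ℝ, 0 < ε → ∃ h ∈ Set.Ioo (0 : ℝ) 1, ∃ K : Finset ℤ,
      (∀ k : ℤ, δ ≤ k * h ∧ k * h ≤ W → k ∈ K) ∧ ∑ k ∈ K, ‖band R (k * h) h (a ξ)‖ ^ 2 ≤ ε)
    (h2 : ∀ δ W : ℝ, 0 < δ → δ < W → ∀ ε : ℝ, 0 < ε → ∃ h ∈ Set.Ioo (0 : ℝ) 1, ∃ K : Finset ℤ,
      (∀ k : ℤ, δ ≤ k * h ∧ k * h ≤ W → k ∈ K) ∧
        ∑ k ∈ K, ‖band R (k * h) h (star a ξ)‖ ^ 2 ≤ ε) :
    R (a ξ) = a ξ := by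
  have hsa := hm.R_sa
  have hcub : Continuous cubic := by unfold cubic; fun_prop
  have hp : Continuous fun r => max 0 (cubic r) := continuous_const.max hcub
  have hn : Continuous fun r => max 0 (-cubic r) := continuous_const.max hcub.neg
  set v := a ξ
  have h3 := cfc_pos_eq_zero hm v h1
  have h4 := cfc_pos_eq_zero hm (star a ξ) h2
  have hflip : J (cfc (fun r => max 0 (-cubic r)) R ((2 : ℂ) • v - R v)) = 0 := by
    rw [J_cfc hm hn, hm.S_eq a ha]
    have e : (fun r => max 0 (-cubic (2 - r))) = fun r => max 0 (cubic r) := by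
      funext r; rw [cubic_two_sub, neg_neg]
    rw [e, opT, ← mul_apply_eq_comp,
      show Commute (cfc (fun r => max 0 (cubic r)) R) (cfc fT R) from cfc_commute_cfc _ _ R,
      mul_apply_eq_comp, h4, map_zero]
  have hflip' : cfc (fun r => max 0 (-cubic r)) R ((2 : ℂ) • v - R v) = 0 :=
    J.map_eq_zero_iff.1 hflip
  rw [map_sub, map_smul, sub_eq_zero] at hflip'
  rw [← mul_apply_eq_comp (cfc (fun r => max 0 (-cubic r)) R) R v,
    (Commute.cfc_real (Commute.refl R) (fun r => max 0 (-cubic r))).eq,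
    mul_apply_eq_comp] at hflip'
  have h5 := hm.R_inj' _ hflip'.symm
  have h6 : cfc cubic R v = 0 := by
    rw [show cubic = fun r => max 0 (cubic r) - max 0 (-cubic r) from
      funext fun r => by rcases le_total 0 (cubic r) with h | h <;> simp [h],
      cfc_sub _ _ R hp.continuousOn hn.continuousOn, sub_apply, h3, h5, sub_zero]
  have h7 : cfc cubic R v = R ((2 : ℂ) • (v - R v) - R (v - R v)) := by
    have hid : cfc (fun r : ℝ => r) R = R := cfc_id' ℝ R
    have hone : ∀ c : ℝ, cfc (fun r : ℝ => c - r) R = c • (1 : H →L[ℂ] H) - R := by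
      intro c
      rw [cfc_sub (fun _ => c) (fun r : ℝ => r) R continuousOn_const continuousOn_id, cfc_const c R,
        hid,
        Algebra.algebraMap_eq_smul_one]
    unfold cubic
    rw [cfc_mul _ _ R (by fun_prop) (by fun_prop), cfc_mul _ _ R (by fun_prop) (by fun_prop),
      hid, hone, hone]
    simp only [mul_apply_eq_comp, sub_apply, smul_apply, one_apply_eq_self, ← Complex.coe_smul]
    simp only [map_sub, map_smul, Complex.ofReal_one, one_smul, Complex.ofReal_ofNat]
    module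
  rw [h7] at h6
  have h8 := hm.R_inj' _ (sub_eq_zero.1 (hm.R_inj _ h6)).symm
  exact (sub_eq_zero.1 h8).symm

end VP132
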