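import Vale.Agent.P132.Short.Key
import Vale.Agent.P132.Short.Schur
import Vale.Agent.P132.SigmaTail

/-!
P132, the main estimate: an element with a modulus, and whose adjoint has one, is fixed by the
modular group. The tests are the derivations of the moduli of its bands.
-/

open scoped InnerProductSpace ComplexConjugate
open MeasureTheory Finset
open Vale.Agent.P132.Tomita (conjBy Modular)

namespace VP132.Short

variable {H : Type} [NormedAddCommGroup H] [InnerProductSpace ℂ H] [CompleteSpace H]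
  {M : VonNeumannAlgebra H} {ξ : H} {R : H →L[ℂ] H} {J : H ≃ₗᵢ⋆[ℂ] H} {U : ℝ → H →L[ℂ] H}

theorem conjBy_U (hm : Modular M ξ R J U) (t : ℝ) : conjBy J (U t) = U t := by
  ext v; rw [Row.conjBy_apply, hm.U_J, hm.J_J]

theorem conjBy_real_smul (hm : Modular M ξ R J U) (r : ℝ) (K : H →L[ℂ] H) :
    conjBy J ((r : ℂ) • K) = (r : ℂ) • conjBy J K := by
  ext v
  rw [Row.conjBy_apply, smul_apply, smul_apply, LinearIsometryEquiv.map_smulₛₗ, Complex.conj_ofReal,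
    Row.conjBy_apply]

theorem inner_U (hm : Modular M ξ R J U) (t : ℝ) (u v : H) :
    ⟪U (-t) u, v⟫_ℂ = ⟪u, U t v⟫_ℂ := by
  rw [← hm.U_star, ContinuousLinearMap.star_eq_adjoint, ContinuousLinearMap.adjoint_inner_left]

theorem U_cancel (hm : Modular M ξ R J U) (t : ℝ) (v : H) : U t (U (-t) v) = v := by
  rw [← mul_apply_eq_comp, ← hm.U_add, add_neg_cancel, hm.U_zero, one_apply_eq_self]

/-- The test vector made from the decomposition `star x = A v`, and what it satisfies. -/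
theorem exists_test (hm : Modular M ξ R J U) {x : H →L[ℂ] H} (hx : x ∈ M) {η : ℝ} (hη : 0 < η)
    {l : ℝ} (hl : 1 ≤ l) :
    ∃ A ∈ M, ∃ y : H, IsSelfAdjoint A ∧ ‖y‖ ≤ ‖ξ‖ ∧
      ‖dop J A ξ‖ ^ 2
        ≤ 2 * ‖J (star x ξ) - (l : ℂ) • x ξ‖ ^ 2 + 2 * (η * ‖ξ‖ ^ 2) ∧
      ‖dop J A y‖ ≤ Real.sqrt (‖x ξ‖ ^ 2 + η * ‖ξ‖ ^ 2) + ‖star x ξ‖ ∧
      (l * ‖x ξ‖ ^ 2 - (‖J (star x ξ) - (l : ℂ) • x ξ‖
          + Real.sqrt (‖x ξ‖ ^ 2 + η * ‖ξ‖ ^ 2)) * ‖x ξ‖) ≤ -(⟪dop J A y, x ξ⟫_ℂ).re := by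
  obtain ⟨A, hA, v, hv, hAs, hAv, hvc, hAn, hAd⟩ := exists_decomp hm (star_mem hx) hη
  rw [star_star] at hAn
  have hAξ : ‖A ξ‖ = Real.sqrt (‖x ξ‖ ^ 2 + η * ‖ξ‖ ^ 2) := by
    rw [← hAn, Real.sqrt_sq (norm_nonneg _)]
  refine ⟨A, hA, J (v ξ), hAs, (J.norm_map _).le.trans (hvc ξ), ?_, ?_⟩
  · refine (hAd l⁻¹).trans ?_
    rw [star_star]
    gcongr
    have e : J (x ξ) - ((l⁻¹ : ℝ) : ℂ) • star x ξ
        = -(((l⁻¹ : ℝ) : ℂ) • J (J (star x ξ) - (l : ℂ) • x ξ)) := by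
      rw [map_sub, hm.J_J, LinearIsometryEquiv.map_smulₛₗ, Complex.conj_ofReal, smul_sub, smul_smul,
        ← Complex.ofReal_mul, inv_mul_cancel₀ (by linarith), Complex.ofReal_one, one_smul, neg_sub]
    rw [e, norm_neg, norm_smul, J.norm_map, Complex.norm_real, Real.norm_eq_abs,
      abs_of_pos (by positivity)]
    exact mul_le_of_le_one_left (norm_nonneg _) (inv_le_one_of_one_le₀ hl)
  have e : dop J A (J (v ξ)) = conjBy J v (A ξ) - J (star x ξ) := by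
    rw [dop, sub_apply, Row.conjBy_apply J A, hm.J_J, ← mul_apply_eq_comp A v, hAv]
    congr 1
    have hc : Commute A (conjBy J v) := Row.commute_conjBy hm hA hv
    rw [← mul_apply_eq_comp (conjBy J v) A, ← hc.eq, mul_apply_eq_comp, Row.conjBy_apply J v,
      hm.J_xi]
  have hn : ‖conjBy J v (A ξ)‖ ≤ ‖A ξ‖ := by
    rw [Row.conjBy_apply, J.norm_map]; exact (hvc _).trans (J.norm_map _).le
  refine ⟨?_, ?_⟩
  · rw [e]
    refine (norm_sub_le _ _).trans ?_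
    rw [J.norm_map, ← hAξ]
    linarith
  · rw [e, inner_sub_left, Complex.sub_re]
    have h1 : (⟪conjBy J v (A ξ), x ξ⟫_ℂ).re
        ≤ Real.sqrt (‖x ξ‖ ^ 2 + η * ‖ξ‖ ^ 2) * ‖x ξ‖ := by
      rw [← hAξ]
      exact (Complex.re_le_norm _).trans ((norm_inner_le_norm _ _).trans
        (mul_le_mul_of_nonneg_right hn (norm_nonneg _)))
    have h2 : l * ‖x ξ‖ ^ 2 - ‖J (star x ξ) - (l : ℂ) • x ξ‖ * ‖x ξ‖
        ≤ (⟪J (star x ξ), x ξ⟫_ℂ).re := by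
      have h3 := (abs_le.1 ((Complex.abs_re_le_norm _).trans
        (norm_inner_le_norm (𝕜 := ℂ) (J (star x ξ) - (l : ℂ) • x ξ) (x ξ)))).1
      rw [inner_sub_left, inner_smul_left, Complex.conj_ofReal, inner_self_eq_norm_sq_to_K,
        Complex.sub_re] at h3
      simp [← Complex.ofReal_pow, -Complex.coe_smul] at h3
      linarith
    linarith

theorem sq_bound {s r L e n : ℝ} (hr : 0 ≤ r) (hn : 0 ≤ n)
    (h : n ≤ Real.sqrt (s ^ 2 + r) + (L * s + e)) :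
    n ^ 2 ≤ (2 + 4 * L ^ 2) * s ^ 2 + 2 * r + 4 * e ^ 2 := by
  have h4 := Real.sq_sqrt (show 0 ≤ s ^ 2 + r by positivity)
  nlinarith [pow_le_pow_left₀ hn h 2, sq_nonneg (Real.sqrt (s ^ 2 + r) - (L * s + e)),
    sq_nonneg (L * s - e)]

theorem low_bound {s p e g l : ℝ} (hs : 0 ≤ s) (hp : 0 ≤ p) (hg : 0 < g) (hl : 1 + g ≤ l) :
    g / 2 * s ^ 2 - (e ^ 2 + p ^ 2) / g ≤ l * s ^ 2 - (e + Real.sqrt (s ^ 2 + p ^ 2)) * s := by
  have h1 : Real.sqrt (s ^ 2 + p ^ 2) ≤ s + p :=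
    Real.sqrt_le_iff.2 ⟨by linarith, by nlinarith [mul_nonneg hs hp]⟩
  have h2 : (e + p) * s ≤ g / 2 * s ^ 2 + (e ^ 2 + p ^ 2) / g := by
    rw [← sub_le_iff_le_add', le_div_iff₀ hg]
    nlinarith [sq_nonneg (g * s - (e + p)), sq_nonneg (e - p)]
  nlinarith [mul_le_mul_of_nonneg_right h1 hs, mul_le_mul_of_nonneg_right hl (sq_nonneg s)]

theorem sum_upper {K : Finset ℤ} {n s e : ℤ → ℝ} {L p Ss Se P : ℝ}
    (h : ∀ k ∈ K, n k ^ 2 ≤ (2 + 4 * L ^ 2) * s k ^ 2 + 2 * p + 4 * e k ^ 2)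
    (hs : ∑ k ∈ K, s k ^ 2 ≤ Ss) (he : ∑ k ∈ K, e k ^ 2 ≤ Se) (hp : (K.card : ℝ) * p ≤ P) :
    ∑ k ∈ K, n k ^ 2 ≤ (2 + 4 * L ^ 2) * Ss + 2 * P + 4 * Se := by
  refine (Finset.sum_le_sum h).trans ?_
  rw [Finset.sum_add_distrib, Finset.sum_add_distrib, ← Finset.mul_sum, ← Finset.mul_sum,
    Finset.sum_const, nsmul_eq_mul]
  have h4 : ∑ k ∈ K, 4 * e k ^ 2 = 4 * ∑ k ∈ K, e k ^ 2 := (Finset.mul_sum _ _ _).symm
  linarith [mul_le_mul_of_nonneg_left hs (show 0 ≤ 2 + 4 * L ^ 2 by positivity)]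

theorem sum_lower {K : Finset ℤ} {s e r : ℤ → ℝ} {g p Se P : ℝ} (hg : 0 < g)
    (h : ∀ k ∈ K, g / 2 * s k ^ 2 - (e k ^ 2 + p) / g ≤ r k)
    (he : ∑ k ∈ K, e k ^ 2 ≤ Se) (hp : (K.card : ℝ) * p ≤ P) :
    g / 2 * ∑ k ∈ K, s k ^ 2 - (Se + P) / g ≤ ∑ k ∈ K, r k := by
  refine le_trans ?_ (Finset.sum_le_sum h)
  rw [Finset.sum_sub_distrib, ← Finset.mul_sum, ← Finset.sum_div, Finset.sum_add_distrib,
    Finset.sum_const, nsmul_eq_mul]
  gcongr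

/-- The walk at one time: the conjugated family of the tests. -/
theorem walk_at (hm : Modular M ξ R J U) {u : H} {ε c C : ℝ} {K : Finset ℤ} {h : ℝ} (hh : 0 < h)
    (htest : ∀ (ι : Type) [Fintype ι] (K : ι → H →L[ℂ] H) (y : ι → H),
      (∀ i, K i ∈ M) → (∀ i, IsSelfAdjoint (K i)) →
      ∑ i, ‖dop J (K i) ξ‖ ^ 2 ≤ c → ∑ i, ‖y i‖ ^ 2 ≤ C →
      ‖⟪∑ i, dop J (K i) (y i), u⟫_ℂ‖ ≤ ε * (1 + ‖∑ i, dop J (K i) (y i)‖))
    {A : ℤ → H →L[ℂ] H} {y : ℤ → H} (hA : ∀ k ∈ K, A k ∈ M) (hAs : ∀ k ∈ K, IsSelfAdjoint (A k))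
    (hd : h⁻¹ * ∑ k ∈ K, ‖dop J (A k) ξ‖ ^ 2 ≤ c) (hy : h * ∑ k ∈ K, ‖y k‖ ^ 2 ≤ C) (t : ℝ) :
    ‖∑ k ∈ K, conj (phase h k t) * ⟪dop J (A k) (y k), U t u⟫_ℂ‖
      ≤ ε * (1 + ‖∑ k ∈ K, phase h k t • dop J (A k) (y k)‖) := by
  set r := (Real.sqrt h)⁻¹ with hr
  have hr2 : r ^ 2 = h⁻¹ := by rw [hr, inv_pow, Real.sq_sqrt hh.le]
  let K' : ↥K → H →L[ℂ] H := fun k => (r : ℂ) • (U (-t) * A k * U t)
  let y' : ↥K → H := fun k => ((Real.sqrt h : ℝ) : ℂ) • phase h k t • U (-t) (y k)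
  have hdop : ∀ (k : ↥K) (w : H), dop J (K' k) (U (-t) w) = (r : ℂ) • U (-t) (dop J (A k) w) := by
    intro k w
    simp only [K', dop, conjBy_real_smul hm, Row.conjBy_mul J hm.J_J, conjBy_U hm, sub_apply,
      smul_apply, mul_apply_eq_comp, U_cancel hm, ← smul_sub, map_sub]
  have hK1 : ∀ k : ↥K, K' k ∈ M := fun k => by
    refine M.toStarSubalgebra.smul_mem ?_ _
    simpa using hm.U_mem (-t) (A k) (hA k k.2)
  have hK2 : ∀ k : ↥K, IsSelfAdjoint (K' k) := fun k => by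
    rw [IsSelfAdjoint, star_smul, star_mul, star_mul, (hAs k k.2).star_eq, hm.U_star, hm.U_star,
      neg_neg, Complex.star_def, Complex.conj_ofReal, ← mul_assoc]
  have hK3 : ∑ k : ↥K, ‖dop J (K' k) ξ‖ ^ 2 ≤ c := by
    refine le_of_eq_of_le ?_ hd
    rw [Finset.mul_sum, ← Finset.sum_coe_sort K]
    refine Finset.sum_congr rfl fun k _ => ?_
    conv_lhs => rw [← hm.U_xi (-t), hdop, norm_smul, norm_U_apply hm, mul_pow, Complex.norm_real,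
      Real.norm_eq_abs, sq_abs, hr2]
  have hK4 : ∑ k : ↥K, ‖y' k‖ ^ 2 ≤ C := by
    refine le_of_eq_of_le ?_ hy
    rw [Finset.mul_sum, ← Finset.sum_coe_sort K]
    refine Finset.sum_congr rfl fun k _ => ?_
    simp only [y', norm_smul, norm_phase, one_mul, norm_U_apply hm, mul_pow, Complex.norm_real,
      Real.norm_eq_abs, sq_abs, Real.sq_sqrt hh.le]
  have hw : ∑ k : ↥K, dop J (K' k) (y' k)
      = U (-t) (∑ k ∈ K, phase h k t • dop J (A k) (y k)) := by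
    rw [map_sum, ← Finset.sum_coe_sort K]
    refine Finset.sum_congr rfl fun k _ => ?_
    simp only [y', map_smul, hdop, smul_smul]
    congr 1
    rw [hr, mul_right_comm, ← Complex.ofReal_mul, mul_inv_cancel₀ (Real.sqrt_pos.2 hh).ne']
    simp
  have h2 := htest ↥K K' y' hK1 hK2 hK3 hK4
  rw [hw, norm_U_apply hm, inner_U hm, sum_inner] at h2
  simpa only [inner_smul_left] using h2

/-- The average over time of the walk. -/
theorem average_le (hm : Modular M ξ R J U) {u : H} {ε Z : ℝ} (hε : 0 ≤ ε) {h : ℝ} (hh : 0 < h)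
    (K : Finset ℤ) (z : ℤ → H) (hz : ∑ k ∈ K, ‖z k‖ ^ 2 ≤ Z)
    (hw : ∀ t : ℝ, ‖∑ k ∈ K, conj (phase h k t) * ⟪z k, U t u⟫_ℂ‖
      ≤ ε * (1 + ‖∑ k ∈ K, phase h k t • z k‖)) :
    ‖∑ k ∈ K, ⟪z k, band R (k * h) h u⟫_ℂ‖ ≤ ε * (3 / 2 + Bands.gaussTot * Z / 2) := by
  have hint : ∀ k : ℤ, Integrable fun t => bandKernel (k * h) h t * ⟪z k, U t u⟫_ℂ := fun k => by
    refine ((integrable_norm_bandKernel hh (k * h)).mul_const (‖z k‖ * ‖u‖)).mono'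
      ((continuous_bandKernel _ _).mul (continuous_const.inner (hm.U_cont u))).aestronglyMeasurable
      (Filter.Eventually.of_forall fun t => ?_)
    rw [norm_mul]
    refine mul_le_mul_of_nonneg_left ((norm_inner_le_norm _ _).trans ?_) (norm_nonneg _)
    rw [norm_U_apply hm]
  have hid : ∑ k ∈ K, ⟪z k, band R (k * h) h u⟫_ℂ
      = ∫ t, (‖bandKernel 0 h t‖ : ℂ) * ∑ k ∈ K, conj (phase h k t) * ⟪z k, U t u⟫_ℂ := by
    simp only [Finset.mul_sum, ← mul_assoc, norm_kernel_mul_conj_phase hh]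
    rw [integral_finsetSum _ fun k _ => hint k]
    refine Finset.sum_congr rfl fun k _ => ?_
    rw [← integralSpec hm _ _ hh, ← integral_inner (integrable_kernel_smul hm hh _ _)]
    simp [inner_smul_right]
  rw [hid]
  set F : ℝ → ℝ := fun t => ‖bandKernel 0 h t‖ * ‖∑ k ∈ K, phase h k t • z k‖ ^ 2 with hF
  have hFi : Integrable F := by
    refine ((integrable_norm_bandKernel hh 0).mul_const ((∑ k ∈ K, ‖z k‖) ^ 2)).mono'
      ((continuous_bandKernel 0 h).norm.mul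
        ((continuous_finsetSum _ fun k _ => (continuous_phase h k).smul continuous_const).norm.pow
          2)).aestronglyMeasurable (Filter.Eventually.of_forall fun t => ?_)
    rw [norm_mul, norm_norm, norm_pow, norm_norm]
    gcongr
    refine (norm_sum_le _ _).trans (le_of_eq (Finset.sum_congr rfl fun k _ => ?_))
    rw [norm_smul, norm_phase, one_mul]
  refine (norm_integral_le_of_norm_le
    (((integrable_norm_bandKernel hh 0).const_mul (ε * (3 / 2))).add (hFi.const_mul (ε / 2)))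
    (Filter.Eventually.of_forall fun t => ?_)).trans ?_
  · rw [norm_mul, Complex.norm_real, norm_norm, Pi.add_apply, hF]
    refine (mul_le_mul_of_nonneg_left (hw t) (norm_nonneg _)).trans ?_
    have hε0 : 0 ≤ ε := hε
    set n := ‖∑ k ∈ K, phase h k t • z k‖
    have : ε * (1 + n) ≤ ε * (3 / 2) + ε / 2 * n ^ 2 := by nlinarith [sq_nonneg (n - 1)]
    nlinarith [mul_le_mul_of_nonneg_left this (norm_nonneg (bandKernel 0 h t))]
  · simp only [Pi.add_apply]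
    rw [integral_add ((integrable_norm_bandKernel hh 0).const_mul _) (hFi.const_mul _),
      integral_const_mul, integral_const_mul, integral_norm_bandKernel hh]
    have hG : 0 ≤ Bands.gaussTot := tsum_nonneg fun j => (Real.exp_pos _).le
    have h1 : ∫ t, F t ≤ Bands.gaussTot * Z :=
      (schur hh K z).trans (mul_le_mul_of_nonneg_left hz hG)
    have h2 : ε / 2 * ∫ t, F t ≤ ε / 2 * (Bands.gaussTot * Z) :=
      mul_le_mul_of_nonneg_left h1 (by positivity)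
    nlinarith

/-- The estimate at one width. -/
theorem core (hm : Modular M ξ R J U) {u : H} {ε c C g L h Se Ss P : ℝ} (hε : 0 ≤ ε) (hh : 0 < h)
    (hg : 0 < g)
    (htest : ∀ (ι : Type) [Fintype ι] (K : ι → H →L[ℂ] H) (y : ι → H),
      (∀ i, K i ∈ M) → (∀ i, IsSelfAdjoint (K i)) →
      ∑ i, ‖dop J (K i) ξ‖ ^ 2 ≤ c → ∑ i, ‖y i‖ ^ 2 ≤ C →
      ‖⟪∑ i, dop J (K i) (y i), u⟫_ℂ‖ ≤ ε * (1 + ‖∑ i, dop J (K i) (y i)‖))
    (K : Finset ℤ) (x : ℤ → H →L[ℂ] H) (lm : ℤ → ℝ) (hxM : ∀ k, x k ∈ M)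
    (hx : ∀ k, x k ξ = band R (k * h) h u) (hlam : ∀ k ∈ K, 1 + g ≤ lm k ∧ lm k ≤ L)
    (hse : ∑ k ∈ K, ‖J (star (x k) ξ) - (lm k : ℂ) • x k ξ‖ ^ 2 ≤ Se)
    (hss : ∑ k ∈ K, ‖x k ξ‖ ^ 2 ≤ Ss) (hP : (K.card : ℝ) * (h ^ 4 * ‖ξ‖ ^ 2) ≤ P)
    (hc : h⁻¹ * (2 * Se + 2 * P) ≤ c) (hC : (K.card : ℝ) * h * ‖ξ‖ ^ 2 ≤ C) :
    g / 2 * ∑ k ∈ K, ‖x k ξ‖ ^ 2
      ≤ ε * (3 / 2 + Bands.gaussTot * ((2 + 4 * L ^ 2) * Ss + 2 * P + 4 * Se) / 2)
        + (Se + P) / g := by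
  choose! A hA y hAs hy hAd hAy hAp using fun k (hk : k ∈ K) =>
    exists_test hm (hxM k) (show 0 < h ^ 4 by positivity)
      (show 1 ≤ lm k by linarith [(hlam k hk).1])
  set e : ℤ → ℝ := fun k => ‖J (star (x k) ξ) - (lm k : ℂ) • x k ξ‖ with he
  have hz : ∀ k ∈ K, ‖dop J (A k) (y k)‖ ^ 2
      ≤ (2 + 4 * L ^ 2) * ‖x k ξ‖ ^ 2 + 2 * (h ^ 4 * ‖ξ‖ ^ 2) + 4 * e k ^ 2 := by
    intro k hk
    refine sq_bound (by positivity) (norm_nonneg _) ((hAy k hk).trans (add_le_add le_rfl ?_))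
    rw [← J.norm_map]
    have h3 := norm_add_le (J (star (x k) ξ) - (lm k : ℂ) • x k ξ) ((lm k : ℂ) • x k ξ)
    rw [sub_add_cancel, norm_smul, Complex.norm_real,
      Real.norm_of_nonneg (by linarith [(hlam k hk).1])] at h3
    refine h3.trans ?_
    rw [add_comm]
    exact add_le_add (mul_le_mul_of_nonneg_right (hlam k hk).2 (norm_nonneg _)) le_rfl
  have hlow : ∀ k ∈ K, g / 2 * ‖x k ξ‖ ^ 2 - (e k ^ 2 + h ^ 4 * ‖ξ‖ ^ 2) / g
      ≤ -(⟪dop J (A k) (y k), x k ξ⟫_ℂ).re := by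
    intro k hk
    have h1 := low_bound (norm_nonneg (x k ξ)) (show 0 ≤ h ^ 2 * ‖ξ‖ by positivity) hg
      (hlam k hk).1 (e := e k)
    rw [show (h ^ 2 * ‖ξ‖) ^ 2 = h ^ 4 * ‖ξ‖ ^ 2 by ring] at h1
    exact h1.trans (hAp k hk)
  have hwalk := walk_at hm hh htest (y := y) hA hAs (u := u) ?_ ?_
  · have h1 := sum_lower hg hlow hse hP
    have h2 := average_le hm hε hh K _ (sum_upper hz hss hse hP) hwalk
    have e1 : ∑ k ∈ K, ⟪dop J (A k) (y k), x k ξ⟫_ℂ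
        = ∑ k ∈ K, ⟪dop J (A k) (y k), band R (k * h) h u⟫_ℂ := by simp only [hx]
    rw [← e1] at h2
    rw [Finset.sum_neg_distrib, ← Complex.re_sum] at h1
    have h3 := (neg_le_abs _).trans ((Complex.abs_re_le_norm _).trans h2)
    linarith
  · refine le_trans ?_ hc
    gcongr
    refine (Finset.sum_le_sum hAd).trans ?_
    rw [Finset.sum_add_distrib, ← Finset.mul_sum, Finset.sum_const, nsmul_eq_mul, mul_left_comm]
    gcongr
  · calc h * ∑ k ∈ K, ‖y k‖ ^ 2 ≤ h * ∑ k ∈ K, ‖ξ‖ ^ 2 := by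
          gcongr with k hk; exact hy k hk
      _ = (K.card : ℝ) * h * ‖ξ‖ ^ 2 := by rw [Finset.sum_const, nsmul_eq_mul]; ring
      _ ≤ C := hC

/-- The bands on the positive side are small. -/
theorem band_small (hm : Modular M ξ R J U) {a : H →L[ℂ] H} (ha : HasMod M ξ J a) (δ W : ℝ)
    (hδ : 0 < δ) (hδW : δ < W) (ε : ℝ) (hε : 0 < ε) :
    ∃ h ∈ Set.Ioo (0 : ℝ) 1, ∃ K : Finset ℤ,
      (∀ k : ℤ, δ ≤ k * h ∧ k * h ≤ W → k ∈ K) ∧
        ∑ k ∈ K, ‖band R (k * h) h (a ξ)‖ ^ 2 ≤ ε := by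
  classical
  have hi : IntegralSpec R U := integralSpec hm
  have hb := bandSpec hm hi
  have haM : a ∈ M := ha.1
  obtain ⟨Cd, hCd⟩ := hb.defect W
  obtain ⟨Cb, hCb⟩ := hb.bessel
  set u := a ξ with hu
  set q := ‖ξ‖ ^ 2 with hq
  set g := δ / 2 with hg
  have hg0 : 0 < g := by linarith
  set C := (W + 1) * (q + 1) with hC
  have hW0 : 0 < W := hδ.trans hδW
  have hC0 : 0 < C := by positivity
  set L := Real.exp (W / 2) with hL
  set Z := (2 + 4 * L ^ 2) * |Cb| * ‖u‖ ^ 2 + 4 * |Cd| * ‖u‖ ^ 2 + 2 * C with hZ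
  have hG : 0 ≤ Bands.gaussTot := tsum_nonneg fun j => (Real.exp_pos _).le
  set B := 3 / 2 + Bands.gaussTot * Z / 2 with hB
  have hB0 : 0 < B := by positivity
  obtain ⟨c, hc, htest⟩ := test_small hm ha (ε := g * ε / (4 * B)) (by positivity) C
  set E := |Cd| * ‖u‖ ^ 2 + C with hE
  obtain ⟨h, hh, hh1, hhc, hhe⟩ : ∃ h : ℝ, 0 < h ∧ h < 1 ∧ 2 * E * h ≤ c ∧ E * h ≤ g ^ 2 * ε / 4 := by
    have hE0 : 0 < E := by positivity
    refine ⟨min (1 / 2) (min (c / (2 * E)) (g ^ 2 * ε / 4 / E)), by positivity,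
      (min_le_left _ _).trans_lt (by norm_num), ?_, ?_⟩
    · rw [mul_comm, ← le_div_iff₀ (by positivity)]
      exact (min_le_right _ _).trans (min_le_left _ _)
    · rw [mul_comm, ← le_div_iff₀ (by positivity)]
      exact (min_le_right _ _).trans (min_le_right _ _)
  set K := (Finset.Icc ⌈δ / h⌉ ⌊W / h⌋) with hK
  have hKmem : ∀ k ∈ K, δ ≤ (k : ℝ) * h ∧ (k : ℝ) * h ≤ W := fun k hk => by
    rw [hK, Finset.mem_Icc, Int.ceil_le, Int.le_floor, div_le_iff₀ hh, le_div_iff₀ hh] at hk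
    exact hk
  refine ⟨h, ⟨hh, hh1⟩, K, fun k hk => by
    rw [hK, Finset.mem_Icc, Int.ceil_le, Int.le_floor, div_le_iff₀ hh, le_div_iff₀ hh]
    exact hk, ?_⟩
  have hcard : (K.card : ℝ) * h ≤ W + 1 := by
    have h1 : (K.card : ℝ) ≤ W / h + 1 := by
      have h2 : (K.card : ℤ) ≤ max (⌊W / h⌋ + 1) 0 := by
        rw [hK, Int.card_Icc, Int.toNat_eq_max]
        have : (0 : ℤ) ≤ ⌈δ / h⌉ := Int.ceil_nonneg (by positivity)
        omega
      rw [max_eq_left (by have := Int.floor_nonneg.2 (show (0 : ℝ) ≤ W / h by positivity); omega)] at h2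
      have h3 : ((K.card : ℤ) : ℝ) ≤ ((⌊W / h⌋ + 1 : ℤ) : ℝ) := by exact_mod_cast h2
      push_cast at h3
      linarith [Int.floor_le (W / h)]
    calc (K.card : ℝ) * h ≤ (W / h + 1) * h := by gcongr
      _ = W + h := by field_simp
      _ ≤ _ := by linarith
  have hlam : ∀ k ∈ K, 1 + g ≤ Real.exp ((k : ℝ) * h / 2) ∧ Real.exp ((k : ℝ) * h / 2) ≤ L := by
    intro k hk
    refine ⟨?_, Real.exp_le_exp.2 (by linarith [(hKmem k hk).2])⟩
    linarith [Real.add_one_le_exp ((k : ℝ) * h / 2), (hKmem k hk).1]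
  choose x hxM hxξ hxJ using fun k : ℤ => hb.exists_band a haM (k * h) h hh
  have hxJ' : ∀ k, J (star (x k) ξ) = band R (k * h) h (J (star a ξ)) := fun k => by
    rw [← hxJ k, rho, Row.conjBy_apply, hm.J_xi]
  set lm : ℤ → ℝ := fun k => Real.exp ((k : ℝ) * h / 2) with hlm
  set e : ℤ → ℝ := fun k => ‖J (star (x k) ξ) - (lm k : ℂ) • x k ξ‖ with he
  have hsum_e : ∑ k ∈ K, e k ^ 2 ≤ |Cd| * h ^ 2 * ‖u‖ ^ 2 := by
    simp only [he, hxJ', hxξ]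
    refine (hCd a haM h hh hh1.le K fun k hk => ?_).trans ?_
    · rw [abs_of_nonneg (hδ.le.trans (hKmem k hk).1)]; exact (hKmem k hk).2
    · gcongr
      exact le_abs_self _
  have hsum_s : ∑ k ∈ K, ‖x k ξ‖ ^ 2 ≤ |Cb| * ‖u‖ ^ 2 := by
    refine le_trans (Finset.sum_le_sum fun k _ => ?_)
      ((hCb u h hh K).trans (mul_le_mul_of_nonneg_right (le_abs_self _) (sq_nonneg _)))
    rw [hxξ, band_eq_sq hh, mul_apply_eq_comp]
    exact pow_le_pow_left₀ (norm_nonneg _)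
      (((band R (k * h) (Real.sqrt 2 * h)).le_opNorm _).trans
        (mul_le_of_le_one_left (norm_nonneg _) (norm_band_le R _ _))) 2
  have hq0 : 0 ≤ q := sq_nonneg _
  have hKq : (K.card : ℝ) * (h ^ 4 * q) ≤ h ^ 3 * C := by
    calc (K.card : ℝ) * (h ^ 4 * q) = h ^ 3 * ((K.card : ℝ) * h * q) := by ring
      _ ≤ h ^ 3 * ((W + 1) * (q + 1)) := by gcongr; linarith
  have hE2 : |Cd| * h ^ 2 * ‖u‖ ^ 2 + h ^ 3 * C ≤ h ^ 2 * E := by
    have : h ^ 3 * C ≤ h ^ 2 * C :=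
      mul_le_mul_of_nonneg_right (pow_le_pow_of_le_one hh.le hh1.le (by norm_num)) hC0.le
    rw [hE]; linarith
  have key := core hm (u := u) (show (0 : ℝ) ≤ g * ε / (4 * B) by positivity) hh hg0 htest K x lm
    hxM hxξ hlam hsum_e hsum_s hKq
    (by calc h⁻¹ * (2 * (|Cd| * h ^ 2 * ‖u‖ ^ 2) + 2 * (h ^ 3 * C))
          ≤ h⁻¹ * (2 * (h ^ 2 * E)) := by gcongr; linarith
        _ = 2 * E * h := by field_simp
        _ ≤ c := hhc)
    (by rw [hC]; gcongr; linarith)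
  have hZ2 : (2 + 4 * L ^ 2) * (|Cb| * ‖u‖ ^ 2) + 2 * (h ^ 3 * C) + 4 * (|Cd| * h ^ 2 * ‖u‖ ^ 2)
      ≤ Z := by
    have h3 : h ^ 3 * C ≤ C := mul_le_of_le_one_left hC0.le (pow_le_one₀ hh.le hh1.le)
    have h4 : |Cd| * h ^ 2 * ‖u‖ ^ 2 ≤ |Cd| * ‖u‖ ^ 2 := by
      rw [mul_right_comm]
      exact mul_le_of_le_one_right (by positivity) (pow_le_one₀ hh.le hh1.le)
    rw [hZ]
    linarith
  have h1 : g * ε / (4 * B) * (3 / 2 + Bands.gaussTot *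
      ((2 + 4 * L ^ 2) * (|Cb| * ‖u‖ ^ 2) + 2 * (h ^ 3 * C) + 4 * (|Cd| * h ^ 2 * ‖u‖ ^ 2)) / 2)
      ≤ g * ε / 4 := by
    calc _ ≤ g * ε / (4 * B) * B := by rw [hB]; gcongr
      _ = _ := by field_simp
  have h2 : (|Cd| * h ^ 2 * ‖u‖ ^ 2 + h ^ 3 * C) / g ≤ g * ε / 4 := by
    have h5 : h ^ 2 * E ≤ E * h := by
      rw [mul_comm E, sq, mul_assoc]
      exact mul_le_of_le_one_left (by positivity) hh1.le
    rw [div_le_iff₀ hg0]; linarith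
  refine le_of_mul_le_mul_left ?_ (half_pos hg0)
  calc g / 2 * ∑ k ∈ K, ‖band R (k * h) h (a ξ)‖ ^ 2 = g / 2 * ∑ k ∈ K, ‖x k ξ‖ ^ 2 := by
        simp only [hxξ, hu]
    _ ≤ _ := key.trans (by linarith)

end VP132.Short

namespace VP132

variable {H : Type} [NormedAddCommGroup H] [InnerProductSpace ℂ H] [CompleteSpace H]

/-- Elements with moduli are fixed by the modular group. -/
theorem sigmaSpec {M : VonNeumannAlgebra H} {ξ : H} {R : H →L[ℂ] H} {J : H ≃ₗᵢ⋆[ℂ] H}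
    {U : ℝ → H →L[ℂ] H} (hm : Modular M ξ R J U) : SigmaSpec M ξ R J := fun _ ha ha' =>
  fixed_of_band_small hm ha.1 (Short.band_small hm ha) (Short.band_small hm ha')

end VP132
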