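import Vale.Agent.P132.Interface

/-!
P132: the bicentralizer is trivial once the modules of the proof are supplied.
-/

open Vale.Agent.P132.Tomita (Modular)

namespace VP132

variable {H : Type} [NormedAddCommGroup H] [InnerProductSpace ℂ H] [CompleteSpace H]

/-- The last step of the proof. -/
theorem scalar_of_specs {M : VonNeumannAlgebra H} {ξ : H} {R : H →L[ℂ] H} {J : H ≃ₗᵢ⋆[ℂ] H}
    (hmod : ModSpec M ξ J) (hsig : SigmaSpec M ξ R J) (hfix : FixedSpec M ξ R J) {a : H →L[ℂ] H}
    (ha : InBicentralizer H M ξ a) : ∃ c : ℂ, a = c • 1 := by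
  obtain ⟨h1, h2⟩ := hmod a ha
  exact hfix a h1 h2 (hsig a h1 h2) (hsig (star a) h2 (by rwa [star_star]))

end VP132
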