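import Vale.Agent.P132.Interface

/-!
P132: the facts about band operators used by the main estimate.
-/

open scoped InnerProductSpace ComplexConjugate
open Filter Topology MeasureTheory
open Vale.Agent.P132.Tomita (conjBy Modular fT opT)

namespace VP132

variable {H : Type} [NormedAddCommGroup H] [InnerProductSpace ℂ H] [CompleteSpace H]

namespace Bands

/-- A function of `lam` on the open interval, zero elsewhere. -/
noncomputable def wrapLam (φ : ℝ → ℝ) (r : ℝ) : ℝ := if 0 < r ∧ r < 2 then φ (lam r) else 0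

lemma continuousWithinAt_wrap_zero {φ : ℝ → ℝ} (hφ : Tendsto φ atTop (𝓝 0)) :
    ContinuousWithinAt (wrapLam φ) (Set.Icc 0 2) 0 := by
  refine ContinuousWithinAt.mono ?_ (Set.Icc_subset_Ici_self)
  rw [← continuousWithinAt_Ioi_iff_Ici, ContinuousWithinAt, show wrapLam φ 0 = 0 by simp [wrapLam]]
  have h1 : Tendsto (fun r : ℝ => Real.log (2 - r)) (𝓝[>] 0) (𝓝 (Real.log (2 - 0))) :=
    (((continuous_const.sub continuous_id).tendsto 0).log (by norm_num)).mono_left
      nhdsWithin_le_nhds
  have h2 : Tendsto lam (𝓝[>] 0) atTop :=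
    h1.add_atTop (tendsto_neg_atTop_iff.2 Real.tendsto_log_nhdsGT_zero)
  refine (hφ.comp h2).congr' ?_
  filter_upwards [self_mem_nhdsWithin, nhdsWithin_le_nhds (Iio_mem_nhds (show (0 : ℝ) < 2 by
    norm_num))] with r h0 h2
  simp [wrapLam, Set.mem_Ioi.1 h0, Set.mem_Iio.1 h2]

lemma continuousOn_wrap {φ : ℝ → ℝ} (hc : Continuous φ) (htop : Tendsto φ atTop (𝓝 0))
    (hbot : Tendsto φ atBot (𝓝 0)) : ContinuousOn (wrapLam φ) (Set.Icc 0 2) := by
  intro r hr
  rcases hr.1.eq_or_lt with h | h0
  · exact h ▸ continuousWithinAt_wrap_zero htop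
  rcases hr.2.eq_or_lt with h | h2
  · subst h
    have e : wrapLam φ = (wrapLam fun x => φ (-x)) ∘ fun r => 2 - r := by
      funext r
      simp only [wrapLam, Function.comp_apply, lam, sub_sub_cancel, neg_sub, sub_pos,
        sub_lt_self_iff]
      simp only [and_comm]
    rw [e]
    refine ContinuousWithinAt.comp (t := Set.Icc 0 2) ?_
      (continuous_const.sub continuous_id).continuousWithinAt ?_
    · simpa [Function.comp_def] using continuousWithinAt_wrap_zero (hbot.comp tendsto_neg_atTop_atBot)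
    · exact fun x hx => ⟨by linarith [hx.2], by linarith [hx.1]⟩
  refine ContinuousAt.continuousWithinAt ?_
  refine (ContinuousAt.congr (f := φ ∘ lam) ?_ ?_)
  · exact hc.continuousAt.comp (((continuousAt_const.sub continuousAt_id).log
      (sub_ne_zero.2 h2.ne')).sub (Real.continuousAt_log h0.ne'))
  · filter_upwards [Ioo_mem_nhds h0 h2] with x hx
    simp [wrapLam, hx.1, hx.2]

/-- A Gaussian times an exponential. -/
noncomputable def gauss (a l h x : ℝ) : ℝ := Real.exp (a * x - ((x - l) / h) ^ 2)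

lemma continuous_gauss (a l h : ℝ) : Continuous (gauss a l h) := by
  unfold gauss
  fun_prop

lemma gauss_le {h : ℝ} (hh : h ≠ 0) (a l x : ℝ) :
    gauss a l h x ≤ Real.exp ((|a| + 1) * |l| + ((|a| + 1) * h) ^ 2 / 4 - |x|) := by
  refine Real.exp_le_exp.2 ?_
  set z := (x - l) / h with hz
  have hx : x = l + h * z := by rw [hz]; field_simp; ring
  have h1 : |x| ≤ |l| + |h| * |z| := by
    rw [hx, ← abs_mul]; exact abs_add_le _ _
  have h2 : a * x ≤ |a| * |x| := by rw [← abs_mul]; exact le_abs_self _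
  have h3 : 0 ≤ |a| + 1 := by positivity
  have h4 : ((|a| + 1) * |h|) ^ 2 = ((|a| + 1) * h) ^ 2 := by rw [mul_pow, mul_pow, sq_abs]
  nlinarith [mul_le_mul_of_nonneg_left h1 h3, sq_nonneg ((|a| + 1) * |h| / 2 - |z|), sq_abs z]

lemma tendsto_gauss {h : ℝ} (hh : h ≠ 0) (a l : ℝ) {F : Filter ℝ}
    (hF : Tendsto (fun x => |x|) F atTop) : Tendsto (gauss a l h) F (𝓝 0) := by
  refine squeeze_zero (fun x => (Real.exp_pos _).le) (gauss_le hh a l) ?_
  exact Real.tendsto_exp_atBot.comp
    (tendsto_atBot_add_const_left _ _ (tendsto_neg_atTop_atBot.comp hF))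

lemma continuousOn_wrap_gauss {h : ℝ} (hh : h ≠ 0) (a l : ℝ) :
    ContinuousOn (wrapLam (gauss a l h)) (Set.Icc 0 2) :=
  continuousOn_wrap (continuous_gauss a l h) (tendsto_gauss hh a l tendsto_abs_atTop_atTop)
    (tendsto_gauss hh a l tendsto_abs_atBot_atTop)

lemma gp_eq (l h : ℝ) : gp l h = wrapLam (gauss 0 l h) := by
  funext r
  simp [gp, wrapLam, gauss]

/-- The sum over the integers that bounds all the sums of squares of bands. -/
noncomputable def gaussTot : ℝ := ∑' j : ℤ, Real.exp (3 - 2 * |(j : ℝ)|)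

lemma summable_gaussTot : Summable fun j : ℤ => Real.exp (3 - 2 * |(j : ℝ)|) := by
  have h : Summable fun n : ℕ => Real.exp (3 - 2 * (n : ℝ)) := by
    have := (Real.summable_exp_nat_mul_iff.2 (show (-2 : ℝ) < 0 by norm_num)).mul_left
      (Real.exp 3)
    refine this.congr fun n => ?_
    rw [← Real.exp_add]
    ring_nf
  refine Summable.of_nat_of_neg ?_ ?_ <;> simpa using h

lemma sum_exp_sq_le (y : ℝ) (K : Finset ℤ) :
    ∑ k ∈ K, Real.exp (-(y - k) ^ 2) ≤ gaussTot := by
  calc ∑ k ∈ K, Real.exp (-(y - k) ^ 2)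
      ≤ ∑ k ∈ K, Real.exp (3 - 2 * |((k - ⌊y⌋ : ℤ) : ℝ)|) := by
        refine Finset.sum_le_sum fun k _ => Real.exp_le_exp.2 ?_
        push_cast
        have h1 := Int.floor_le y
        have h2 := Int.lt_floor_add_one y
        have h3 : |(k : ℝ) - ⌊y⌋| ≤ |y - k| + 1 := by
          rw [abs_le]
          constructor <;> linarith [abs_le.1 (le_refl |y - (k : ℝ)|)]
        nlinarith [sq_nonneg (|y - (k : ℝ)| - 1), sq_abs (y - (k : ℝ))]
    _ = ∑ j ∈ K.map (addRightEmbedding (-⌊y⌋)), Real.exp (3 - 2 * |(j : ℝ)|) := by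
        rw [Finset.sum_map]; rfl
    _ ≤ gaussTot := summable_gaussTot.sum_le_tsum _ fun j _ => (Real.exp_pos _).le

variable {M : VonNeumannAlgebra H} {ξ : H} {R : H →L[ℂ] H} {J : H ≃ₗᵢ⋆[ℂ] H}
  {U : ℝ → H →L[ℂ] H}

lemma sum_norm_sq_cfc_le (hR : IsSelfAdjoint R) (hs : spectrum ℝ R ⊆ Set.Icc 0 2) {κ : Type*}
    (K : Finset κ) (f : κ → ℝ → ℝ) (hf : ∀ k ∈ K, ContinuousOn (f k) (Set.Icc 0 2)) {C : ℝ}
    (hC : ∀ r ∈ Set.Icc (0 : ℝ) 2, ∑ k ∈ K, f k r ^ 2 ≤ C) (v : H) :
    ∑ k ∈ K, ‖cfc (f k) R v‖ ^ 2 ≤ C * ‖v‖ ^ 2 := by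
  have hf' : ∀ k ∈ K, ContinuousOn (fun r => f k r ^ 2) (spectrum ℝ R) :=
    fun k hk => ((hf k hk).mono hs).pow 2
  have hle : ∑ k ∈ K, cfc (fun r => f k r ^ 2) R ≤ algebraMap ℝ (H →L[ℂ] H) C := by
    rw [← cfc_sum _ R K hf']
    refine cfc_le_algebraMap _ C R (fun r hr => ?_) ?_
    · simpa using hC r (hs hr)
    · simpa [Finset.sum_fn] using continuousOn_finsetSum K hf'
  have hpos := ((ContinuousLinearMap.nonneg_iff_isPositive _).1 (sub_nonneg.2 hle)).inner_nonneg_right v
  have e : ∀ k ∈ K, RCLike.re ⟪v, cfc (fun r => f k r ^ 2) R v⟫_ℂ = ‖cfc (f k) R v‖ ^ 2 := by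
    intro k hk
    have hsa : star (cfc (f k) R) = cfc (f k) R := (cfc_predicate (f k) R).star_eq
    rw [show (fun r => f k r ^ 2) = fun r => f k r * f k r from funext fun r => sq _,
      cfc_mul _ _ R ((hf k hk).mono hs) ((hf k hk).mono hs)]
    nth_rw 1 [← hsa]
    rw [ContinuousLinearMap.mul_apply, ContinuousLinearMap.star_eq_adjoint,
      ContinuousLinearMap.adjoint_inner_right]
    exact inner_self_eq_norm_sq _
  have h2 := (RCLike.le_iff_re_im.1 hpos).1
  rw [map_zero, sub_apply, inner_sub_right, map_sub, ContinuousLinearMap.sum_apply, inner_sum,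
    map_sum, Finset.sum_congr rfl e, sub_nonneg, Algebra.algebraMap_eq_smul_one] at h2
  refine h2.trans_eq ?_
  simp [← Complex.coe_smul, inner_smul_right, ← Complex.ofReal_pow]

lemma band_J_star (hm : Modular M ξ R J U) {u : H →L[ℂ] H} (hu : u ∈ M) {l h : ℝ} (hh : h ≠ 0) :
    band R l h (J (star u ξ)) = cfc (wrapLam (gauss (1 / 2) l h)) R (u ξ) := by
  have hR := hm.R_sa
  have hTc : ContinuousOn fT (spectrum ℝ R) :=
    (Real.continuous_sqrt.comp (continuous_id.mul (continuous_const.sub continuous_id))).continuousOn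
  have hg : ContinuousOn (gp l h) (spectrum ℝ R) := by
    rw [gp_eq]; exact (continuousOn_wrap_gauss hh 0 l).mono hm.R_spec
  have hm' : ContinuousOn (wrapLam (gauss (1 / 2) l h)) (spectrum ℝ R) :=
    (continuousOn_wrap_gauss hh _ l).mono hm.R_spec
  have h1 : opT R (J (star u ξ)) = cfc (fun r : ℝ => 2 - r) R (u ξ) := by
    rw [cfc_sub (fun _ => (2 : ℝ)) (fun r => r) R, cfc_const (2 : ℝ) R, cfc_id' ℝ R,
      Algebra.algebraMap_eq_smul_one, sub_apply, smul_apply, one_apply_eq_self,
      ← hm.J_T, ← hm.S_eq u hu, hm.J_J, ← Complex.coe_smul]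
    norm_num
  have inj : ∀ v, opT R v = 0 → v = 0 := fun v hv => by
    have hz : ∀ w, ⟪v, opT R w⟫_ℂ = 0 := fun w => by
      have hs : star (opT R) = opT R := (cfc_predicate fT R).star_eq
      rw [← ContinuousLinearMap.adjoint_inner_left, ← ContinuousLinearMap.star_eq_adjoint, hs, hv,
        inner_zero_left]
    exact inner_self_eq_zero.1 (DenseRange.induction_on (p := fun w => ⟪v, w⟫_ℂ = 0) hm.dense_T v
      (isClosed_eq (continuous_const.inner continuous_id) continuous_const) hz)
  refine sub_eq_zero.1 (inj _ ?_)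
  rw [map_sub, sub_eq_zero, band, opT, ← ContinuousLinearMap.mul_apply, ← cfc_mul _ _ R hTc hg,
    ← ContinuousLinearMap.mul_apply, ← cfc_mul _ _ R hTc hm']
  rw [show (fun r => fT r * gp l h r) = fun r => gp l h r * fT r from funext fun r => mul_comm _ _,
    cfc_mul _ _ R hg hTc, ContinuousLinearMap.mul_apply, ← opT, h1,
    ← ContinuousLinearMap.mul_apply,
    ← cfc_mul (gp l h) (fun r => 2 - r) R hg (continuous_const.sub continuous_id).continuousOn]
  refine congrArg (fun T : H →L[ℂ] H => T (u ξ)) (cfc_congr fun r hr => ?_)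
  obtain ⟨h0, h2⟩ := hm.R_spec hr
  by_cases hin : 0 < r ∧ r < 2
  · simp only [gp, wrapLam, gauss, if_pos hin, fT, sub_eq_add_neg (1 / 2 * lam r), Real.exp_add]
    have hr0 := hin.1
    have hr2 : 0 < 2 - r := by linarith [hin.2]
    have e : Real.sqrt (r * (2 - r)) * Real.exp (1 / 2 * lam r) = 2 - r := by
      rw [show 1 / 2 * lam r = lam r / 2 by ring, Real.exp_half, lam, ← Real.log_div hr2.ne'
        hr0.ne', Real.exp_log (by positivity), ← Real.sqrt_mul (by positivity),
        show r * (2 - r) * ((2 - r) / r) = (2 - r) ^ 2 by field_simp, Real.sqrt_sq hr2.le]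
    rw [← mul_assoc, e]
    ring
  · simp [gp, wrapLam, hin]

lemma defect_term_le {W l h x : ℝ} (hh : 0 < h) (h1 : h ≤ 1) (hl : |l| ≤ W) :
    (gauss (1 / 2) l h x - Real.exp (l / 2) * gauss 0 l h x) ^ 2
      ≤ Real.exp (W + 1) * h ^ 2 * Real.exp (-(x / h - l / h) ^ 2) := by
  set z := (x - l) / h with hz
  have ez : x / h - l / h = z := by rw [hz, sub_div]
  rw [ez]
  have hd : x - l = h * z := by rw [hz]; field_simp
  have e : gauss (1 / 2) l h x - Real.exp (l / 2) * gauss 0 l h x =
      Real.exp (l / 2 - z ^ 2) * (Real.exp ((x - l) / 2) - 1) := by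
    simp only [gauss, ← hz, mul_sub, ← Real.exp_add, mul_one]
    ring_nf
  have hb : |Real.exp ((x - l) / 2) - 1| ≤ h * |z| / 2 * Real.exp (|z| / 2) := by
    have a1 : |(x - l) / 2| = h * |z| / 2 := by
      rw [hd, abs_div, abs_mul, abs_of_pos hh, abs_two]
    have a2 : h * |z| / 2 ≤ |z| / 2 := by nlinarith [abs_nonneg z]
    set t := (x - l) / 2
    calc |Real.exp t - 1| ≤ |t| * Real.exp |t| := by
          rw [abs_le]
          have q1 := Real.add_one_le_exp t
          have q2 := Real.add_one_le_exp (-t)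
          have q3 : Real.exp t * Real.exp (-t) = 1 := by rw [← Real.exp_add]; simp
          have q4 : Real.exp t ≤ Real.exp |t| := Real.exp_le_exp.2 (le_abs_self t)
          have q5 : 1 ≤ Real.exp |t| := Real.one_le_exp (abs_nonneg t)
          constructor <;> nlinarith [Real.exp_pos t, le_abs_self t, neg_abs_le t, abs_nonneg t]
      _ ≤ _ := by
          rw [a1]
          gcongr
  calc _ = Real.exp (l / 2 - z ^ 2) ^ 2 * |Real.exp ((x - l) / 2) - 1| ^ 2 := by
        rw [e, mul_pow, sq_abs]
    _ ≤ Real.exp (l / 2 - z ^ 2) ^ 2 * (h * |z| / 2 * Real.exp (|z| / 2)) ^ 2 := by gcongr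
    _ = h ^ 2 * (|z| / 2) ^ 2 * Real.exp (l - 2 * z ^ 2 + |z|) := by
        have : Real.exp (l / 2 - z ^ 2) ^ 2 * Real.exp (|z| / 2) ^ 2 =
            Real.exp (l - 2 * z ^ 2 + |z|) := by
          rw [← Real.exp_nat_mul, ← Real.exp_nat_mul, ← Real.exp_add]; push_cast; ring_nf
        rw [← this]; ring
    _ ≤ h ^ 2 * Real.exp (|z| / 2) ^ 2 * Real.exp (W - 2 * z ^ 2 + |z|) := by
        refine mul_le_mul ?_ (Real.exp_le_exp.2 (by linarith [le_abs_self l])) (Real.exp_pos _).le
          (by positivity)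
        gcongr
        linarith [Real.add_one_le_exp (|z| / 2), abs_nonneg z]
    _ = h ^ 2 * Real.exp (W - 2 * z ^ 2 + 2 * |z|) := by
        rw [mul_assoc, ← Real.exp_nat_mul, ← Real.exp_add]; push_cast; ring_nf
    _ ≤ h ^ 2 * Real.exp (W + 1 + -z ^ 2) := by
        refine mul_le_mul_of_nonneg_left (Real.exp_le_exp.2 ?_) (by positivity)
        nlinarith [sq_nonneg (|z| - 1), sq_abs z]
    _ = _ := by rw [Real.exp_add]; ring

lemma integrable_kernel (l : ℝ) {h : ℝ} (hh : 0 < h) {f : ℝ → H} (hf : Continuous f) (b : ℝ)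
    (hb : ∀ t, ‖f t‖ ≤ b) : Integrable fun t => bandKernel l h t • f t := by
  have hi : Integrable (bandKernel l h) := by
    have h0 := ((integrable_exp_neg_mul_sq (show 0 < h ^ 2 / 4 by positivity)).const_mul
      (h / (2 * Real.sqrt Real.pi))).ofReal (𝕜 := ℂ)
    refine h0.mul_bdd (c := 1) (g := fun t : ℝ => Complex.exp (((-(l * t) : ℝ) : ℂ) * Complex.I))
      ?_ ?_ |>.congr (Eventually.of_forall fun t => ?_)
    · fun_prop
    · exact Eventually.of_forall fun t => (Complex.norm_exp_ofReal_mul_I _).le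
    · simp only [bandKernel]
      congr 3
      ring_nf
  refine (hi.norm.mul_const b).mono' ((hi.aestronglyMeasurable).smul hf.aestronglyMeasurable)
    (Eventually.of_forall fun t => ?_)
  rw [norm_smul]
  exact mul_le_mul_of_nonneg_left (hb t) (norm_nonneg _)

lemma norm_U (hm : Modular M ξ R J U) (t : ℝ) (v : H) : ‖U t v‖ = ‖v‖ := by
  have e : ⟪U t v, U t v⟫_ℂ = ⟪v, v⟫_ℂ := by
    rw [← ContinuousLinearMap.adjoint_inner_right, ← ContinuousLinearMap.star_eq_adjoint,
      hm.U_star, ← ContinuousLinearMap.mul_apply, ← hm.U_add, neg_add_cancel, hm.U_zero,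
      one_apply_eq_self]
  rw [← sq_eq_sq₀ (norm_nonneg _) (norm_nonneg _)]
  exact (inner_self_eq_norm_sq (𝕜 := ℂ) _).symm.trans
    ((congrArg RCLike.re e).trans (inner_self_eq_norm_sq _))

lemma continuous_conj_apply (hm : Modular M ξ R J U) (u : H →L[ℂ] H) (v : H) :
    Continuous fun t => (U t * u * U (-t)) v := by
  rw [continuous_iff_continuousAt]
  intro s
  set g : ℝ → H := fun t => u (U (-t) v)
  have hg : Continuous g := u.continuous.comp ((hm.U_cont v).comp continuous_neg)
  rw [ContinuousAt, tendsto_iff_norm_sub_tendsto_zero]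
  refine squeeze_zero (fun t => norm_nonneg _)
    (g := fun t => ‖g t - g s‖ + ‖U t (g s) - U s (g s)‖) (fun t => ?_) ?_
  · simp only [ContinuousLinearMap.mul_apply]
    have := norm_add_le (U t (g t - g s)) (U t (g s) - U s (g s))
    rw [norm_U hm, map_sub] at this
    simpa [g] using this
  · have a := tendsto_iff_norm_sub_tendsto_zero.1 (hg.tendsto s)
    have b := tendsto_iff_norm_sub_tendsto_zero.1 ((hm.U_cont (g s)).tendsto s)
    simpa using a.add b

/-- The averaged element. -/
noncomputable def avgOp (hm : Modular M ξ R J U) (u : H →L[ℂ] H) (l : ℝ) {h : ℝ} (hh : 0 < h) :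
    H →L[ℂ] H :=
  LinearMap.mkContinuous
    { toFun := fun v => ∫ t, bandKernel l h t • (U t * u * U (-t)) v
      map_add' := fun v w => by
        simp only [map_add, smul_add]
        exact integral_add
          (integrable_kernel l hh (continuous_conj_apply hm u v) (‖u‖ * ‖v‖) fun t => by
            simp only [ContinuousLinearMap.mul_apply, norm_U hm]
            exact (u.le_opNorm _).trans_eq (by rw [norm_U hm]))
          (integrable_kernel l hh (continuous_conj_apply hm u w) (‖u‖ * ‖w‖) fun t => by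
            simp only [ContinuousLinearMap.mul_apply, norm_U hm]
            exact (u.le_opNorm _).trans_eq (by rw [norm_U hm]))
      map_smul' := fun c v => by
        simp only [map_smul, RingHom.id_apply, smul_comm _ c]
        exact integral_smul c _ }
    ((∫ t, ‖bandKernel l h t‖) * ‖u‖) fun v => by
      refine (norm_integral_le_integral_norm _).trans ?_
      rw [mul_assoc, ← integral_mul_const]
      refine integral_mono_of_nonneg (Eventually.of_forall fun t => norm_nonneg _) ?_
        (Eventually.of_forall fun t => ?_)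
      · simpa using (integrable_kernel (H := ℂ) l hh continuous_const ‖(1 : ℂ)‖
          (fun _ => le_rfl)).norm.mul_const (‖u‖ * ‖v‖)
      · simp only [norm_smul, ContinuousLinearMap.mul_apply, norm_U hm]
        exact mul_le_mul_of_nonneg_left ((u.le_opNorm _).trans_eq (by rw [norm_U hm]))
          (norm_nonneg _)

lemma avgOp_apply (hm : Modular M ξ R J U) (u : H →L[ℂ] H) (l : ℝ) {h : ℝ} (hh : 0 < h) (v : H) :
    avgOp hm u l hh v = ∫ t, bandKernel l h t • (U t * u * U (-t)) v := rfl

lemma integrable_conj (hm : Modular M ξ R J U) (u : H →L[ℂ] H) (l : ℝ) {h : ℝ} (hh : 0 < h)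
    (v : H) : Integrable fun t => bandKernel l h t • (U t * u * U (-t)) v :=
  integrable_kernel l hh (continuous_conj_apply hm u v) (‖u‖ * ‖v‖) fun t => by
    simp only [ContinuousLinearMap.mul_apply, norm_U hm]
    exact (u.le_opNorm _).trans_eq (by rw [norm_U hm])

lemma avgOp_mem (hm : Modular M ξ R J U) {u : H →L[ℂ] H} (hu : u ∈ M) (l : ℝ) {h : ℝ}
    (hh : 0 < h) : avgOp hm u l hh ∈ M := by
  suffices avgOp hm u l hh ∈ M.commutant.commutant by
    simpa only [VonNeumannAlgebra.commutant_commutant] using this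
  rw [VonNeumannAlgebra.mem_commutant_iff]
  intro y hy
  ext v
  rw [ContinuousLinearMap.mul_apply, ContinuousLinearMap.mul_apply, avgOp_apply, avgOp_apply,
    ← ContinuousLinearMap.integral_comp_comm y (integrable_conj hm u l hh v)]
  refine integral_congr_ae (Eventually.of_forall fun t => ?_)
  have e := VonNeumannAlgebra.mem_commutant_iff.1 hy _ (hm.U_mem t u hu)
  simp only [map_smul]
  exact congrArg (fun T : H →L[ℂ] H => bandKernel l h t • T v) e.symm

lemma conj_bandKernel (l h t : ℝ) : conj (bandKernel l h t) = bandKernel (-l) h t := by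
  simp only [bandKernel, map_mul, ← Complex.exp_conj, Complex.conj_ofReal, Complex.conj_I]
  congr 2
  push_cast
  ring

lemma star_avgOp (hm : Modular M ξ R J U) (u : H →L[ℂ] H) (l : ℝ) {h : ℝ} (hh : 0 < h) :
    star (avgOp hm u l hh) = avgOp hm (star u) (-l) hh := by
  rw [ContinuousLinearMap.star_eq_adjoint]
  refine ((ContinuousLinearMap.eq_adjoint_iff _ _).2 fun a b => ?_).symm
  rw [avgOp_apply, avgOp_apply, ← integral_inner (integrable_conj hm u l hh b) a,
    ← inner_conj_symm, ← integral_inner (integrable_conj hm (star u) (-l) hh a) b, ← integral_conj]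
  refine integral_congr_ae (Eventually.of_forall fun t => ?_)
  simp only [inner_smul_right, map_mul, inner_conj_symm, conj_bandKernel, neg_neg]
  congr 1
  have e : star (U t * u * U (-t)) = U t * star u * U (-t) := by
    simp only [star_mul, hm.U_star, neg_neg, mul_assoc]
  rw [← e, ContinuousLinearMap.star_eq_adjoint, ContinuousLinearMap.adjoint_inner_left]

lemma avgOp_xi (hm : Modular M ξ R J U) (hi : IntegralSpec R U) (u : H →L[ℂ] H) (l : ℝ) {h : ℝ}
    (hh : 0 < h) : avgOp hm u l hh ξ = band R l h (u ξ) := by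
  rw [avgOp_apply, ← hi l h hh (u ξ)]
  simp only [ContinuousLinearMap.mul_apply, hm.U_xi]

lemma J_band (hm : Modular M ξ R J U) (hi : IntegralSpec R U) (l : ℝ) {h : ℝ} (hh : 0 < h)
    (v : H) : J (band R (-l) h v) = band R l h (J v) := by
  let Jr : H →L[ℝ] H :=
    { toFun := fun x => J x
      map_add' := map_add J
      map_smul' := fun c x => by
        rw [← Complex.coe_smul, LinearIsometryEquiv.map_smulₛₗ, Complex.conj_ofReal,
          Complex.coe_smul]
        rfl
      cont := J.continuous }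
  rw [← hi (-l) h hh v, ← hi l h hh (J v)]
  have hI : Integrable fun t => bandKernel (-l) h t • U t v :=
    integrable_kernel (-l) hh (hm.U_cont v) ‖v‖ fun t => (norm_U hm t v).le
  refine ((Jr.integral_comp_comm hI).symm).trans
    (integral_congr_ae (Eventually.of_forall fun t => ?_))
  show J (bandKernel (-l) h t • U t v) = _
  rw [LinearIsometryEquiv.map_smulₛₗ, hm.U_J, conj_bandKernel, neg_neg]

end Bands

variable {M : VonNeumannAlgebra H} {ξ : H} {R : H →L[ℂ] H} {J : H ≃ₗᵢ⋆[ℂ] H}
  {U : ℝ → H →L[ℂ] H}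

open Bands in
/-- The facts about bands. -/
theorem bandSpec (hm : Modular M ξ R J U) (hi : IntegralSpec R U) : BandSpec M ξ R J where
  exists_band u hu l h hh := by
    refine ⟨avgOp hm u l hh, avgOp_mem hm hu l hh, avgOp_xi hm hi u l hh, ?_⟩
    show J (star (avgOp hm u l hh) (J ξ)) = _
    rw [hm.J_xi, star_avgOp, avgOp_xi hm hi, Bands.J_band hm hi l hh]
  defect W := by
    refine ⟨Real.exp (W + 1) * gaussTot, fun u hu h hh h1 K hK => ?_⟩
    have hc : ∀ k : ℤ, ContinuousOn (fun r => wrapLam (gauss (1 / 2) (k * h) h) r -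
        Real.exp (k * h / 2) * gp (k * h) h r) (Set.Icc 0 2) := fun k => by
      rw [gp_eq]
      exact (continuousOn_wrap_gauss hh.ne' _ _).sub
        (continuousOn_const.mul (continuousOn_wrap_gauss hh.ne' 0 _))
    refine le_of_eq_of_le (Finset.sum_congr rfl fun k _ => ?_)
      (sum_norm_sq_cfc_le hm.R_sa hm.R_spec K (fun k r => wrapLam (gauss (1 / 2) (k * h) h) r -
        Real.exp (k * h / 2) * gp (k * h) h r) (fun k _ => hc k) (fun r _ => ?_) (u ξ))
    · rw [band_J_star hm hu hh.ne', band]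
      have g1 : ContinuousOn (wrapLam (gauss (1 / 2) (k * h) h)) (spectrum ℝ R) :=
        (continuousOn_wrap_gauss hh.ne' _ _).mono hm.R_spec
      have g2 : ContinuousOn (gp (k * h) h) (spectrum ℝ R) := by
        rw [gp_eq]; exact (continuousOn_wrap_gauss hh.ne' 0 _).mono hm.R_spec
      rw [cfc_sub (wrapLam (gauss (1 / 2) (k * h) h))
          (fun r => Real.exp (k * h / 2) * gp (k * h) h r) R g1 (continuousOn_const.mul g2),
        cfc_const_mul (Real.exp (k * h / 2)) (gp (k * h) h) R g2, sub_apply, smul_apply,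
        Complex.coe_smul]
    · by_cases hin : 0 < r ∧ r < 2
      · calc _ ≤ ∑ k ∈ K, Real.exp (W + 1) * h ^ 2 * Real.exp (-(lam r / h - k) ^ 2) := by
              refine Finset.sum_le_sum fun k hk => ?_
              have := defect_term_le (x := lam r) hh h1 (hK k hk)
              rw [mul_div_cancel_right₀ (k : ℝ) hh.ne'] at this
              simpa [gp_eq, wrapLam, hin] using this
          _ ≤ Real.exp (W + 1) * h ^ 2 * gaussTot := by
              rw [← Finset.mul_sum]
              exact mul_le_mul_of_nonneg_left (sum_exp_sq_le _ K) (by positivity)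
          _ = Real.exp (W + 1) * gaussTot * h ^ 2 := by ring
      · have : 0 ≤ gaussTot := tsum_nonneg fun j => (Real.exp_pos _).le
        simp [gp, wrapLam, hin]
        positivity
  bessel := by
    refine ⟨gaussTot, fun v h hh K => ?_⟩
    have h2 : Real.sqrt 2 * h ≠ 0 := by positivity
    refine sum_norm_sq_cfc_le hm.R_sa hm.R_spec K _ (fun k _ => ?_) (fun r _ => ?_) v
    · rw [gp_eq]; exact continuousOn_wrap_gauss h2 0 _
    · by_cases hin : 0 < r ∧ r < 2
      · refine le_trans (Finset.sum_le_sum fun k _ => le_of_eq ?_) (sum_exp_sq_le (lam r / h) K)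
        simp only [gp, if_pos hin, ← Real.exp_nat_mul]
        congr 1
        have hs : Real.sqrt 2 ^ 2 = 2 := Real.sq_sqrt zero_le_two
        rw [div_pow, mul_pow, hs]
        field_simp
        ring
      · have : 0 ≤ gaussTot := tsum_nonneg fun j => (Real.exp_pos _).le
        simp [gp, hin, this]

end VP132
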