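import Vale.Agent.P132.Band
import Vale.Agent.P132.Integral

/-!
P132: sums of squares of bands, the Gaussian Schur bound, and the fact that a vector with vanishing
bands away from frequency zero is fixed by `R`.
-/

open scoped InnerProductSpace ComplexConjugate
open Filter Topology MeasureTheory
open Vale.Agent.P132.Tomita (conjBy Modular fT opT)

namespace VP132.Bands

variable {H : Type} [NormedAddCommGroup H] [InnerProductSpace ℂ H] [CompleteSpace H]
variable {M : VonNeumannAlgebra H} {ξ : H} {R : H →L[ℂ] H} {J : H ≃ₗᵢ⋆[ℂ] H}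
  {U : ℝ → H →L[ℂ] H}

lemma gaussTot_nonneg : 0 ≤ gaussTot := tsum_nonneg fun _ => (Real.exp_pos _).le

/-- The sum of the squares of the bands at width `h`. -/
lemma sum_band_sq_le (hm : Modular M ξ R J U) {h : ℝ} (hh : 0 < h) (v : H) (K : Finset ℤ) :
    ∑ k ∈ K, ‖band R (k * h) h v‖ ^ 2 ≤ gaussTot * ‖v‖ ^ 2 := by
  refine sum_norm_sq_cfc_le hm.R_sa hm.R_spec K (fun k => gp (k * h) h)
    (fun k _ => (continuous_gp hh _).continuousOn) (fun r _ => ?_) v
  by_cases hin : 0 < r ∧ r < 2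
  · refine le_trans (Finset.sum_le_sum fun k _ => ?_) (sum_exp_sq_le (lam r / h) K)
    simp only [gp, if_pos hin, ← Real.exp_nat_mul]
    refine Real.exp_le_exp.2 ?_
    rw [show (lam r - k * h) / h = lam r / h - k by field_simp]
    push_cast
    nlinarith [sq_nonneg (lam r / h - k)]
  · simp [gp, hin, gaussTot_nonneg]

/-- The phase of the weight of `U t` at frequency `l`. -/
noncomputable def phase (l t : ℝ) : ℂ := Complex.exp (((-(l * t) : ℝ) : ℂ) * Complex.I)

lemma norm_phase (l t : ℝ) : ‖phase l t‖ = 1 := Complex.norm_exp_ofReal_mul_I _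

lemma continuous_phase (l : ℝ) : Continuous (phase l) := by
  unfold phase
  fun_prop

lemma bandKernel_eq (l : ℝ) {h : ℝ} (hh : 0 ≤ h) (t : ℝ) :
    bandKernel l h t = (‖bandKernel 0 h t‖ : ℂ) * phase l t := by
  have h0 : 0 ≤ h / (2 * Real.sqrt Real.pi) * Real.exp (-(t * h) ^ 2 / 4) := by positivity
  rw [bandKernel, bandKernel, phase, norm_mul, Complex.norm_exp_ofReal_mul_I, mul_one,
    Complex.norm_real, Real.norm_eq_abs, abs_of_nonneg h0]

/-- The Gaussian Schur bound, squared. -/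
theorem schur_sq {h : ℝ} (hh : 0 < h) (K : Finset ℤ) (z : ℤ → H) :
    ∫ t, ‖bandKernel 0 h t‖ * ‖∑ k ∈ K, conj (phase (k * h) t) • z k‖ ^ 2
      ≤ gaussTot * ∑ k ∈ K, ‖z k‖ ^ 2 := by
  set B := gaussTot * ∑ k ∈ K, ‖z k‖ ^ 2 with hB
  have hB0 : 0 ≤ B := mul_nonneg gaussTot_nonneg (by positivity)
  set S : ℝ → H := fun t => ∑ k ∈ K, conj (phase (k * h) t) • z k with hS
  have hSc : Continuous S := continuous_finsetSum K fun k _ =>
    ((continuous_phase _).star).smul continuous_const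
  have hSb : ∀ t, ‖S t‖ ≤ ∑ k ∈ K, ‖z k‖ := fun t =>
    (norm_sum_le _ _).trans_eq (Finset.sum_congr rfl fun k _ => by
      rw [norm_smul, RCLike.norm_conj, norm_phase, one_mul])
  have hkc : Continuous fun t => ‖bandKernel 0 h t‖ := (continuous_bandKernel 0 h).norm
  have hint : ∀ (F : ℝ → ℝ) (b : ℝ), Continuous F → (∀ t, |F t| ≤ b) →
      Integrable fun t => ‖bandKernel 0 h t‖ * F t := fun F b hF hb =>
    (integrable_norm_bandKernel hh 0).mul_bdd hF.aestronglyMeasurable
      (c := b) (Eventually.of_forall fun t => (Real.norm_eq_abs _).trans_le (hb t))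
  have i1 := hint (fun t => ‖S t‖) (∑ k ∈ K, ‖z k‖) hSc.norm fun t => by
    rw [abs_norm]; exact hSb t
  have i2 := hint (fun t => ‖S t‖ ^ 2) ((∑ k ∈ K, ‖z k‖) ^ 2) (hSc.norm.pow 2) fun t => by
    rw [abs_of_nonneg (sq_nonneg _)]; exact pow_le_pow_left₀ (norm_nonneg _) (hSb t) 2
  have hk0 := integral_norm_bandKernel hh 0
  have ek : ∀ k j : ℤ, ∫ t, (‖bandKernel 0 h t‖ : ℂ) * (phase (k * h) t * conj (phase (j * h) t)) =
      ((Real.exp (-((k : ℝ) - j) ^ 2) : ℝ) : ℂ) := fun k j => by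
    have e : ∀ t, (‖bandKernel 0 h t‖ : ℂ) * (phase (k * h) t * conj (phase (j * h) t)) =
        bandKernel 0 h t * Complex.exp (((t * ((j - k : ℝ) * h) : ℝ) : ℂ) * Complex.I) := fun t => by
      conv_rhs => rw [bandKernel_eq 0 hh.le t]
      simp only [phase, ← Complex.exp_conj, map_mul, Complex.conj_ofReal, Complex.conj_I,
        ← Complex.exp_add]
      rw [mul_assoc ((‖bandKernel 0 h t‖ : ℂ)) (Complex.exp _), ← Complex.exp_add]
      congr 2
      push_cast
      ring
    rw [integral_congr_ae (Eventually.of_forall e), integral_bandKernel_exp hh]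
    congr 2
    rw [sub_zero, mul_div_cancel_right₀ _ hh.ne']
    ring
  have e2 : ∀ t, ((‖bandKernel 0 h t‖ * ‖S t‖ ^ 2 : ℝ) : ℂ) = ∑ k ∈ K, ∑ j ∈ K,
      (‖bandKernel 0 h t‖ : ℂ) * (phase (k * h) t * conj (phase (j * h) t)) * ⟪z k, z j⟫_ℂ := by
    intro t
    have e := inner_self_eq_norm_sq_to_K (𝕜 := ℂ) (S t)
    push_cast
    rw [show ((‖S t‖ : ℂ)) ^ 2 = ⟪S t, S t⟫_ℂ from e.symm]
    simp only [hS, sum_inner, inner_sum, inner_smul_left, inner_smul_right, Complex.conj_conj,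
      Finset.mul_sum]
    rw [Finset.sum_comm]
    exact Finset.sum_congr rfl fun k _ => Finset.sum_congr rfl fun j _ => by ring
  have hi : ∀ k ∈ K, ∀ j ∈ K, Integrable fun t =>
      (‖bandKernel 0 h t‖ : ℂ) * (phase (k * h) t * conj (phase (j * h) t)) * ⟪z k, z j⟫_ℂ :=
    fun k _ j _ => (((integrable_norm_bandKernel hh 0).ofReal).mul_bdd
      (((continuous_phase _).mul (continuous_phase _).star).aestronglyMeasurable) (c := 1)
      (Eventually.of_forall fun t => by
        simp [norm_phase])).mul_const _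
  have e3 : ((∫ t, ‖bandKernel 0 h t‖ * ‖S t‖ ^ 2 : ℝ) : ℂ) = ∑ k ∈ K, ∑ j ∈ K,
      ((Real.exp (-((k : ℝ) - j) ^ 2) : ℝ) : ℂ) * ⟪z k, z j⟫_ℂ := by
    rw [← integral_complex_ofReal, integral_congr_ae (Eventually.of_forall e2),
      integral_finsetSum _ fun k hk => integrable_finsetSum _ (hi k hk)]
    refine Finset.sum_congr rfl fun k hk => ?_
    rw [integral_finsetSum _ (hi k hk)]
    exact Finset.sum_congr rfl fun j _ => by rw [integral_mul_const, ek]
  have e4 := congrArg RCLike.re e3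
  rw [RCLike.re_to_complex, Complex.ofReal_re, map_sum] at e4
  rw [e4]
  have hjk : ∀ k : ℤ, ∑ j ∈ K, Real.exp (-((k : ℝ) - j) ^ 2) ≤ gaussTot := fun k =>
    sum_exp_sq_le (k : ℝ) K
  calc ∑ k ∈ K, RCLike.re (∑ j ∈ K, ((Real.exp (-((k : ℝ) - j) ^ 2) : ℝ) : ℂ) * ⟪z k, z j⟫_ℂ)
      ≤ ∑ k ∈ K, ∑ j ∈ K, Real.exp (-((k : ℝ) - j) ^ 2) * ((‖z k‖ ^ 2 + ‖z j‖ ^ 2) / 2) := by
        refine Finset.sum_le_sum fun k _ => ?_
        rw [map_sum]
        refine Finset.sum_le_sum fun j _ => ?_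
        rw [RCLike.re_to_complex, Complex.re_ofReal_mul]
        refine mul_le_mul_of_nonneg_left ?_ (Real.exp_pos _).le
        have := (RCLike.re_le_norm ⟪z k, z j⟫_ℂ).trans (norm_inner_le_norm _ _)
        rw [RCLike.re_to_complex] at this
        nlinarith [sq_nonneg (‖z k‖ - ‖z j‖)]
    _ = ∑ k ∈ K, (∑ j ∈ K, Real.exp (-((k : ℝ) - j) ^ 2)) * ‖z k‖ ^ 2 := by
        have sw : ∑ k ∈ K, ∑ j ∈ K, Real.exp (-((k : ℝ) - j) ^ 2) * ‖z j‖ ^ 2 =
            ∑ k ∈ K, ∑ j ∈ K, Real.exp (-((k : ℝ) - j) ^ 2) * ‖z k‖ ^ 2 := by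
          rw [Finset.sum_comm]
          refine Finset.sum_congr rfl fun k _ => Finset.sum_congr rfl fun j _ => ?_
          congr 2
          ring
        simp only [mul_div_assoc', mul_add, add_div, Finset.sum_add_distrib, ← Finset.sum_div,
          sw, Finset.sum_mul]
        ring
    _ ≤ B := by
        rw [hB, Finset.mul_sum]
        gcongr
        exact hjk _

/-- The same with the other sign in the phases. -/
theorem schur_sq' {h : ℝ} (hh : 0 < h) (K : Finset ℤ) (z : ℤ → H) :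
    ∫ t, ‖bandKernel 0 h t‖ * ‖∑ k ∈ K, phase (k * h) t • z k‖ ^ 2
      ≤ gaussTot * ∑ k ∈ K, ‖z k‖ ^ 2 := by
  rw [← integral_neg_eq_self (fun t => ‖bandKernel 0 h t‖ * ‖∑ k ∈ K, phase (k * h) t • z k‖ ^ 2)]
  refine le_of_eq_of_le (integral_congr_ae (Eventually.of_forall fun t => ?_)) (schur_sq hh K z)
  show ‖bandKernel 0 h (-t)‖ * ‖∑ k ∈ K, phase (k * h) (-t) • z k‖ ^ 2 = _
  have e1 : ‖bandKernel 0 h (-t)‖ = ‖bandKernel 0 h t‖ := by
    simp [bandKernel]
  have e2 : ∀ k : ℤ, phase (k * h) (-t) = conj (phase (k * h) t) := fun k => by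
    simp only [phase, ← Complex.exp_conj, map_mul, Complex.conj_ofReal, Complex.conj_I]
    congr 1
    push_cast
    ring
  simp only [e1, e2]

/-- The Gaussian Schur bound. -/
theorem schur {h : ℝ} (hh : 0 < h) (K : Finset ℤ) (z : ℤ → H) :
    ∫ t, ‖bandKernel 0 h t‖ * ‖∑ k ∈ K, conj (phase (k * h) t) • z k‖
      ≤ Real.sqrt (gaussTot * ∑ k ∈ K, ‖z k‖ ^ 2) := by
  set B := gaussTot * ∑ k ∈ K, ‖z k‖ ^ 2 with hB
  have hB0 : 0 ≤ B := mul_nonneg gaussTot_nonneg (by positivity)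
  set S : ℝ → H := fun t => ∑ k ∈ K, conj (phase (k * h) t) • z k with hS
  have hSc : Continuous S := continuous_finsetSum K fun k _ =>
    ((continuous_phase _).star).smul continuous_const
  have hSb : ∀ t, ‖S t‖ ≤ ∑ k ∈ K, ‖z k‖ := fun t =>
    (norm_sum_le _ _).trans_eq (Finset.sum_congr rfl fun k _ => by
      rw [norm_smul, RCLike.norm_conj, norm_phase, one_mul])
  have hkc : Continuous fun t => ‖bandKernel 0 h t‖ := (continuous_bandKernel 0 h).norm
  have hint : ∀ (F : ℝ → ℝ) (b : ℝ), Continuous F → (∀ t, |F t| ≤ b) →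
      Integrable fun t => ‖bandKernel 0 h t‖ * F t := fun F b hF hb =>
    (integrable_norm_bandKernel hh 0).mul_bdd hF.aestronglyMeasurable
      (c := b) (Eventually.of_forall fun t => (Real.norm_eq_abs _).trans_le (hb t))
  have i1 := hint (fun t => ‖S t‖) (∑ k ∈ K, ‖z k‖) hSc.norm fun t => by
    rw [abs_norm]; exact hSb t
  have i2 := hint (fun t => ‖S t‖ ^ 2) ((∑ k ∈ K, ‖z k‖) ^ 2) (hSc.norm.pow 2) fun t => by
    rw [abs_of_nonneg (sq_nonneg _)]; exact pow_le_pow_left₀ (norm_nonneg _) (hSb t) 2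
  have hk0 := integral_norm_bandKernel hh 0
  have sq := schur_sq hh K z
  rw [← hB] at sq
  -- arithmetic and geometric means
  refine le_of_forall_pos_le_add fun η hη => ?_
  set c := Real.sqrt B + η with hc
  have hc0 : 0 < c := by positivity
  calc ∫ t, ‖bandKernel 0 h t‖ * ‖S t‖
      ≤ ∫ t, (c / 2 * ‖bandKernel 0 h t‖ + (1 / (2 * c)) * (‖bandKernel 0 h t‖ * ‖S t‖ ^ 2)) := by
        refine integral_mono i1
          (((integrable_norm_bandKernel hh 0).const_mul _).add (i2.const_mul _)) fun t => ?_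
        have : ‖S t‖ ≤ c / 2 + 1 / (2 * c) * ‖S t‖ ^ 2 := by
          have := sq_nonneg (‖S t‖ - c)
          field_simp
          nlinarith
        show _ ≤ c / 2 * _ + _
        nlinarith [mul_le_mul_of_nonneg_left this (norm_nonneg (bandKernel 0 h t))]
    _ ≤ c / 2 + 1 / (2 * c) * B := by
        rw [integral_add ((integrable_norm_bandKernel hh 0).const_mul _) (i2.const_mul _),
          integral_const_mul, integral_const_mul, hk0, mul_one]
        gcongr
    _ ≤ c / 2 + 1 / (2 * c) * c ^ 2 := by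
        gcongr
        nlinarith [Real.sq_sqrt hB0, Real.sqrt_nonneg B]
    _ = Real.sqrt B + η := by rw [hc]; field_simp; ring

/-- The frequencies between `δ` and `W`, in units of `h`. -/
noncomputable def bandRange (δ W h : ℝ) : Finset ℤ := Finset.Icc ⌈δ / h⌉ ⌊W / h⌋

lemma mem_bandRange {δ W h : ℝ} (hh : 0 < h) {k : ℤ} :
    k ∈ bandRange δ W h ↔ δ ≤ k * h ∧ (k : ℝ) * h ≤ W := by
  rw [bandRange, Finset.mem_Icc, Int.ceil_le, Int.le_floor, div_le_iff₀ hh, le_div_iff₀ hh]

/-- The bands of `w` at positive frequencies tend to zero. -/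
def BandsVanish (R : H →L[ℂ] H) (w : H) : Prop :=
  ∀ δ W : ℝ, 0 < δ → ∀ ε : ℝ, 0 < ε → ∃ h : ℝ, 0 < h ∧ h ≤ δ ∧
    ∑ k ∈ bandRange δ W h, ‖band R (k * h) h w‖ ^ 2 ≤ ε

lemma norm_sq_cfc_le_sum (hR : IsSelfAdjoint R) (hs : spectrum ℝ R ⊆ Set.Icc 0 2) {g : ℝ → ℝ}
    (hg : Continuous g) {κ : Type*} (K : Finset κ) (f : κ → ℝ → ℝ)
    (hf : ∀ k, Continuous (f k)) (c : ℝ)
    (hle : ∀ r ∈ Set.Icc (0 : ℝ) 2, g r ^ 2 ≤ c * ∑ k ∈ K, f k r ^ 2) (v : H) :
    ‖cfc g R v‖ ^ 2 ≤ c * ∑ k ∈ K, ‖cfc (f k) R v‖ ^ 2 := by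
  have e : ∀ f : ℝ → ℝ, Continuous f →
      RCLike.re ⟪v, cfc (fun r => f r ^ 2) R v⟫_ℂ = ‖cfc f R v‖ ^ 2 := by
    intro f hf
    have hsa : star (cfc f R) = cfc f R := (cfc_predicate f R).star_eq
    rw [show (fun r => f r ^ 2) = fun r => f r * f r from funext fun r => sq _,
      cfc_mul _ _ R hf.continuousOn hf.continuousOn]
    nth_rw 1 [← hsa]
    rw [ContinuousLinearMap.mul_apply, ContinuousLinearMap.star_eq_adjoint,
      ContinuousLinearMap.adjoint_inner_right]
    exact inner_self_eq_norm_sq _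
  have hsum : Continuous fun r => ∑ k ∈ K, f k r ^ 2 :=
    continuous_finsetSum K fun k _ => (hf k).pow 2
  have h0 : cfc (fun r => g r ^ 2) R ≤ cfc (fun r => c * ∑ k ∈ K, f k r ^ 2) R :=
    cfc_mono (fun r hr => hle r (hs hr)) (hg.pow 2).continuousOn
      (continuous_const.mul hsum).continuousOn
  have hpos := ((ContinuousLinearMap.nonneg_iff_isPositive _).1 (sub_nonneg.2 h0)).inner_nonneg_right v
  have h2 := (RCLike.le_iff_re_im.1 hpos).1
  rw [cfc_const_mul c (fun r => ∑ k ∈ K, f k r ^ 2) R hsum.continuousOn] at h2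
  have e2 : cfc (fun r => ∑ k ∈ K, f k r ^ 2) R = ∑ k ∈ K, cfc (fun r => f k r ^ 2) R := by
    have := cfc_sum (fun k r => f k r ^ 2) R K fun k _ => ((hf k).pow 2).continuousOn
    simpa [Finset.sum_fn] using this
  rw [e2, map_zero, sub_apply, inner_sub_right, map_sub, e g hg, smul_apply,
    ← Complex.coe_smul, inner_smul_right, RCLike.re_to_complex, Complex.re_ofReal_mul,
    ← RCLike.re_to_complex, ContinuousLinearMap.sum_apply, inner_sum, map_sum,
    Finset.sum_congr rfl fun k _ => e (f k) (hf k), sub_nonneg] at h2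
  exact h2

/-- The odd cubic used to cut the spectrum. -/
noncomputable def cubic (r : ℝ) : ℝ := r * (2 - r) * (1 - r)

/-- Its part above `ε`. -/
noncomputable def cubicCut (ε r : ℝ) : ℝ := max (cubic r - ε) 0

lemma continuous_cubicCut (ε : ℝ) : Continuous (cubicCut ε) := by
  unfold cubicCut cubic
  fun_prop

lemma cfc_cubicCut_eq_zero (hm : Modular M ξ R J U) {w : H} (hw : BandsVanish R w) {ε : ℝ}
    (hε : 0 < ε) : cfc (cubicCut ε) R w = 0 := by
  set a := Real.log (1 + ε)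
  have ha : 0 < a := Real.log_pos (by linarith)
  set δ := a / 2 with hδ
  set W := |Real.log (4 / ε)| + δ with hW
  refine norm_le_zero_iff.1 (le_of_forall_pos_le_add fun η hη => ?_)
  rw [zero_add]
  obtain ⟨h, hh, hhδ, hsum⟩ := hw δ W (by positivity) (η ^ 2 / Real.exp (1 / 2)) (by positivity)
  refine (pow_le_pow_iff_left₀ (norm_nonneg _) hη.le two_ne_zero).1 ?_
  refine (norm_sq_cfc_le_sum hm.R_sa hm.R_spec (continuous_cubicCut ε) (bandRange δ W h)
    (fun k => gp (k * h) h) (fun k => continuous_gp hh _) (Real.exp (1 / 2)) (fun r hr => ?_)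
    w).trans ?_
  · have hs0 : 0 ≤ Real.exp (1 / 2) * ∑ k ∈ bandRange δ W h, gp (k * h) h r ^ 2 := by positivity
    rcases le_or_gt (cubic r) ε with hc | hc
    · simpa [cubicCut, max_eq_right (sub_nonpos.2 hc)] using hs0
    obtain ⟨hr0, hr2⟩ := hr
    have hc1 : cubicCut ε r ^ 2 ≤ 1 := by
      rw [cubicCut, max_eq_left (sub_nonneg.2 hc.le)]
      refine pow_le_one₀ (sub_nonneg.2 hc.le) ?_
      unfold cubic
      nlinarith [sq_nonneg (r - 1), mul_nonneg hr0 (sub_nonneg.2 hr2)]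
    unfold cubic at hc
    have hp : 0 ≤ r * (2 - r) := mul_nonneg hr0 (by linarith)
    have hp1 : r * (2 - r) ≤ 1 := by nlinarith [sq_nonneg (r - 1)]
    have hr1 : r < 1 := by
      by_contra hle
      nlinarith [mul_nonpos_of_nonneg_of_nonpos hp (by linarith : (1 - r) ≤ 0)]
    have h1r : ε ≤ 1 - r := by nlinarith [mul_le_mul_of_nonneg_right hp1 (by linarith : 0 ≤ 1 - r)]
    have hrp : ε / 2 ≤ r := by
      nlinarith [mul_le_mul_of_nonneg_left (by linarith : 1 - r ≤ 1) hp]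
    have hr' : 0 < r := by linarith
    have hlo : a ≤ lam r := by
      rw [lam, ← Real.log_div (by linarith) hr'.ne']
      refine Real.log_le_log (by linarith) ?_
      rw [le_div_iff₀ hr']
      nlinarith
    have hhi : lam r ≤ Real.log (4 / ε) := by
      rw [lam, ← Real.log_div (by linarith) hr'.ne']
      refine Real.log_le_log (div_pos (by linarith) hr') ?_
      rw [div_le_div_iff₀ hr' hε]
      nlinarith
    set k := round (lam r / h)
    have hk : |lam r / h - k| ≤ 1 / 2 := abs_sub_round _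
    have hkm : k ∈ bandRange δ W h := by
      rw [mem_bandRange hh]
      have e : lam r / h * h = lam r := div_mul_cancel₀ _ hh.ne'
      have := abs_le.1 hk
      constructor <;> nlinarith [le_abs_self (Real.log (4 / ε))]
    refine hc1.trans (le_trans ?_ (mul_le_mul_of_nonneg_left
      (Finset.single_le_sum (f := fun j : ℤ => gp (j * h) h r ^ 2) (fun j _ => sq_nonneg _) hkm)
      (Real.exp_pos _).le))
    have hin : 0 < r ∧ r < 2 := ⟨hr', by linarith⟩
    rw [gp, if_pos hin, ← Real.exp_nat_mul, ← Real.exp_add]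
    refine Real.one_le_exp ?_
    rw [show (lam r - k * h) / h = lam r / h - k by field_simp]
    push_cast
    nlinarith [sq_abs (lam r / h - k), abs_nonneg (lam r / h - k)]
  · show Real.exp (1 / 2) * ∑ k ∈ bandRange δ W h, ‖band R (k * h) h w‖ ^ 2 ≤ η ^ 2
    calc _ ≤ Real.exp (1 / 2) * (η ^ 2 / Real.exp (1 / 2)) := by gcongr
      _ = _ := by field_simp

/-- If the bands of `a ξ` and `star a ξ` at positive frequencies vanish, `R` fixes `a ξ`. -/
theorem fix_of_bands_small (hm : Modular M ξ R J U) {a : H →L[ℂ] H} (ha : a ∈ M)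
    (h1 : BandsVanish R (a ξ)) (h2 : BandsVanish R (star a ξ)) : R (a ξ) = a ξ := by
  have hR := hm.R_sa
  set w := a ξ with hw
  have hcub : Continuous cubic := by unfold cubic; fun_prop
  have h2R : cfc (fun r : ℝ => 2 - r) R = (2 : ℂ) • 1 - R := by
    rw [cfc_sub (fun _ => (2 : ℝ)) (fun r => r) R, cfc_const (2 : ℝ) R, cfc_id' ℝ R,
      Algebra.algebraMap_eq_smul_one, ← Complex.coe_smul, Complex.ofReal_ofNat]
  have inj2 : ∀ v, cfc (fun r : ℝ => 2 - r) R v = 0 → v = 0 := fun v hv => by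
    rw [h2R, sub_apply, smul_apply, one_apply_eq_self, sub_eq_zero] at hv
    exact hm.R_inj' v hv.symm
  have hTw : opT R (J (star a ξ)) = cfc (fun r : ℝ => 2 - r) R w := by
    rw [h2R, sub_apply, smul_apply, one_apply_eq_self, ← hm.J_T, ← hm.S_eq a ha, hm.J_J]
  have flip : ∀ ε : ℝ, 0 < ε → cfc (fun r => cubicCut ε (2 - r)) R w = 0 := fun ε hε => by
    set q : ℝ → ℝ := fun r => cubicCut ε (2 - r) with hq
    have qc : Continuous q := (continuous_cubicCut ε).comp (continuous_const.sub continuous_id)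
    refine inj2 _ ?_
    have e : cfc q R (J (star a ξ)) = 0 := by
      rw [hq, ← J_cfc hm (continuous_cubicCut ε), cfc_cubicCut_eq_zero hm h2 hε, map_zero]
    have hT : Continuous fT := continuous_fT'
    calc cfc (fun r : ℝ => 2 - r) R (cfc q R w) = cfc q R (cfc (fun r : ℝ => 2 - r) R w) :=
          congrArg (fun T : H →L[ℂ] H => T w) (cfc_commute_cfc _ _ R).eq
      _ = opT R (cfc q R (J (star a ξ))) := by
          rw [← hTw, opT]
          exact congrArg (fun T : H →L[ℂ] H => T (J (star a ξ))) (cfc_commute_cfc _ _ R).eq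
      _ = 0 := by rw [e, map_zero]
  have small : ∀ ε : ℝ, 0 < ε → ‖cfc cubic R w‖ ≤ ε * ‖w‖ := fun ε hε => by
    have c1 := continuous_cubicCut ε
    have c2 : Continuous fun r => cubicCut ε (2 - r) := c1.comp (continuous_const.sub continuous_id)
    have hsplit : ‖cfc (fun r => cubic r - (cubicCut ε r - cubicCut ε (2 - r))) R‖ ≤ ε := by
      refine norm_cfc_le hε.le fun r _ => ?_
      have e : cubic (2 - r) = -cubic r := by unfold cubic; ring
      simp only [Real.norm_eq_abs, cubicCut, e]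
      rw [abs_le]
      constructor <;> rcases max_cases (cubic r - ε) 0 with ⟨p, _⟩ | ⟨p, _⟩ <;>
        rcases max_cases (-cubic r - ε) 0 with ⟨q, _⟩ | ⟨q, _⟩ <;> rw [p, q] <;> linarith
    have := (cfc (fun r => cubic r - (cubicCut ε r - cubicCut ε (2 - r))) R).le_of_opNorm_le hsplit w
    rwa [cfc_sub cubic (fun r => cubicCut ε r - cubicCut ε (2 - r)) R hcub.continuousOn
      (c1.sub c2).continuousOn, cfc_sub (cubicCut ε) (fun r => cubicCut ε (2 - r)) R
      c1.continuousOn c2.continuousOn, sub_apply, sub_apply, cfc_cubicCut_eq_zero hm h1 hε,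
      flip ε hε, sub_zero, sub_zero] at this
  have h0 : cfc cubic R w = 0 := norm_le_zero_iff.1 (le_of_forall_pos_le_add fun η hη => by
    rw [zero_add]
    refine (small (η / (‖w‖ + 1)) (by positivity)).trans ?_
    rw [div_mul_eq_mul_div, div_le_iff₀ (by positivity)]
    nlinarith [norm_nonneg w])
  have e : cfc cubic R = R * cfc (fun r : ℝ => 2 - r) R * (1 - R) := by
    rw [show cubic = fun r => r * (2 - r) * (1 - r) from rfl,
      cfc_mul (fun r => r * (2 - r)) (fun r => 1 - r) R, cfc_mul (fun r => r) (fun r => 2 - r) R,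
      cfc_id' ℝ R, cfc_sub (fun _ => (1 : ℝ)) (fun r => r) R, cfc_const (1 : ℝ) R, cfc_id' ℝ R,
      map_one]
  rw [e, ContinuousLinearMap.mul_apply, ContinuousLinearMap.mul_apply, sub_apply,
    one_apply_eq_self] at h0
  exact (sub_eq_zero.1 (inj2 _ (hm.R_inj _ h0))).symm

end VP132.Bands
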