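import Mathlib

/-!
P132: the bicentralizer of a vector state of a von Neumann algebra with a cyclic separating vector,
and the statement that it is trivial when the algebra is of type III_1. A normal functional is given by vectors, since the algebra is in standard
form, and the norm of a functional is used through bounds on the algebra.
-/

open scoped InnerProductSpace
open Filter Topology

namespace VP132

variable (H : Type) [NormedAddCommGroup H] [InnerProductSpace ℂ H] [CompleteSpace H]

/-- `ξ` is a unit cyclic separating vector of `M`, so its vector state is faithful and normal. -/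
def IsStandardVector (M : VonNeumannAlgebra H) (ξ : H) : Prop :=
  ‖ξ‖ = 1 ∧ Dense {v : H | ∃ x ∈ M, x ξ = v} ∧ ∀ x ∈ M, x ξ = 0 → x = 0

/-- The centre of `M` consists of the scalars. -/
def IsFactor (M : VonNeumannAlgebra H) : Prop :=
  ∀ z ∈ M, (∀ y ∈ M, z * y = y * z) → ∃ c : ℂ, z = c • 1

/-- `M` is more than the scalars, and the unitary orbit of every normal state is norm dense among
the normal states. For a factor this is type III_1, by Connes and Størmer. -/
def IsHomogeneous (M : VonNeumannAlgebra H) : Prop :=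
  (∃ x ∈ M, ∀ c : ℂ, x ≠ c • 1) ∧
    ∀ η ζ : H, ‖η‖ = 1 → ‖ζ‖ = 1 → ∀ ε : ℝ, 0 < ε →
      ∃ u ∈ M, star u * u = 1 ∧ u * star u = 1 ∧
        ∀ y ∈ M, ‖⟪η, (star u * y * u) η⟫_ℂ - ⟪ζ, y ζ⟫_ℂ‖ ≤ ε * ‖y‖

/-- Two isometries in `M` with orthogonal ranges spanning everything. -/
def IsProperlyInfinite (M : VonNeumannAlgebra H) : Prop :=
  ∃ v ∈ M, ∃ w ∈ M, star v * v = 1 ∧ star w * w = 1 ∧ v * star v + w * star w = 1

/-- A uniformly bounded sequence in `M`. -/
def IsBoundedSeq (M : VonNeumannAlgebra H) (w : ℕ → H →L[ℂ] H) : Prop :=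
  (∀ n, w n ∈ M) ∧ ∃ C : ℝ, ∀ n, ‖w n‖ ≤ C

/-- The norm of `w n φ - φ w n` tends to zero, `φ` the state of `ξ`. -/
def AsympCentralizes (M : VonNeumannAlgebra H) (ξ : H) (w : ℕ → H →L[ℂ] H) : Prop :=
  IsBoundedSeq H M w ∧ ∀ ε : ℝ, 0 < ε → ∀ᶠ n in atTop,
    ∀ y ∈ M, ‖⟪ξ, (y * w n - w n * y) ξ⟫_ℂ‖ ≤ ε * ‖y‖

/-- `a` commutes strongly asymptotically with every asymptotically centralizing sequence. -/
def InBicentralizer (M : VonNeumannAlgebra H) (ξ : H) (a : H →L[ℂ] H) : Prop :=
  a ∈ M ∧ ∀ w, AsympCentralizes H M ξ w →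
    ∀ η, Tendsto (fun n => (a * w n - w n * a) η) atTop (𝓝 0)

/-- The bicentralizer is trivial for every such algebra and every such state. -/
def Target : Prop :=
  ∀ (H : Type) [NormedAddCommGroup H] [InnerProductSpace ℂ H] [CompleteSpace H]
    (M : VonNeumannAlgebra H) (ξ : H),
    IsStandardVector H M ξ → IsFactor H M → IsHomogeneous H M → IsProperlyInfinite H M →
      ∀ a, InBicentralizer H M ξ a → ∃ c : ℂ, a = c • 1

end VP132
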