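import Vale.Agent.P132.Defs
import Vale.Agent.P132.Tomita.Spec

/-!
P132: the interfaces between the modules of the proof.
-/

open scoped InnerProductSpace
open Filter Topology
open Vale.Agent.P132.Tomita (conjBy Modular)

namespace VP132

variable {H : Type} [NormedAddCommGroup H] [InnerProductSpace ℂ H] [CompleteSpace H]

/-- The right action of `x`. -/
noncomputable def rho (J : H ≃ₗᵢ⋆[ℂ] H) (x : H →L[ℂ] H) : H →L[ℂ] H := conjBy J (star x)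

/-- The logarithm of the modular operator as a function of `R`. -/
noncomputable def lam (r : ℝ) : ℝ := Real.log (2 - r) - Real.log r

/-- The Gaussian band at frequency `l` of width `h`. -/
noncomputable def gp (l h r : ℝ) : ℝ :=
  if 0 < r ∧ r < 2 then Real.exp (-((lam r - l) / h) ^ 2) else 0

/-- The band operator. -/
noncomputable def band (R : H →L[ℂ] H) (l h : ℝ) : H →L[ℂ] H := cfc (gp l h) R

/-- The weight of `U t` in the band operator. -/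
noncomputable def bandKernel (l h t : ℝ) : ℂ :=
  ((h / (2 * Real.sqrt Real.pi) * Real.exp (-(t * h) ^ 2 / 4) : ℝ) : ℂ)
    * Complex.exp (((-(l * t) : ℝ) : ℂ) * Complex.I)

/-- Unitaries of `M` nearly centralizing `ξ` nearly commute with `a` at `ξ`. -/
def HasMod (M : VonNeumannAlgebra H) (ξ : H) (J : H ≃ₗᵢ⋆[ℂ] H) (a : H →L[ℂ] H) : Prop :=
  a ∈ M ∧ ∀ ε : ℝ, 0 < ε → ∃ δ : ℝ, 0 < δ ∧ ∀ W ∈ M, star W * W = 1 → W * star W = 1 →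
    ‖W ξ - rho J W ξ‖ ≤ δ → ‖(W * a - a * W) ξ‖ ≤ ε

/-- The same for square summable families of elements of `M`, uniformly in the family. -/
def HasRowMod (M : VonNeumannAlgebra H) (ξ : H) (J : H ≃ₗᵢ⋆[ℂ] H) (a : H →L[ℂ] H) : Prop :=
  a ∈ M ∧ ∀ ε : ℝ, 0 < ε → ∃ δ : ℝ, 0 < δ ∧
    ∀ (ι : Type) [Fintype ι] (y : ι → H →L[ℂ] H), (∀ i, y i ∈ M) →
      (∀ v, ∑ i, ‖y i v‖ ^ 2 ≤ ‖v‖ ^ 2) → (∀ v, ∑ i, ‖star (y i) v‖ ^ 2 ≤ ‖v‖ ^ 2) →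
      ∑ i, ‖y i ξ - rho J (y i) ξ‖ ^ 2 ≤ δ ^ 2 → ∑ i, ‖(y i * a - a * y i) ξ‖ ^ 2 ≤ ε ^ 2

/-- `S` is an isometry of `M` which is nearly an eigen operator of mass `d`. -/
def IsEigen (M : VonNeumannAlgebra H) (ξ : H) (J : H ≃ₗᵢ⋆[ℂ] H) (d e : ℝ) (S : H →L[ℂ] H) : Prop :=
  S ∈ M ∧ star S * S = 1 ∧ ‖((Real.sqrt d : ℝ) : ℂ) • S ξ - rho J S ξ‖ ≤ e

/-- From the bicentralizer to moduli. -/
def ModSpec (M : VonNeumannAlgebra H) (ξ : H) (J : H ≃ₗᵢ⋆[ℂ] H) : Prop :=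
  ∀ a, InBicentralizer H M ξ a → HasMod M ξ J a ∧ HasMod M ξ J (star a)

/-- The walk in `M` makes the modulus uniform. -/
def RowSpec (M : VonNeumannAlgebra H) (ξ : H) (J : H ≃ₗᵢ⋆[ℂ] H) : Prop :=
  ∀ a, HasMod M ξ J a → HasRowMod M ξ J a

/-- Approximate eigen isometries of every mass. -/
def EigenSpec (M : VonNeumannAlgebra H) (ξ : H) (J : H ≃ₗᵢ⋆[ℂ] H) : Prop :=
  ∀ d : ℝ, 0 < d → d ≤ 1 → ∀ e : ℝ, 0 < e → ∃ S, IsEigen M ξ J d e S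

/-- The state of a projection in the centralizer is nearly unitarily equivalent to that of `ξ`. -/
def CornerSpec (M : VonNeumannAlgebra H) (ξ : H) (J : H ≃ₗᵢ⋆[ℂ] H) : Prop :=
  ∀ p ∈ M, star p = p → p * p = p → rho J p ξ = p ξ → p ξ ≠ 0 → ∀ e : ℝ, 0 < e →
    ∃ u ∈ M, star u * u = 1 ∧ u * star u = 1 ∧
      ‖u ξ - rho J u (((‖p ξ‖⁻¹ : ℝ) : ℂ) • p ξ)‖ ≤ e

/-- The amplified walk: near the diagonal of `star (S i) * a * S i` there is a diagonal vector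
nearly commuting with a family of matrix units with coefficients in `M`. -/
def AmpSpec (M : VonNeumannAlgebra H) (ξ : H) (J : H ≃ₗᵢ⋆[ℂ] H) : Prop :=
  ∀ a, HasRowMod M ξ J a → ∀ ε : ℝ, 0 < ε → ∃ δ : ℝ, 0 < δ ∧
    ∀ n : ℕ, 0 < n → ∀ (d : Fin n → ℝ) (S : Fin n → H →L[ℂ] H) (e : ℝ),
      (∀ i, 0 < d i ∧ d i ≤ 1) → (∀ i, IsEigen M ξ J (d i) e (S i)) → (n : ℝ) * e ≤ δ →
      ∀ (κ : Type) [Fintype κ] (x : κ → H →L[ℂ] H) (src tgt : κ → Fin n) (s : ℝ),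
        (∀ k, x k ∈ M) → 0 < s →
        s * ∑ k, (n : ℝ)⁻¹ * ‖((Real.sqrt (d (src k)) : ℝ) : ℂ) • x k ξ
            - ((Real.sqrt (d (tgt k)) : ℝ) : ℂ) • rho J (x k) ξ‖ ^ 2 ≤ δ →
        ∃ η : Fin n → H,
          ∑ i, ‖η i - ((Real.sqrt (d i / n) : ℝ) : ℂ) • (star (S i) * a * S i) ξ‖ ^ 2 ≤ ε ∧
          s * ∑ k, ‖star (x k) (η (tgt k)) - rho J (star (x k)) (η (src k))‖ ^ 2
            ≤ 2048 * (‖a‖ ^ 2 + 1)

/-- The band operators are averages of the modular group. -/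
def IntegralSpec (R : H →L[ℂ] H) (U : ℝ → H →L[ℂ] H) : Prop :=
  ∀ l h : ℝ, 0 < h → ∀ v : H, ∫ t, bandKernel l h t • U t v = band R l h v

/-- The facts about bands used by the main estimate. -/
structure BandSpec (M : VonNeumannAlgebra H) (ξ : H) (R : H →L[ℂ] H) (J : H ≃ₗᵢ⋆[ℂ] H) : Prop where
  exists_band : ∀ u ∈ M, ∀ l h : ℝ, 0 < h → ∃ x ∈ M,
    x ξ = band R l h (u ξ) ∧ rho J x ξ = band R l h (J (star u ξ))
  defect : ∀ W : ℝ, ∃ C : ℝ, ∀ u ∈ M, ∀ h : ℝ, 0 < h → h ≤ 1 → ∀ K : Finset ℤ,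
    (∀ k ∈ K, |(k : ℝ) * h| ≤ W) →
    ∑ k ∈ K, ‖band R (k * h) h (J (star u ξ))
        - ((Real.exp (k * h / 2) : ℝ) : ℂ) • band R (k * h) h (u ξ)‖ ^ 2
      ≤ C * h ^ 2 * ‖u ξ‖ ^ 2
  bessel : ∃ C : ℝ, ∀ v : H, ∀ h : ℝ, 0 < h → ∀ K : Finset ℤ,
    ∑ k ∈ K, ‖band R (k * h) (Real.sqrt 2 * h) v‖ ^ 2 ≤ C * ‖v‖ ^ 2

/-- Conjugation by an approximate eigen isometry increases each band by at most `d^(-1/2)`. -/
def ShiftSpec (M : VonNeumannAlgebra H) (ξ : H) (R : H →L[ℂ] H) (J : H ≃ₗᵢ⋆[ℂ] H) : Prop :=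
  ∀ a ∈ M, ∀ d : ℝ, 0 < d → d ≤ 1 → ∀ l h : ℝ, 0 < h → ∀ ε : ℝ, 0 < ε →
    ∃ e : ℝ, 0 < e ∧ ∀ S, IsEigen M ξ J d e S →
      ‖band R l h ((star S * a * S) ξ)‖ ≤ (Real.sqrt d)⁻¹ * ‖band R l h (a ξ)‖ + ε

/-- Elements with moduli are fixed by the modular group. -/
def SigmaSpec (M : VonNeumannAlgebra H) (ξ : H) (R : H →L[ℂ] H) (J : H ≃ₗᵢ⋆[ℂ] H) : Prop :=
  ∀ a, HasMod M ξ J a → HasMod M ξ J (star a) → R (a ξ) = a ξ

/-- Fixed elements with moduli are scalars. -/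
def FixedSpec (M : VonNeumannAlgebra H) (ξ : H) (R : H →L[ℂ] H) (J : H ≃ₗᵢ⋆[ℂ] H) : Prop :=
  ∀ a, HasMod M ξ J a → HasMod M ξ J (star a) → R (a ξ) = a ξ → R (star a ξ) = star a ξ →
    ∃ c : ℂ, a = c • 1

end VP132
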