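import Vale.Agent.P132.Interface
import Vale.Agent.P132.Row

/-!
P132: elements of the bicentralizer and their adjoints have moduli on unitaries.
-/

open scoped InnerProductSpace
open Filter Topology
open Vale.Agent.P132.Tomita (conjBy Modular)

namespace VP132

variable {H : Type} [NormedAddCommGroup H] [InnerProductSpace ℂ H] [CompleteSpace H]
  {M : VonNeumannAlgebra H} {ξ : H} {R : H →L[ℂ] H} {J : H ≃ₗᵢ⋆[ℂ] H} {U : ℝ → H →L[ℂ] H}

namespace Mod

/-- The defect of `W` at `ξ` bounds the commutator functional. -/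
theorem commutator_le (hm : Modular M ξ R J U) (h1 : ‖ξ‖ = 1) {W y : H →L[ℂ] H} (hW : W ∈ M)
    (hy : y ∈ M) : ‖⟪ξ, (y * W - W * y) ξ⟫_ℂ‖ ≤ 2 * ‖W ξ - rho J W ξ‖ * ‖y‖ := by
  have hr : rho J W ξ = J (star W ξ) := by simp [rho, conjBy, hm.J_xi]
  have hcomm : y (rho J W ξ) = rho J W (y ξ) := by
    have h := VonNeumannAlgebra.mem_commutant_iff.1 (hm.conj_mem _ (star_mem hW)) y hy
    exact congrArg (fun T : H →L[ℂ] H => T ξ) h
  have hin : ⟪ξ, rho J W (y ξ)⟫_ℂ = ⟪J (W ξ), y ξ⟫_ℂ := by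
    show ⟪ξ, J (star W (J (y ξ)))⟫_ℂ = _
    conv_lhs => rw [← hm.J_xi, Row.inner_J, ContinuousLinearMap.star_eq_adjoint,
      ContinuousLinearMap.adjoint_inner_left]
    conv_rhs => rw [← hm.J_J (y ξ), Row.inner_J]
    rw [hm.J_xi]
  have hW' : ⟪ξ, W (y ξ)⟫_ℂ = ⟪star W ξ, y ξ⟫_ℂ := by
    rw [ContinuousLinearMap.star_eq_adjoint, ContinuousLinearMap.adjoint_inner_left]
  have e : ⟪ξ, (y * W - W * y) ξ⟫_ℂ
      = ⟪ξ, y (W ξ - rho J W ξ)⟫_ℂ + ⟪J (W ξ) - star W ξ, y ξ⟫_ℂ := by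
    simp only [sub_apply, mul_apply_eq_comp, map_sub, inner_sub_right, inner_sub_left, hcomm, hin,
      hW']
    ring
  have hd : ‖J (W ξ) - star W ξ‖ = ‖W ξ - rho J W ξ‖ := by
    rw [← J.norm_map (W ξ - rho J W ξ), map_sub, hr, hm.J_J]
  rw [e]
  refine (norm_add_le _ _).trans ?_
  have a1 := norm_inner_le_norm (𝕜 := ℂ) ξ (y (W ξ - rho J W ξ))
  have a2 := norm_inner_le_norm (𝕜 := ℂ) (J (W ξ) - star W ξ) (y ξ)
  have a3 := y.le_opNorm (W ξ - rho J W ξ)
  have a4 := y.le_opNorm ξ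
  rw [h1, mul_one] at a4
  rw [h1, one_mul] at a1
  rw [hd] at a2
  nlinarith [norm_nonneg (W ξ - rho J W ξ), norm_nonneg (y ξ)]

theorem norm_unitary_apply {W : H →L[ℂ] H} (h : star W * W = 1) (w : H) : ‖W w‖ = ‖w‖ :=
  (ContinuousLinearMap.norm_map_iff_adjoint_comp_self W).2
    (by rw [← ContinuousLinearMap.star_eq_adjoint]; exact h) w

/-- A sequence of unitaries with vanishing defect asymptotically centralizes. -/
theorem asymp (hm : Modular M ξ R J U) (h1 : ‖ξ‖ = 1) {W : ℕ → H →L[ℂ] H}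
    (hW : ∀ n, W n ∈ M) (hu : ∀ n, star (W n) * W n = 1)
    (hd : Tendsto (fun n => ‖W n ξ - rho J (W n) ξ‖) atTop (𝓝 0)) :
    AsympCentralizes H M ξ W := by
  refine ⟨⟨hW, 1, fun n => ContinuousLinearMap.opNorm_le_bound _ zero_le_one fun w => by
    rw [norm_unitary_apply (hu n), one_mul]⟩, fun ε hε => ?_⟩
  have h2 : ∀ᶠ n in atTop, ‖W n ξ - rho J (W n) ξ‖ < ε / 2 :=
    hd.eventually_lt_const (half_pos hε)
  filter_upwards [h2] with n hn y hy
  refine (commutator_le hm h1 (hW n) hy).trans ?_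
  nlinarith [norm_nonneg y]

/-- Unitaries of small defect, along which the commutator stays away from zero. -/
theorem exists_bad {a : H →L[ℂ] H} (ha : a ∈ M) (h : ¬ HasMod M ξ J a) :
    ∃ ε : ℝ, 0 < ε ∧ ∃ W : ℕ → H →L[ℂ] H, (∀ n, W n ∈ M) ∧ (∀ n, star (W n) * W n = 1) ∧
      (∀ n, W n * star (W n) = 1) ∧
      Tendsto (fun n => ‖W n ξ - rho J (W n) ξ‖) atTop (𝓝 0) ∧
      ∀ n, ε < ‖(W n * a - a * W n) ξ‖ := by
  simp only [HasMod, ha, true_and, not_forall] at h
  obtain ⟨ε, hε, h⟩ := h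
  push Not at h
  choose W h1 h2 h3 h4 h5 using fun n : ℕ => h (1 / ((n : ℝ) + 1)) (by positivity)
  exact ⟨ε, hε, W, h1, h2, h3, squeeze_zero (fun n => norm_nonneg _) h4
    tendsto_one_div_add_atTop_nhds_zero_nat, h5⟩

end Mod

open Mod

/-- Elements of the bicentralizer and their adjoints have moduli. -/
theorem modSpec (hm : Modular M ξ R J U) (hs : IsStandardVector H M ξ) : ModSpec M ξ J := by
  intro a ha
  constructor
  · by_contra hno
    obtain ⟨ε, hε, W, h1, h2, _, h4, h5⟩ := exists_bad ha.1 hno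
    have h6 := (ha.2 W (asymp hm hs.1 h1 h2 h4) ξ).norm
    rw [norm_zero] at h6
    obtain ⟨n, hn⟩ := (h6.eventually_lt_const hε).exists
    have h7 := h5 n
    rw [sub_apply, ← norm_neg, neg_sub, ← sub_apply] at h7
    linarith
  · by_contra hno
    obtain ⟨ε, hε, W, h1, h2, h3, h4, h5⟩ := exists_bad (star_mem ha.1) hno
    have has := asymp hm hs.1 h1 h2 h4
    set v := star a ξ with hv
    set z := a * star a with hz
    have hcr : Tendsto (fun n => ‖(a * W n - W n * a) v‖) atTop (𝓝 0) := by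
      simpa using (ha.2 W has v).norm
    have key : ∀ n, ‖(W n * star a - star a * W n) ξ‖ ^ 2 ≤
        2 * ‖W n ξ - rho J (W n) ξ‖ * ‖z‖ + 2 * ‖(a * W n - W n * a) v‖ := by
      intro n
      have hy : star (W n) * z ∈ M := mul_mem (star_mem (h1 n)) (mul_mem ha.1 (star_mem ha.1))
      have b1 := commutator_le hm hs.1 (h1 n) hy
      have b2 : ‖star (W n) * z‖ ≤ ‖z‖ := by
        refine ContinuousLinearMap.opNorm_le_bound _ (norm_nonneg _) fun w => ?_
        rw [mul_apply_eq_comp, norm_unitary_apply (by rw [star_star]; exact h3 n)]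
        exact z.le_opNorm w
      have e1 : ⟪ξ, (star (W n) * z * W n - W n * (star (W n) * z)) ξ⟫_ℂ
          = ⟪star a (W n ξ), star a (W n ξ)⟫_ℂ - ⟪v, v⟫_ℂ := by
        rw [← mul_assoc (W n), h3 n, one_mul, sub_apply, inner_sub_right]
        have hadj : ∀ (x : H →L[ℂ] H) (u w : H), ⟪star x u, w⟫_ℂ = ⟪u, x w⟫_ℂ := fun x u w => by
          rw [ContinuousLinearMap.star_eq_adjoint, ContinuousLinearMap.adjoint_inner_left]
        rw [hv, hadj, hadj, hz, mul_apply_eq_comp, mul_apply_eq_comp, mul_apply_eq_comp,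
          mul_apply_eq_comp]
        congr 1
        rw [← star_star (W n), hadj, star_star]
      have e2 : ⟪W n v, star a (W n ξ)⟫_ℂ
          = ⟪(a * W n - W n * a) v, W n ξ⟫_ℂ + ⟪W n (a v), W n ξ⟫_ℂ := by
        simp only [sub_apply, mul_apply_eq_comp, inner_sub_left,
          ContinuousLinearMap.star_eq_adjoint, ContinuousLinearMap.adjoint_inner_right]
        ring
      have e3 : ⟪W n (a v), W n ξ⟫_ℂ = ⟪v, v⟫_ℂ := by
        rw [← ContinuousLinearMap.adjoint_inner_right, ← ContinuousLinearMap.star_eq_adjoint,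
          ← mul_apply_eq_comp (star (W n)), h2 n, one_apply_eq_self, hv]
        simp only [ContinuousLinearMap.star_eq_adjoint, ContinuousLinearMap.adjoint_inner_right]
      have c1 := congrArg Complex.re e1
      have c2 := congrArg Complex.re (e2.trans (by rw [e3]))
      have hsq : ∀ x : H, (⟪x, x⟫_ℂ).re = ‖x‖ ^ 2 := fun x => inner_self_eq_norm_sq (𝕜 := ℂ) x
      simp only [Complex.sub_re, Complex.add_re, hsq] at c1 c2
      have d1 : ‖(W n * star a - star a * W n) ξ‖ ^ 2 = ‖v‖ ^ 2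
          - 2 * (⟪W n v, star a (W n ξ)⟫_ℂ).re + ‖star a (W n ξ)‖ ^ 2 := by
        rw [sub_apply, mul_apply_eq_comp, mul_apply_eq_comp, ← hv, norm_sub_sq (𝕜 := ℂ),
          norm_unitary_apply (h2 n)]
        rfl
      have d2 := (Complex.abs_re_le_norm _).trans
        (norm_inner_le_norm (𝕜 := ℂ) ((a * W n - W n * a) v) (W n ξ))
      rw [norm_unitary_apply (h2 n), hs.1, mul_one] at d2
      have d3 := (le_abs_self _).trans ((Complex.abs_re_le_norm _).trans b1)
      have d4 := neg_le_abs (⟪(a * W n - W n * a) v, W n ξ⟫_ℂ).re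
      nlinarith [norm_nonneg (W n ξ - rho J (W n) ξ)]
    have h6 : Tendsto (fun n => 2 * ‖W n ξ - rho J (W n) ξ‖ * ‖z‖
        + 2 * ‖(a * W n - W n * a) v‖) atTop (𝓝 0) := by
      simpa using ((h4.const_mul 2).mul_const ‖z‖).add (hcr.const_mul 2)
    obtain ⟨n, hn⟩ := (h6.eventually_lt_const (pow_pos hε 2)).exists
    nlinarith [key n, h5 n, hε]

end VP132
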