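import Vale.Agent.P132.Assemble
import Vale.Agent.P132.Mod
import Vale.Agent.P132.Sigma
import Vale.Agent.P132.Fixed
import Vale.Agent.P132.Row
import Vale.Agent.P132.Cone.Eigen
import Vale.Agent.P132.Tomita.Main

/-!
P132: the bicentralizer of every faithful normal state is trivial.
-/

open Vale.Agent.P132.Tomita

namespace VP132

/-- The bicentralizer is trivial. -/
theorem target : Target := by
  intro H _ _ _ M ξ hs _ hh hp a ha
  obtain ⟨R, J, U, hm⟩ := exists_modular M ξ ⟨hs.2.1, hs.2.2⟩ hs.1
  exact scalar_of_specs (modSpec hm hs) (sigmaSpec hm)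
    (fixedSpec hm hs (rowSpec hm) (eigenSpec hm hs hh hp) (cornerSpec hm hs hh)) ha

end VP132
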