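import Mathlib

/-!
P132, the random walk: a vector which is almost fixed by every group element that almost fixes `ξ`
is close to a vector almost commuting with every family of small total defect at `ξ`.
-/

open scoped InnerProductSpace

namespace VP132.Walk

variable {E : Type*} [NormedAddCommGroup E] [InnerProductSpace ℂ E] [CompleteSpace E]

/-- The average of a finite family of operators. -/
noncomputable def avg {ι : Type*} [Fintype ι] (U : ι → E →L[ℂ] E) : E →L[ℂ] E :=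
  ((Fintype.card ι : ℝ)⁻¹ : ℂ) • ∑ i, U i

omit [CompleteSpace E] in
theorem avg_apply {ι : Type*} [Fintype ι] (U : ι → E →L[ℂ] E) (x : E) :
    avg U x = ((Fintype.card ι : ℝ)⁻¹ : ℂ) • ∑ i, U i x := by
  simp [avg]

omit [CompleteSpace E] in
theorem norm_avg_sub_le {ι : Type*} [Fintype ι] [Nonempty ι] (U : ι → E →L[ℂ] E) (x : E) :
    ‖avg U x - x‖ ≤ (Fintype.card ι : ℝ)⁻¹ * ∑ i, ‖U i x - x‖ := by
  have hn : (Fintype.card ι : ℂ) ≠ 0 := by exact_mod_cast Fintype.card_ne_zero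
  have h : avg U x - x = ((Fintype.card ι : ℝ)⁻¹ : ℂ) • ∑ i, (U i x - x) := by
    rw [avg_apply, Finset.sum_sub_distrib, smul_sub, Finset.sum_const, Finset.card_univ,
      ← Nat.cast_smul_eq_nsmul ℂ, smul_smul]
    push_cast
    rw [inv_mul_cancel₀ hn, one_smul]
  rw [h, norm_smul]
  gcongr
  · simp
  · exact norm_sum_le _ _

omit [CompleteSpace E] in
/-- For isometries the mean squared displacement is twice the quadratic form of `1 - avg`. -/
theorem sum_sq_eq {ι : Type*} [Fintype ι] [Nonempty ι] (U : ι → E →L[ℂ] E)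
    (hU : ∀ i x, ‖U i x‖ = ‖x‖) (x : E) :
    (Fintype.card ι : ℝ)⁻¹ * ∑ i, ‖U i x - x‖ ^ 2
      = 2 * (‖x‖ ^ 2 - RCLike.re ⟪avg U x, x⟫_ℂ) := by
  have hn : (Fintype.card ι : ℝ) ≠ 0 := by exact_mod_cast Fintype.card_ne_zero
  simp only [norm_sub_sq (𝕜 := ℂ), hU, avg_apply, inner_smul_left, sum_inner]
  rw [Finset.sum_add_distrib, Finset.sum_sub_distrib, ← Finset.mul_sum, Finset.sum_const,
    Finset.card_univ, ← map_sum, nsmul_eq_mul]
  simp
  field_simp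
  ring

omit [CompleteSpace E] in
/-- Powers of the average are averages of members of the monoid. -/
theorem exists_pow_eq {ι : Type*} [Fintype ι] [Nonempty ι] (S : Submonoid (E →L[ℂ] E))
    (U : ι → E →L[ℂ] E) (hU : ∀ i, U i ∈ S) (j : ℕ) :
    ∃ (κ : Type (max u_1 u_2)) (_ : Fintype κ) (_ : Nonempty κ) (g : κ → E →L[ℂ] E),
      (∀ k, g k ∈ S) ∧ avg g = avg U ^ j := by
  induction j with
  | zero =>
    exact ⟨PUnit, inferInstance, inferInstance, fun _ => 1,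
      fun _ => S.one_mem, by simp [avg]⟩
  | succ j ih =>
    obtain ⟨κ, _, _, g, hg, he⟩ := ih
    refine ⟨κ × ι, inferInstance, inferInstance, fun p => g p.1 * U p.2,
      fun p => S.mul_mem (hg p.1) (hU p.2), ?_⟩
    rw [pow_succ, ← he]
    simp only [avg, Fintype.card_prod, Fintype.sum_prod_type, smul_mul_assoc, mul_smul_comm,
      smul_smul, ← Finset.sum_mul_sum]
    congr 1
    push_cast
    ring

/-- The values `re ⟪P^j x, x⟫` of a positive operator decrease at most linearly. -/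
theorem pow_decay (P : E →L[ℂ] E) (hP : IsSelfAdjoint P)
    (hpos : ∀ x, 0 ≤ RCLike.re ⟪P x, x⟫_ℂ) (x : E) (j : ℕ) :
    ‖x‖ ^ 2 - RCLike.re ⟪(P ^ j) x, x⟫_ℂ ≤ j * (‖x‖ ^ 2 - RCLike.re ⟪P x, x⟫_ℂ) := by
  set a : ℕ → ℝ := fun i => RCLike.re ⟪(P ^ i) x, x⟫_ℂ with ha
  have sym : ∀ u v, ⟪P u, v⟫_ℂ = ⟪u, P v⟫_ℂ := fun u v => hP.isSymmetric u v
  have pp : ∀ (i : ℕ) (y : E), 0 ≤ RCLike.re ⟪(P ^ i) y, y⟫_ℂ := by
    intro i
    induction i using Nat.twoStepInduction with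
    | zero => intro y; simpa using inner_self_nonneg (𝕜 := ℂ) (x := y)
    | one => intro y; simpa using hpos y
    | more i h _ =>
      intro y
      have e : (P ^ (i + 2)) y = P ((P ^ i) (P y)) := by
        rw [pow_succ, pow_succ']; rfl
      rw [e, sym]
      exact h (P y)
  have a0 : a 0 = ‖x‖ ^ 2 := by simp [ha, ← Complex.ofReal_pow]
  have conv : ∀ i, a (i + 1) - a (i + 2) ≤ a i - a (i + 1) := by
    intro i
    have h := pp i (x - P x)
    have e1 : (P ^ i) (P x) = (P ^ (i + 1)) x := by rw [pow_succ]; rfl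
    have e2 : ⟪(P ^ (i + 1)) x, P x⟫_ℂ = ⟪(P ^ (i + 2)) x, x⟫_ℂ := by
      rw [← sym, show P ((P ^ (i + 1)) x) = (P ^ (i + 2)) x by
        rw [pow_succ' P (i + 1)]; rfl]
    have e3 : ⟪(P ^ i) x, P x⟫_ℂ = ⟪(P ^ (i + 1)) x, x⟫_ℂ := by
      rw [← sym, pow_succ' P i]; rfl
    simp only [map_sub, inner_sub_left, inner_sub_right, e1, e2, e3] at h
    simp only [ha]
    linarith
  have step : ∀ i, a i - a (i + 1) ≤ a 0 - a 1 := by
    intro i
    induction i with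
    | zero => simp
    | succ i ih => exact (conv i).trans ih
  have : a 0 - a j ≤ j * (a 0 - a 1) := by
    induction j with
    | zero => simp
    | succ j ih => push_cast; linarith [step j]
  rw [a0] at this
  simpa only [ha, pow_one] using this

omit [CompleteSpace E] in
theorem re_lazy (T : E →L[ℂ] E) (x : E) :
    RCLike.re ⟪((2 : ℂ)⁻¹ • (T + 1)) x, x⟫_ℂ = (RCLike.re ⟪T x, x⟫_ℂ + ‖x‖ ^ 2) / 2 := by
  rw [smul_apply, inner_smul_left, add_apply,
    one_apply_eq_self, inner_add_left, ← inner_self_eq_norm_sq (𝕜 := ℂ) x]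
  simp only [map_inv₀, RCLike.re_to_complex, Complex.mul_re, Complex.add_re, Complex.add_im]
  simp
  ring

omit [CompleteSpace E] in
theorem norm_avg_apply_le {ι : Type*} [Fintype ι] [Nonempty ι] (U : ι → E →L[ℂ] E)
    (hU : ∀ i x, ‖U i x‖ = ‖x‖) (x : E) : ‖avg U x‖ ≤ ‖x‖ := by
  have hn : (Fintype.card ι : ℝ) ≠ 0 := by exact_mod_cast Fintype.card_ne_zero
  rw [avg_apply, norm_smul]
  calc _ ≤ (Fintype.card ι : ℝ)⁻¹ * ∑ i, ‖U i x‖ := by
        gcongr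
        · simp
        · exact norm_sum_le _ _
    _ = ‖x‖ := by simp only [hU, Finset.sum_const, Finset.card_univ, nsmul_eq_mul]; field_simp

omit [CompleteSpace E] in
theorem avg_lazy {ι : Type*} [Fintype ι] [Nonempty ι] (U : ι → E →L[ℂ] E) :
    avg (Sum.elim U (fun _ : ι => (1 : E →L[ℂ] E))) = (2 : ℂ)⁻¹ • (avg U + 1) := by
  have hn : (Fintype.card ι : ℂ) ≠ 0 := by exact_mod_cast Fintype.card_ne_zero
  simp only [avg, Fintype.sum_sum_type, Fintype.card_sum, Sum.elim_inl, Sum.elim_inr,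
    Finset.sum_const, Finset.card_univ, ← Nat.cast_smul_eq_nsmul ℂ]
  push_cast
  match_scalars <;> field_simp <;> ring

/-- A symmetric average of isometries of a monoid with a modulus: the orbit mean of `η`. -/
theorem exists_near_almost_fixed {ι : Type*} [Fintype ι] [Nonempty ι]
    (S : Submonoid (E →L[ℂ] E)) (hS : ∀ g ∈ S, ∀ x, ‖g x‖ = ‖x‖)
    (U : ι → E →L[ℂ] E) (hU : ∀ i, U i ∈ S) (hsa : IsSelfAdjoint (avg U))
    (ξ η : E) {e d : ℝ} (he : 0 ≤ e) (hd : 0 < d)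
    (hmod : ∀ g ∈ S, ‖g ξ - ξ‖ ≤ d → ‖g η - η‖ ≤ e) (k : ℕ) (hk : 0 < k) :
    ∃ η' : E,
      ‖η' - η‖ ≤ e + 2 * ‖η‖ / d ^ 2 * (k * ((Fintype.card ι : ℝ)⁻¹ * ∑ i, ‖U i ξ - ξ‖ ^ 2)) ∧
      (Fintype.card ι : ℝ)⁻¹ * ∑ i, ‖U i η' - η'‖ ^ 2 ≤ 8 * ‖η‖ ^ 2 / k := by
  let V : ι ⊕ ι → E →L[ℂ] E := Sum.elim U (fun _ => 1)
  have hV : ∀ i, V i ∈ S := by
    rintro (i | i)
    · exact hU i
    · exact S.one_mem
  have hn : (Fintype.card ι : ℝ) ≠ 0 := by exact_mod_cast Fintype.card_ne_zero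
  have hnC : (Fintype.card ι : ℂ) ≠ 0 := by exact_mod_cast Fintype.card_ne_zero
  set P := avg V with hPdef
  have hPU : P = (2 : ℂ)⁻¹ • (avg U + 1) := avg_lazy U
  have hP : IsSelfAdjoint P := by
    rw [hPU]
    refine IsSelfAdjoint.smul ?_ (hsa.add (IsSelfAdjoint.one _))
    simp [IsSelfAdjoint]
  have hsq : ∀ x, (Fintype.card ι : ℝ)⁻¹ * ∑ i, ‖U i x - x‖ ^ 2
      = 4 * (‖x‖ ^ 2 - RCLike.re ⟪P x, x⟫_ℂ) := by
    intro x
    rw [sum_sq_eq U (fun i => hS _ (hU i)) x, hPU, re_lazy]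
    ring
  have hpos : ∀ x, 0 ≤ RCLike.re ⟪P x, x⟫_ℂ := by
    intro x
    have h1 := (abs_le.1 ((RCLike.abs_re_le_norm _).trans
      (norm_inner_le_norm (𝕜 := ℂ) (avg U x) x))).1
    have h2 := mul_le_mul_of_nonneg_right
      (norm_avg_apply_le U (fun i => hS _ (hU i)) x) (norm_nonneg x)
    rw [hPU, re_lazy]
    nlinarith
  set D := (Fintype.card ι : ℝ)⁻¹ * ∑ i, ‖U i ξ - ξ‖ ^ 2 with hD
  have hD0 : 0 ≤ D := by positivity
  have pw : ∀ j : ℕ, ‖(P ^ j) η - η‖ ≤ e + 2 * ‖η‖ / d ^ 2 * (j * D) := by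
    intro j
    obtain ⟨κ, _, _, g, hg, hge⟩ := exists_pow_eq S V hV j
    have hgi : ∀ k x, ‖g k x‖ = ‖x‖ := fun k => hS _ (hg k)
    have hk1 : ∀ k, ‖g k η - η‖ ≤ e + 2 * ‖η‖ / d ^ 2 * ‖g k ξ - ξ‖ ^ 2 := by
      intro k
      by_cases h : ‖g k ξ - ξ‖ ≤ d
      · exact (hmod _ (hg k) h).trans (le_add_of_nonneg_right (by positivity))
      · have h1 : 1 ≤ ‖g k ξ - ξ‖ ^ 2 / d ^ 2 := by
          rw [le_div_iff₀ (by positivity), one_mul]; gcongr; linarith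
        have h2 : ‖g k η - η‖ ≤ 2 * ‖η‖ := by
          linarith [norm_sub_le (g k η) η, hgi k η]
        have h3 : 2 * ‖η‖ ≤ 2 * ‖η‖ * (‖g k ξ - ξ‖ ^ 2 / d ^ 2) :=
          le_mul_of_one_le_right (by positivity) h1
        have h4 : 2 * ‖η‖ / d ^ 2 * ‖g k ξ - ξ‖ ^ 2
            = 2 * ‖η‖ * (‖g k ξ - ξ‖ ^ 2 / d ^ 2) := by ring
        linarith
    have hs := sum_sq_eq g hgi ξ
    have hdec := pow_decay P hP hpos ξ j
    rw [hge] at hs
    have hm : (Fintype.card κ : ℝ) ≠ 0 := by exact_mod_cast Fintype.card_ne_zero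
    have hDj : (Fintype.card κ : ℝ)⁻¹ * ∑ k, ‖g k ξ - ξ‖ ^ 2 ≤ j * D := by
      rw [hs, hD, hsq ξ]
      have : 0 ≤ j * (‖ξ‖ ^ 2 - RCLike.re ⟪P ξ, ξ⟫_ℂ) := by
        have := hsq ξ; rw [← hD] at this
        exact mul_nonneg (Nat.cast_nonneg j) (by linarith)
      linarith
    rw [← hge]
    refine (norm_avg_sub_le g η).trans ?_
    calc (Fintype.card κ : ℝ)⁻¹ * ∑ k, ‖g k η - η‖
        ≤ (Fintype.card κ : ℝ)⁻¹ * ∑ k, (e + 2 * ‖η‖ / d ^ 2 * ‖g k ξ - ξ‖ ^ 2) := by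
          gcongr with k; exact hk1 k
      _ = e + 2 * ‖η‖ / d ^ 2 * ((Fintype.card κ : ℝ)⁻¹ * ∑ k, ‖g k ξ - ξ‖ ^ 2) := by
          rw [Finset.sum_add_distrib, ← Finset.mul_sum, Finset.sum_const, Finset.card_univ,
            nsmul_eq_mul]
          field_simp
      _ ≤ _ := by gcongr
  have hkne : (k : ℂ) ≠ 0 := by exact_mod_cast hk.ne'
  have hkR : (0 : ℝ) < k := by exact_mod_cast hk
  refine ⟨((k : ℝ)⁻¹ : ℂ) • ∑ j ∈ Finset.range k, (P ^ j) η, ?_, ?_⟩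
  · have h : ((k : ℝ)⁻¹ : ℂ) • ∑ j ∈ Finset.range k, (P ^ j) η - η
        = ((k : ℝ)⁻¹ : ℂ) • ∑ j ∈ Finset.range k, ((P ^ j) η - η) := by
      rw [Finset.sum_sub_distrib, smul_sub, Finset.sum_const, Finset.card_range,
        ← Nat.cast_smul_eq_nsmul ℂ, smul_smul]
      push_cast
      rw [inv_mul_cancel₀ hkne, one_smul]
    rw [h, norm_smul]
    calc _ ≤ (k : ℝ)⁻¹ * ∑ j ∈ Finset.range k, (e + 2 * ‖η‖ / d ^ 2 * (k * D)) := by
          gcongr
          · simp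
          · refine (norm_sum_le _ _).trans (Finset.sum_le_sum fun j hj => (pw j).trans ?_)
            gcongr
            exact (Finset.mem_range.1 hj).le
      _ = _ := by rw [Finset.sum_const, Finset.card_range, nsmul_eq_mul]; field_simp
  · set η' := ((k : ℝ)⁻¹ : ℂ) • ∑ j ∈ Finset.range k, (P ^ j) η with hη'
    have hPc : ∀ (j : ℕ) x, ‖(P ^ j) x‖ ≤ ‖x‖ := by
      intro j x
      obtain ⟨κ, _, _, g, hg, hge⟩ := exists_pow_eq S V hV j
      rw [← hge]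
      exact norm_avg_apply_le g (fun i => hS _ (hg i)) x
    have hn' : ‖η'‖ ≤ ‖η‖ := by
      rw [hη', norm_smul]
      calc _ ≤ (k : ℝ)⁻¹ * ∑ j ∈ Finset.range k, ‖η‖ := by
            gcongr
            · simp
            · exact (norm_sum_le _ _).trans (Finset.sum_le_sum fun j _ => hPc j η)
        _ = ‖η‖ := by rw [Finset.sum_const, Finset.card_range, nsmul_eq_mul]; field_simp
    have htel : η' - P η' = ((k : ℝ)⁻¹ : ℂ) • (η - (P ^ k) η) := by
      rw [hη', map_smul, map_sum, ← smul_sub, ← Finset.sum_sub_distrib]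
      congr 1
      have e : ∀ j, P ((P ^ j) η) = (P ^ (j + 1)) η := fun j => by rw [pow_succ']; rfl
      simp only [e]
      rw [Finset.sum_range_sub' (fun j => (P ^ j) η)]
      simp
    have hre : ‖η'‖ ^ 2 - RCLike.re ⟪P η', η'⟫_ℂ = RCLike.re ⟪η' - P η', η'⟫_ℂ := by
      rw [inner_sub_left, map_sub, inner_self_eq_norm_sq (𝕜 := ℂ)]
    rw [hsq η', hre]
    have hb : ‖η' - P η'‖ ≤ 2 * ‖η‖ / k := by
      rw [htel, norm_smul]
      calc _ ≤ (k : ℝ)⁻¹ * (‖η‖ + ‖η‖) := by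
            gcongr
            · simp
            · exact (norm_sub_le _ _).trans (add_le_add le_rfl (hPc k η))
        _ = _ := by ring
    have := (abs_le.1 ((RCLike.abs_re_le_norm _).trans (norm_inner_le_norm (𝕜 := ℂ) (η' - P η') η'))).2
    have h2 : ‖η' - P η'‖ * ‖η'‖ ≤ 2 * ‖η‖ / k * ‖η‖ := by gcongr
    calc 4 * RCLike.re ⟪η' - P η', η'⟫_ℂ ≤ 4 * (2 * ‖η‖ / k * ‖η‖) := by linarith
      _ = _ := by ring

end VP132.Walk
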